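import Vale.Agent.P366.MathlibUsed

/-! Algebraic identities behind the Riccati equation and the Codazzi equation. -/

noncomputable section
namespace Vale.Agent.H106

variable {n : ℕ}

/-- the algebra of the Riccati equation `div (∇_X X) - X (div X) = tr (∇X ∘ ∇X) + Ric (X, X)` -/
theorem riccati_alg (X : Fin n → ℝ) (D : Fin n → Fin n → ℝ) (DD : Fin n → Fin n → Fin n → ℝ)
    (Γ : Fin n → Fin n → Fin n → ℝ) (dΓ : Fin n → Fin n → Fin n → Fin n → ℝ)
    (hDD : ∀ i j k, DD i j k = DD j i k) (hΓ : ∀ k i j, Γ k i j = Γ k j i)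
    (hdΓ : ∀ m k i j, dΓ m k i j = dΓ m k j i) :
    (∑ j, ∑ i, (D j i * (D i j + ∑ k, Γ j i k * X k) +
        X i * (DD j i j + ∑ k, (dΓ j j i k * X k + Γ j i k * D j k)))) +
      (∑ j, (∑ k, Γ k k j) * ∑ i, X i * (D i j + ∑ k, Γ j i k * X k)) -
      (∑ i, X i * ∑ j, (DD i j j + ∑ k, (dΓ i j j k * X k + Γ j j k * D i k))) =
    (∑ i, ∑ j, (D i j + ∑ k, Γ j i k * X k) * (D j i + ∑ k, Γ i j k * X k)) +
      ∑ i, ∑ j, X i * X j * ∑ k, (dΓ k k i j - dΓ j k i k +
        ∑ l, (Γ k k l * Γ l i j - Γ k j l * Γ l i k)) := by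
  set M : Fin n → Fin n → ℝ := fun i j => ∑ k, Γ j i k * X k with hM
  set L : Fin n → ℝ := fun j => ∑ k, Γ k k j with hL
  have hM' : ∀ i j, ∑ k, Γ j i k * X k = M i j := fun _ _ => rfl
  -- second derivatives
  have a1 : ∑ j, ∑ i, X i * DD j i j = ∑ i, X i * ∑ j, DD i j j := by
    rw [Finset.sum_comm]
    refine Finset.sum_congr rfl fun i _ => ?_
    rw [Finset.mul_sum]
    exact Finset.sum_congr rfl fun j _ => by rw [hDD j i j]
  -- derivatives of `Γ`
  have a2 : (∑ j, ∑ i, X i * ∑ k, dΓ j j i k * X k) - (∑ i, X i * ∑ j, ∑ k, dΓ i j j k * X k) =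
      ∑ i, ∑ j, X i * X j * ∑ k, (dΓ k k i j - dΓ j k i k) := by
    have e1 : ∑ j, ∑ i, X i * ∑ k, dΓ j j i k * X k = ∑ i, ∑ j, X i * X j * ∑ k, dΓ k k i j := by
      calc ∑ j, ∑ i, X i * ∑ k, dΓ j j i k * X k = ∑ j, ∑ i, ∑ k, X i * X k * dΓ j j i k := by
            refine Finset.sum_congr rfl fun j _ => Finset.sum_congr rfl fun i _ => ?_
            rw [Finset.mul_sum]
            exact Finset.sum_congr rfl fun k _ => by ring
        _ = ∑ i, ∑ j, ∑ k, X i * X k * dΓ j j i k := Finset.sum_comm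
        _ = ∑ i, ∑ k, ∑ j, X i * X k * dΓ j j i k :=
            Finset.sum_congr rfl fun i _ => Finset.sum_comm
        _ = _ := by
            refine Finset.sum_congr rfl fun i _ => Finset.sum_congr rfl fun j _ => ?_
            rw [Finset.mul_sum]
    have e2 : ∑ i, X i * ∑ j, ∑ k, dΓ i j j k * X k = ∑ i, ∑ j, X i * X j * ∑ k, dΓ j k i k := by
      calc ∑ i, X i * ∑ j, ∑ k, dΓ i j j k * X k = ∑ i, ∑ j, ∑ k, X i * X k * dΓ i j k j := by
            refine Finset.sum_congr rfl fun i _ => ?_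
            rw [Finset.mul_sum]
            refine Finset.sum_congr rfl fun j _ => ?_
            rw [Finset.mul_sum]
            exact Finset.sum_congr rfl fun k _ => by rw [hdΓ i j j k]; ring
        _ = ∑ i, ∑ k, ∑ j, X i * X k * dΓ i j k j :=
            Finset.sum_congr rfl fun i _ => Finset.sum_comm
        _ = ∑ k, ∑ i, ∑ j, X i * X k * dΓ i j k j := Finset.sum_comm
        _ = _ := by
            refine Finset.sum_congr rfl fun i _ => Finset.sum_congr rfl fun j _ => ?_
            rw [Finset.mul_sum]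
            exact Finset.sum_congr rfl fun k _ => by ring
    rw [e1, e2, ← Finset.sum_sub_distrib]
    refine Finset.sum_congr rfl fun i _ => ?_
    rw [← Finset.sum_sub_distrib]
    refine Finset.sum_congr rfl fun j _ => ?_
    rw [Finset.sum_sub_distrib]
    ring
  -- `Γ ∂X` terms
  have a3 : ∑ j, ∑ i, X i * ∑ k, Γ j i k * D j k = ∑ i, ∑ j, M i j * D j i := by
    calc ∑ j, ∑ i, X i * ∑ k, Γ j i k * D j k = ∑ j, ∑ i, ∑ k, Γ j k i * X i * D j k := by
          refine Finset.sum_congr rfl fun j _ => Finset.sum_congr rfl fun i _ => ?_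
          rw [Finset.mul_sum]
          exact Finset.sum_congr rfl fun k _ => by rw [hΓ j i k]; ring
      _ = ∑ j, ∑ k, ∑ i, Γ j k i * X i * D j k :=
          Finset.sum_congr rfl fun j _ => Finset.sum_comm
      _ = ∑ k, ∑ j, ∑ i, Γ j k i * X i * D j k := Finset.sum_comm
      _ = _ := by
          refine Finset.sum_congr rfl fun i _ => Finset.sum_congr rfl fun j _ => ?_
          rw [hM, Finset.sum_mul]
  have a4 : ∑ i, X i * ∑ j, ∑ k, Γ j j k * D i k = ∑ j, L j * ∑ i, X i * D i j := by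
    calc ∑ i, X i * ∑ j, ∑ k, Γ j j k * D i k = ∑ i, ∑ j, ∑ k, Γ j j k * (X i * D i k) := by
          refine Finset.sum_congr rfl fun i _ => ?_
          rw [Finset.mul_sum]
          refine Finset.sum_congr rfl fun j _ => ?_
          rw [Finset.mul_sum]
          exact Finset.sum_congr rfl fun k _ => by ring
      _ = ∑ i, ∑ k, ∑ j, Γ j j k * (X i * D i k) :=
          Finset.sum_congr rfl fun i _ => Finset.sum_comm
      _ = ∑ k, ∑ i, ∑ j, Γ j j k * (X i * D i k) := Finset.sum_comm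
      _ = _ := by
          refine Finset.sum_congr rfl fun k _ => ?_
          rw [hL, Finset.mul_sum]
          exact Finset.sum_congr rfl fun i _ => by rw [Finset.sum_mul]
  -- quadratic terms
  have a5 : ∑ i, ∑ j, X i * X j * ∑ k, ∑ l, Γ k k l * Γ l i j = ∑ j, L j * ∑ i, X i * M i j := by
    calc ∑ i, ∑ j, X i * X j * ∑ k, ∑ l, Γ k k l * Γ l i j
        = ∑ i, ∑ j, ∑ l, (L l * (X i * (Γ l i j * X j))) := by
          refine Finset.sum_congr rfl fun i _ => Finset.sum_congr rfl fun j _ => ?_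
          rw [Finset.sum_comm, Finset.mul_sum]
          refine Finset.sum_congr rfl fun l _ => ?_
          rw [← Finset.sum_mul, hL]
          ring
      _ = ∑ i, ∑ l, ∑ j, (L l * (X i * (Γ l i j * X j))) :=
          Finset.sum_congr rfl fun i _ => Finset.sum_comm
      _ = ∑ l, ∑ i, ∑ j, (L l * (X i * (Γ l i j * X j))) := Finset.sum_comm
      _ = _ := by
          refine Finset.sum_congr rfl fun l _ => ?_
          rw [Finset.mul_sum]
          refine Finset.sum_congr rfl fun i _ => ?_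
          rw [hM, Finset.mul_sum, Finset.mul_sum]
  have a6 : ∑ i, ∑ j, X i * X j * ∑ k, ∑ l, Γ k j l * Γ l i k = ∑ i, ∑ j, M i j * M j i := by
    calc ∑ i, ∑ j, X i * X j * ∑ k, ∑ l, Γ k j l * Γ l i k
        = ∑ i, ∑ j, ∑ k, ∑ l, (Γ l k i * X i) * (Γ k l j * X j) := by
          refine Finset.sum_congr rfl fun i _ => Finset.sum_congr rfl fun j _ => ?_
          rw [Finset.mul_sum]
          refine Finset.sum_congr rfl fun k _ => ?_
          rw [Finset.mul_sum]
          exact Finset.sum_congr rfl fun l _ => by rw [hΓ k j l, hΓ l i k]; ring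
      _ = ∑ i, ∑ k, ∑ j, ∑ l, (Γ l k i * X i) * (Γ k l j * X j) :=
          Finset.sum_congr rfl fun i _ => Finset.sum_comm
      _ = ∑ k, ∑ i, ∑ j, ∑ l, (Γ l k i * X i) * (Γ k l j * X j) := Finset.sum_comm
      _ = ∑ k, ∑ i, ∑ l, ∑ j, (Γ l k i * X i) * (Γ k l j * X j) :=
          Finset.sum_congr rfl fun k _ => Finset.sum_congr rfl fun i _ => Finset.sum_comm
      _ = ∑ k, ∑ l, ∑ i, ∑ j, (Γ l k i * X i) * (Γ k l j * X j) :=
          Finset.sum_congr rfl fun k _ => Finset.sum_comm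
      _ = _ := by
          refine Finset.sum_congr rfl fun k _ => Finset.sum_congr rfl fun l _ => ?_
          rw [hM, Finset.sum_mul_sum]
  have b1 : (∑ j, ∑ i, (D j i * (D i j + M i j) +
        X i * (DD j i j + ∑ k, (dΓ j j i k * X k + Γ j i k * D j k)))) =
      (∑ i, ∑ j, D i j * (D j i + M j i)) + (∑ j, ∑ i, X i * DD j i j) +
        (∑ j, ∑ i, X i * ∑ k, dΓ j j i k * X k) + ∑ j, ∑ i, X i * ∑ k, Γ j i k * D j k := by
    simp only [Finset.sum_add_distrib, mul_add]
    ring
  have b2 : (∑ j, L j * ∑ i, X i * (D i j + M i j)) =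
      (∑ j, L j * ∑ i, X i * D i j) + ∑ j, L j * ∑ i, X i * M i j := by
    simp only [Finset.sum_add_distrib, mul_add]
  have b3 : (∑ i, X i * ∑ j, (DD i j j + ∑ k, (dΓ i j j k * X k + Γ j j k * D i k))) =
      (∑ i, X i * ∑ j, DD i j j) + (∑ i, X i * ∑ j, ∑ k, dΓ i j j k * X k) +
        ∑ i, X i * ∑ j, ∑ k, Γ j j k * D i k := by
    simp only [Finset.sum_add_distrib, mul_add]
    ring
  have b4 : (∑ i, ∑ j, (D i j + M i j) * (D j i + M j i)) =
      (∑ i, ∑ j, D i j * (D j i + M j i)) + (∑ i, ∑ j, M i j * D j i) +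
        ∑ i, ∑ j, M i j * M j i := by
    simp only [Finset.sum_add_distrib, mul_add, add_mul]
    ring
  have b5 : (∑ i, ∑ j, X i * X j * ∑ k, (dΓ k k i j - dΓ j k i k +
        ∑ l, (Γ k k l * Γ l i j - Γ k j l * Γ l i k))) =
      (∑ i, ∑ j, X i * X j * ∑ k, (dΓ k k i j - dΓ j k i k)) +
      (∑ i, ∑ j, X i * X j * ∑ k, ∑ l, Γ k k l * Γ l i j) -
      ∑ i, ∑ j, X i * X j * ∑ k, ∑ l, Γ k j l * Γ l i k := by
    rw [← Finset.sum_add_distrib, ← Finset.sum_sub_distrib]
    refine Finset.sum_congr rfl fun i _ => ?_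
    rw [← Finset.sum_add_distrib, ← Finset.sum_sub_distrib]
    refine Finset.sum_congr rfl fun j _ => ?_
    rw [← mul_add, ← mul_sub]
    congr 1
    rw [← Finset.sum_add_distrib, ← Finset.sum_sub_distrib]
    refine Finset.sum_congr rfl fun k _ => ?_
    rw [Finset.sum_sub_distrib]
    ring
  simp only [hM'] at *
  rw [b1, b2, b3, b4, b5, a1, a3, a4, a5, a6, ← a2]
  ring

/-- the algebra of the divergence of `T (X, ·)` -/
theorem div_alg (X : Fin n → ℝ) (D U T : Fin n → Fin n → ℝ) (dT : Fin n → Fin n → Fin n → ℝ)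
    (dU : Fin n → Fin n → Fin n → ℝ) (Γ : Fin n → Fin n → Fin n → ℝ)
    (hU : ∀ i j, U i j = U j i) (hΓ : ∀ k i j, Γ k i j = Γ k j i)
    (hdU : ∀ i j k, dU i j k = -∑ l, (Γ j i l * U l k + Γ k i l * U l j)) :
    (∑ j, X j * ∑ i, ∑ k, U i k * (dT k i j - ∑ l, (Γ l k i * T l j + Γ l k j * T i l))) =
      (∑ i, ∑ k, ∑ j, (dU i i k * T k j * X j + U i k * dT i k j * X j + U i k * T k j * D i j)) +
      (∑ i, (∑ m, Γ m m i) * ∑ k, ∑ j, U i k * T k j * X j) -
      ∑ i, ∑ k, ∑ j, U i k * T k j * (D i j + ∑ l, Γ j i l * X l) := by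
  -- the derivative terms
  have a1 : ∑ j, X j * ∑ i, ∑ k, U i k * dT k i j = ∑ i, ∑ k, ∑ j, U i k * dT i k j * X j := by
    calc ∑ j, X j * ∑ i, ∑ k, U i k * dT k i j
        = ∑ j, ∑ i, ∑ k, U i k * dT k i j * X j := by
          refine Finset.sum_congr rfl fun j _ => ?_
          rw [Finset.mul_sum]
          refine Finset.sum_congr rfl fun i _ => ?_
          rw [Finset.mul_sum]
          exact Finset.sum_congr rfl fun k _ => by ring
      _ = ∑ i, ∑ j, ∑ k, U i k * dT k i j * X j := Finset.sum_comm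
      _ = ∑ i, ∑ k, ∑ j, U i k * dT k i j * X j :=
          Finset.sum_congr rfl fun i _ => Finset.sum_comm
      _ = ∑ k, ∑ i, ∑ j, U i k * dT k i j * X j := Finset.sum_comm
      _ = _ := by
          refine Finset.sum_congr rfl fun i _ => Finset.sum_congr rfl fun k _ =>
            Finset.sum_congr rfl fun j _ => ?_
          rw [hU k i]
  -- `U Γ T X`, first kind
  set W : Fin n → ℝ := fun l => ∑ j, T l j * X j with hW
  have a2 : ∑ j, X j * ∑ i, ∑ k, U i k * ∑ l, Γ l k i * T l j =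
      ∑ i, ∑ k, U i k * ∑ l, Γ l k i * W l := by
    calc ∑ j, X j * ∑ i, ∑ k, U i k * ∑ l, Γ l k i * T l j
        = ∑ j, ∑ i, ∑ k, ∑ l, U i k * (Γ l k i * (T l j * X j)) := by
          refine Finset.sum_congr rfl fun j _ => ?_
          rw [Finset.mul_sum]
          refine Finset.sum_congr rfl fun i _ => ?_
          rw [Finset.mul_sum]
          refine Finset.sum_congr rfl fun k _ => ?_
          rw [Finset.mul_sum, Finset.mul_sum]
          exact Finset.sum_congr rfl fun l _ => by ring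
      _ = ∑ i, ∑ j, ∑ k, ∑ l, U i k * (Γ l k i * (T l j * X j)) := Finset.sum_comm
      _ = ∑ i, ∑ k, ∑ j, ∑ l, U i k * (Γ l k i * (T l j * X j)) :=
          Finset.sum_congr rfl fun i _ => Finset.sum_comm
      _ = ∑ i, ∑ k, ∑ l, ∑ j, U i k * (Γ l k i * (T l j * X j)) :=
          Finset.sum_congr rfl fun i _ => Finset.sum_congr rfl fun k _ => Finset.sum_comm
      _ = _ := by
          refine Finset.sum_congr rfl fun i _ => Finset.sum_congr rfl fun k _ => ?_
          rw [Finset.mul_sum]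
          refine Finset.sum_congr rfl fun l _ => ?_
          rw [hW, Finset.mul_sum, Finset.mul_sum]
  -- second kind
  have a3 : ∑ j, X j * ∑ i, ∑ k, U i k * ∑ l, Γ l k j * T i l =
      ∑ i, ∑ k, ∑ j, U i k * T k j * ∑ l, Γ j i l * X l := by
    calc ∑ j, X j * ∑ i, ∑ k, U i k * ∑ l, Γ l k j * T i l
        = ∑ j, ∑ i, ∑ k, ∑ l, U i k * T i l * (Γ l k j * X j) := by
          refine Finset.sum_congr rfl fun j _ => ?_
          rw [Finset.mul_sum]
          refine Finset.sum_congr rfl fun i _ => ?_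
          rw [Finset.mul_sum]
          refine Finset.sum_congr rfl fun k _ => ?_
          rw [Finset.mul_sum, Finset.mul_sum]
          exact Finset.sum_congr rfl fun l _ => by ring
      _ = ∑ i, ∑ j, ∑ k, ∑ l, U i k * T i l * (Γ l k j * X j) := Finset.sum_comm
      _ = ∑ i, ∑ k, ∑ j, ∑ l, U i k * T i l * (Γ l k j * X j) :=
          Finset.sum_congr rfl fun i _ => Finset.sum_comm
      _ = ∑ i, ∑ k, ∑ l, ∑ j, U i k * T i l * (Γ l k j * X j) :=
          Finset.sum_congr rfl fun i _ => Finset.sum_congr rfl fun k _ => Finset.sum_comm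
      _ = ∑ k, ∑ i, ∑ l, ∑ j, U i k * T i l * (Γ l k j * X j) := Finset.sum_comm
      _ = _ := by
          refine Finset.sum_congr rfl fun i _ => Finset.sum_congr rfl fun k _ =>
            Finset.sum_congr rfl fun j _ => ?_
          rw [Finset.mul_sum]
          exact Finset.sum_congr rfl fun l _ => by rw [hU k i]
  -- the derivative of the inverse metric
  have a4 : (∑ i, ∑ k, ∑ j, dU i i k * T k j * X j) +
      (∑ i, (∑ m, Γ m m i) * ∑ k, ∑ j, U i k * T k j * X j) =
      -∑ i, ∑ k, U i k * ∑ l, Γ l k i * W l := by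
    have e1 : ∑ i, ∑ k, ∑ j, dU i i k * T k j * X j = ∑ i, ∑ k, dU i i k * W k := by
      refine Finset.sum_congr rfl fun i _ => Finset.sum_congr rfl fun k _ => ?_
      rw [hW, Finset.mul_sum]
      exact Finset.sum_congr rfl fun j _ => by ring
    have e2 : ∑ i, (∑ m, Γ m m i) * ∑ k, ∑ j, U i k * T k j * X j =
        ∑ i, (∑ m, Γ m m i) * ∑ k, U i k * W k := by
      refine Finset.sum_congr rfl fun i _ => ?_
      congr 1
      refine Finset.sum_congr rfl fun k _ => ?_
      rw [hW, Finset.mul_sum]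
      exact Finset.sum_congr rfl fun j _ => by ring
    have e3 : ∑ i, ∑ k, dU i i k * W k =
        -(∑ i, ∑ k, ∑ l, Γ i i l * U l k * W k) - ∑ i, ∑ k, ∑ l, Γ k i l * U l i * W k := by
      rw [← Finset.sum_neg_distrib, ← Finset.sum_sub_distrib]
      refine Finset.sum_congr rfl fun i _ => ?_
      rw [← Finset.sum_neg_distrib, ← Finset.sum_sub_distrib]
      refine Finset.sum_congr rfl fun k _ => ?_
      rw [hdU, Finset.sum_add_distrib, ← Finset.sum_mul, ← Finset.sum_mul]
      ring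
    have e4 : ∑ i, ∑ k, ∑ l, Γ i i l * U l k * W k = ∑ i, (∑ m, Γ m m i) * ∑ k, U i k * W k := by
      calc ∑ i, ∑ k, ∑ l, Γ i i l * U l k * W k = ∑ i, ∑ l, ∑ k, Γ i i l * (U l k * W k) := by
            refine Finset.sum_congr rfl fun i _ => ?_
            rw [Finset.sum_comm]
            exact Finset.sum_congr rfl fun l _ => Finset.sum_congr rfl fun k _ => by ring
        _ = ∑ l, ∑ i, ∑ k, Γ i i l * (U l k * W k) := Finset.sum_comm
        _ = _ := by
            refine Finset.sum_congr rfl fun l _ => ?_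
            rw [Finset.sum_mul]
            exact Finset.sum_congr rfl fun i _ => by rw [Finset.mul_sum]
    have e5 : ∑ i, ∑ k, ∑ l, Γ k i l * U l i * W k = ∑ i, ∑ k, U i k * ∑ l, Γ l k i * W l := by
      calc ∑ i, ∑ k, ∑ l, Γ k i l * U l i * W k = ∑ i, ∑ l, ∑ k, U i l * (Γ k l i * W k) := by
            refine Finset.sum_congr rfl fun i _ => ?_
            rw [Finset.sum_comm]
            exact Finset.sum_congr rfl fun l _ => Finset.sum_congr rfl fun k _ => by
              rw [hU l i, hΓ k i l]; ring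
        _ = _ := by
            refine Finset.sum_congr rfl fun i _ => Finset.sum_congr rfl fun l _ => ?_
            rw [Finset.mul_sum]
    rw [e1, e2, e3, e4, e5]
    ring
  have b1 : (∑ j, X j * ∑ i, ∑ k, U i k * (dT k i j - ∑ l, (Γ l k i * T l j + Γ l k j * T i l))) =
      (∑ j, X j * ∑ i, ∑ k, U i k * dT k i j) -
      (∑ j, X j * ∑ i, ∑ k, U i k * ∑ l, Γ l k i * T l j) -
      ∑ j, X j * ∑ i, ∑ k, U i k * ∑ l, Γ l k j * T i l := by
    simp only [Finset.sum_add_distrib, Finset.sum_sub_distrib, mul_add, mul_sub]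
    ring
  have b2 : (∑ i, ∑ k, ∑ j, (dU i i k * T k j * X j + U i k * dT i k j * X j +
        U i k * T k j * D i j)) = (∑ i, ∑ k, ∑ j, dU i i k * T k j * X j) +
      (∑ i, ∑ k, ∑ j, U i k * dT i k j * X j) + ∑ i, ∑ k, ∑ j, U i k * T k j * D i j := by
    simp only [Finset.sum_add_distrib]
  have b3 : (∑ i, ∑ k, ∑ j, U i k * T k j * (D i j + ∑ l, Γ j i l * X l)) =
      (∑ i, ∑ k, ∑ j, U i k * T k j * D i j) +
      ∑ i, ∑ k, ∑ j, U i k * T k j * ∑ l, Γ j i l * X l := by
    simp only [Finset.sum_add_distrib, mul_add]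
  rw [b1, b2, b3, a1, a2, a3]
  linear_combination -a4

end Vale.Agent.H106
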