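import Vale.Agent.P366.R2.H106.Mono
import Vale.Agent.P366.T4.E919e

/-! Expansion at infinity of the area element and the mean curvature of the centred spheres. -/

open MeasureTheory Metric Filter Topology Set Asymptotics
open scoped ContDiff ENNReal Matrix MatrixOrder

noncomputable section
namespace Vale.Agent.H106
open Vale.Agent.P366.Stmt Vale.Agent.P366.T2 Vale.Agent.T4
open Vale.Agent.P366.T1.A919 (far far_iff far_of far_gt far_nhds O O_iff O_of_bigO O_const O_zero
  O_of_le O_inv_mat tail_bound)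
open Vale.Agent.P366 (norm_smul_sph)

variable {n : ℕ} {g K : Field n} {R q : ℝ}

/-- deviation from the flat metric -/
def hh (g : Field n) (i j : Fin n) (x : E n) : ℝ := g x i j - if i = j then 1 else 0

def trh (g : Field n) (x : E n) : ℝ := ∑ i, hh g i i x

def hnn (g : Field n) (x : E n) : ℝ := ∑ i, ∑ j, hh g i j x * (nx i x * nx j x)

def dnh (g : Field n) (x : E n) : ℝ := ∑ i, ∑ k, pd i (fun y => g y i k) x * nx k x

def tnh (g : Field n) (x : E n) : ℝ := ∑ i, ∑ k, nx i x * pd i (fun y => g y k k) x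

def dnnh (g : Field n) (x : E n) : ℝ :=
  ∑ i, ∑ j, ∑ k, pd i (fun y => g y j k) x * (nx i x * nx j x * nx k x)

/-- first variation of the area element -/
def alin (g : Field n) (x : E n) : ℝ := (trh g x - hnn g x) / 2

def Blin (g : Field n) (x : E n) : ℝ :=
  -(trh g x - hnn g x) - len x * (dnh g x - tnh g x / 2 - dnnh g x / 2)

/-- first variation of `r H` -/
def ylin (g : Field n) (x : E n) : ℝ := Blin g x + ((n : ℝ) - 1) / 2 * hnn g x

lemma O_nn (i j : Fin n) : O 0 (fun x : E n => nx i x * nx j x) :=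
  (O_nx i).mul' (O_nx j) (by linarith)

lemma O_trh (D : Dec g q) : O q (trh g) := O.sum fun i _ => D.g0 i i

lemma O_hnn (D : Dec g q) : O q (hnn g) := O.sum fun i _ => O.sum fun j _ =>
  (D.g0 i j).mul' (O_nn i j) (by linarith)

lemma O_dnh (D : Dec g q) : O (q + 1) (dnh g) := O.sum fun i _ => O.sum fun j _ =>
  (D.g1 i j i).mul' (O_nx j) (by linarith)

lemma O_tnh (D : Dec g q) : O (q + 1) (tnh g) := O.sum fun i _ => O.sum fun j _ =>
  (O_nx i).mul' (D.g1 j j i) (by linarith)

lemma O_dnnh (D : Dec g q) : O (q + 1) (dnnh g) := O.sum fun i _ => O.sum fun j _ =>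
  O.sum fun k _ => (D.g1 j k i).mul' ((O_nn i j).mul' (O_nx k) (r := 0) (by linarith)) (by linarith)

lemma O_Blin (D : Dec g q) : O q (Blin g) := by
  refine O.sub (((O_trh D).sub (O_hnn D)).neg) (O_len_mul (p := q + 1) ?_ (by linarith))
  have h1 : O (q + 1) (fun x => dnh g x - 1 / 2 * tnh g x - 1 / 2 * dnnh g x) :=
    ((O_dnh D).sub ((O_tnh D).const_mul _)).sub ((O_dnnh D).const_mul _)
  exact h1.congr (Eventually.of_forall fun x => by ring)

lemma O_ylin (D : Dec g q) : O q (ylin g) := (O_Blin D).add ((O_hnn D).const_mul _)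

lemma O_alin (D : Dec g q) : O q (alin g) := by
  have h1 : O q (fun x => 1 / 2 * (trh g x - hnn g x)) := ((O_trh D).sub (O_hnn D)).const_mul _
  exact h1.congr (Eventually.of_forall fun x => by unfold alin; ring)

lemma delta_nn {x : E n} (hx : x ≠ 0) :
    ∑ i, ∑ j, (if i = j then (1 : ℝ) else 0) * (nx i x * nx j x) = 1 := by
  simp only [ite_mul, one_mul, zero_mul, Finset.sum_ite_eq, Finset.mem_univ, if_true]
  exact sum_nx_mul hx

namespace Met

variable (h : Met g R)
include h

lemma far_det : ∀ᶠ x in far n, (mat g x).det ≠ 0 := by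
  filter_upwards [far_gt (n := n) R] with x hx
  exact h.det_ne (le_of_lt hx)

lemma up0 (hq : 0 < q) (D : Dec g q) (i j : Fin n) :
    O q (fun x => up g i j x - if i = j then 1 else 0) :=
  O_inv_mat hq (g := fun x => mat g x) h.far_det D.g0 i j

lemma upb (hq : 0 < q) (D : Dec g q) (i j : Fin n) : O 0 (up g i j) := (h.up0 hq D i j).bdd hq.le

lemma up1 (hq : 0 < q) (D : Dec g q) (i j : Fin n) :
    O (q + q) (fun x => up g i j x - (if i = j then 1 else 0) + hh g i j x) := by
  have h1 : O (q + q) (fun x => -∑ k, (up g i k x - if i = k then 1 else 0) * hh g k j x) :=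
    (O.sum fun k _ => (h.up0 hq D i k).mul' (D.g0 k j) le_rfl).neg
  refine h1.congr ?_
  filter_upwards [far_gt (n := n) R] with x hx
  have h2 := h.up_g (x := x) (le_of_lt hx) i j
  have e1 : ∀ k, (up g i k x - if i = k then 1 else 0) * hh g k j x =
      up g i k x * g x k j - up g i k x * (if k = j then 1 else 0) -
        (if i = k then hh g k j x else 0) := by
    intro k; unfold hh; split_ifs <;> ring
  simp only [e1, Finset.sum_sub_distrib, h2]
  simp
  ring

lemma chr0 (hq : 0 < q) (D : Dec g q) (k i j : Fin n) : O (q + 1) (chr g k i j) := by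
  have h1 : O (q + 1) (fun x => 1 / 2 * ∑ l, up g k l x * (pd i (fun y => g y j l) x +
      pd j (fun y => g y i l) x - pd l (fun y => g y i j) x)) :=
    O.const_mul _ (O.sum fun l _ => (h.upb hq D k l).mul' (((D.g1 j l i).add (D.g1 i l j)).sub
      (D.g1 i j l)) (by linarith))
  exact h1.congr (Eventually.of_forall fun x => by unfold chr; ring)

lemma chr1 (hq : 0 < q) (D : Dec g q) (k i j : Fin n) :
    O (q + q + 1) (fun x => chr g k i j x - (pd i (fun y => g y j k) x +
      pd j (fun y => g y i k) x - pd k (fun y => g y i j) x) / 2) := by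
  have h1 : O (q + q + 1) (fun x => 1 / 2 * ∑ l, (up g k l x - if k = l then 1 else 0) *
      (pd i (fun y => g y j l) x + pd j (fun y => g y i l) x - pd l (fun y => g y i j) x)) :=
    O.const_mul _ (O.sum fun l _ => (h.up0 hq D k l).mul' (((D.g1 j l i).add (D.g1 i l j)).sub
      (D.g1 i j l)) (by linarith))
  refine h1.congr (Eventually.of_forall fun x => ?_)
  unfold chr
  simp only [sub_mul, Finset.sum_sub_distrib, ite_mul, one_mul, zero_mul, Finset.sum_ite_eq,
    Finset.mem_univ, if_true]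
  ring

lemma Nu0 (hq : 0 < q) (D : Dec g q) (i : Fin n) : O q (fun x => Nu g i x - nx i x) := by
  have h1 : O q (fun x => ∑ j, (up g i j x - if i = j then 1 else 0) * nx j x) :=
    O.sum fun j _ => (h.up0 hq D i j).mul' (O_nx j) (by linarith)
  refine h1.congr (Eventually.of_forall fun x => ?_)
  unfold Nu
  simp only [sub_mul, Finset.sum_sub_distrib, ite_mul, one_mul, zero_mul, Finset.sum_ite_eq,
    Finset.mem_univ, if_true]

lemma ww1 (hq : 0 < q) (D : Dec g q) : O (q + q) (fun x => ww g x - 1 + hnn g x) := by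
  have h1 : O (q + q) (fun x => ∑ i, ∑ j, (up g i j x - (if i = j then 1 else 0) + hh g i j x) *
      (nx i x * nx j x)) :=
    O.sum fun i _ => O.sum fun j _ => (h.up1 hq D i j).mul' (O_nn i j) (by linarith)
  refine h1.congr ?_
  filter_upwards [far_ne (n := n)] with x hx
  have e : ∑ i, ∑ j, (up g i j x - (if i = j then 1 else 0) + hh g i j x) *
      (nx i x * nx j x) = (∑ i, ∑ j, up g i j x * nx i x * nx j x) -
        (∑ i, ∑ j, (if i = j then (1 : ℝ) else 0) * (nx i x * nx j x)) + hnn g x := by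
    unfold hnn
    simp only [← Finset.sum_sub_distrib, ← Finset.sum_add_distrib]
    exact Finset.sum_congr rfl fun i _ => Finset.sum_congr rfl fun j _ => by ring
  rw [e, delta_nn hx, ← ww_eq]

lemma ww0 (hq : 0 < q) (D : Dec g q) : O q (fun x => ww g x - 1) := by
  have h1 := ((h.ww1 hq D).mono (p := q) (by linarith)).sub (O_hnn D)
  exact h1.congr (Eventually.of_forall fun x => by ring)

lemma s0 (hq : 0 < q) (D : Dec g q) : O q (fun x => √(ww g x) - 1) := (h.ww0 hq D).sqrt

lemma t0 (hq : 0 < q) (D : Dec g q) : O q (fun x => (√(ww g x))⁻¹ - 1) := (h.s0 hq D).inv hq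

lemma s1 (hq : 0 < q) (D : Dec g q) : O (q + q) (fun x => √(ww g x) - 1 + hnn g x / 2) := by
  have h1 : O (q + q) (fun x => 1 / 2 * ((ww g x - 1 + hnn g x) -
      (√(ww g x) - 1) * (√(ww g x) - 1))) :=
    O.const_mul _ ((h.ww1 hq D).sub ((h.s0 hq D).mul' (h.s0 hq D) le_rfl))
  refine h1.congr ?_
  filter_upwards [far_gt (n := n) R] with x hx
  have := h.sq_mul (x := x) (le_of_lt hx)
  linear_combination (-(1 / 2)) * this

lemma t1 (hq : 0 < q) (D : Dec g q) :
    O (q + q) (fun x => (√(ww g x))⁻¹ - 1 - hnn g x / 2) := by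
  have ht := h.t0 hq D
  have htb : O 0 (fun x => (√(ww g x))⁻¹) := ht.bdd hq.le
  have h1 : O (q + q) (fun x => 1 / 2 * (-(((√(ww g x))⁻¹ - 1) * ((√(ww g x))⁻¹ - 1)) +
      hnn g x * (((√(ww g x))⁻¹ - 1) * ((√(ww g x))⁻¹ + 1)) -
        (ww g x - 1 + hnn g x) * ((√(ww g x))⁻¹ * (√(ww g x))⁻¹))) := by
    refine O.const_mul _ (O.sub (O.add (ht.mul' ht le_rfl).neg ?_) ?_)
    · exact (O_hnn D).mul' (ht.mul' (htb.add (O_const 1)) (r := q) (by linarith)) (by linarith)
    · exact (h.ww1 hq D).mul' (htb.mul' htb (r := 0) (by linarith)) (by linarith)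
  refine h1.congr ?_
  filter_upwards [far_gt (n := n) R] with x hx
  have h2 := h.sq_mul (x := x) (le_of_lt hx)
  have h3 := (h.sq_pos (x := x) (le_of_lt hx)).ne'
  obtain ⟨s, hs⟩ : ∃ s, s = √(ww g x) := ⟨_, rfl⟩
  rw [← hs] at h2 h3 ⊢
  rw [← h2]
  field_simp
  ring

lemma nu0 (hq : 0 < q) (D : Dec g q) (i : Fin n) : O q (fun x => nu g i x - nx i x) := by
  have h1 : O q (fun x => (Nu g i x - nx i x) * (√(ww g x))⁻¹ +
      nx i x * ((√(ww g x))⁻¹ - 1)) :=
    ((h.Nu0 hq D i).mul' ((h.t0 hq D).bdd hq.le) (by linarith)).add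
      ((O_nx i).mul' (h.t0 hq D) (by linarith))
  exact h1.congr (Eventually.of_forall fun x => by unfold nu; ring)

lemma nub (hq : 0 < q) (D : Dec g q) (i : Fin n) : O 0 (nu g i) := by
  have h1 := ((h.nu0 hq D i).mono hq.le).add (O_nx i)
  exact h1.congr (Eventually.of_forall fun x => by ring)

lemma Pu0 (hq : 0 < q) (D : Dec g q) (i j : Fin n) :
    O q (fun x => Pu g i j x - ((if i = j then 1 else 0) - nx i x * nx j x)) := by
  have h1 : O q (fun x => (up g i j x - if i = j then 1 else 0) -
      ((nu g i x - nx i x) * nu g j x + nx i x * (nu g j x - nx j x))) :=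
    (h.up0 hq D i j).sub (((h.nu0 hq D i).mul' (h.nub hq D j) (by linarith)).add
      ((O_nx i).mul' (h.nu0 hq D j) (by linarith)))
  exact h1.congr (Eventually.of_forall fun x => by unfold Pu; ring)

lemma Pub (hq : 0 < q) (D : Dec g q) (i j : Fin n) : O 0 (Pu g i j) := by
  have h1 := (h.upb hq D i j).sub ((h.nub hq D i).mul' (h.nub hq D j) (r := 0) (by linarith))
  exact h1.congr (Eventually.of_forall fun x => rfl)

lemma tau0 (hq : 0 < q) (D : Dec g q) (hK : ∀ i j, O (q + 1) (fun x => K x i j)) :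
    O (q + 1) (tauf g K) :=
  O.sum fun i _ => O.sum fun j _ => (h.Pub hq D i j).mul' (hK i j) (by linarith)

omit h in
lemma pd_nx {x : E n} (hx : x ≠ 0) (i j : Fin n) : pd i (nx j) x = dnx i j x := (HP_nx hx i j).pd

omit h in
lemma nx_dnx {x : E n} (hx : x ≠ 0) (j : Fin n) : ∑ i, nx i x * dnx i j x = 0 := by
  rw [← sum_nx_dnx hx j]
  refine Finset.sum_congr rfl fun i _ => ?_
  unfold dnx
  have : (if j = i then (1 : ℝ) else 0) = if i = j then 1 else 0 := by simp [eq_comm]
  rw [this]; ring

/-- the first part of `√w H` -/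
lemma sHa (hq : 0 < q) (D : Dec g q) : O (q + q + 1) (fun x => (∑ i, ∑ j, Pu g i j x * dnx i j x) -
    (((n : ℝ) - 1) / len x - (trh g x - hnn g x) / len x)) := by
  have h1 : O (q + q + 1) (fun x => (∑ i, ∑ j, (up g i j x - (if i = j then 1 else 0) + hh g i j x) *
      dnx i j x) - ∑ i, ∑ j, ((nu g i x - nx i x) * (nu g j x - nx j x)) * dnx i j x) :=
    (O.sum fun i _ => O.sum fun j _ => (h.up1 hq D i j).mul' (O_dnx i j) le_rfl).sub
      (O.sum fun i _ => O.sum fun j _ => ((h.nu0 hq D i).mul' (h.nu0 hq D j) le_rfl).mul'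
        (O_dnx i j) le_rfl)
  refine h1.congr ?_
  filter_upwards [far_ne (n := n)] with x hx
  have e1 : ∑ i, ∑ j, ((nu g i x - nx i x) * (nu g j x - nx j x)) * dnx i j x =
      ∑ i, ∑ j, nu g i x * nu g j x * dnx i j x := by
    have a1 : ∀ i, ∑ j, nx j x * dnx i j x = 0 := fun i => sum_nx_dnx hx i
    have a2 : ∀ j, ∑ i, nx i x * dnx i j x = 0 := fun j => nx_dnx hx j
    have a3 : ∀ i j, ((nu g i x - nx i x) * (nu g j x - nx j x)) * dnx i j x =
        nu g i x * nu g j x * dnx i j x - (nu g i x - nx i x) * (nx j x * dnx i j x) -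
          nu g j x * (nx i x * dnx i j x) := by
      intro i j; ring
    simp only [a3, Finset.sum_sub_distrib, ← Finset.mul_sum, a1, mul_zero, sub_zero]
    have a4 : ∑ i, ∑ j, nu g j x * (nx i x * dnx i j x) = 0 := by
      rw [Finset.sum_comm]
      simp only [← Finset.mul_sum, a2, mul_zero, Finset.sum_const_zero]
    rw [a4, sub_zero]
  have e2 : ∑ i, ∑ j, (if i = j then (1 : ℝ) else 0) * dnx i j x = ((n : ℝ) - 1) / len x := by
    rw [← sum_dnx hx]
    refine Finset.sum_congr rfl fun i _ => ?_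
    simp
  have e3 : ∑ i, ∑ j, hh g i j x * dnx i j x = (trh g x - hnn g x) / len x := by
    unfold trh hnn
    rw [← Finset.sum_sub_distrib, Finset.sum_div]
    refine Finset.sum_congr rfl fun i _ => ?_
    have : ∀ j, hh g i j x * dnx i j x =
        ((if i = j then hh g i j x else 0) - hh g i j x * (nx i x * nx j x)) / len x := by
      intro j
      unfold dnx
      have : (if j = i then (1 : ℝ) else 0) = if i = j then 1 else 0 := by simp [eq_comm]
      rw [this]
      split_ifs <;> ring
    simp only [this, ← Finset.sum_div, Finset.sum_sub_distrib]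
    simp
  rw [e1, ← e2, ← e3]
  simp only [← Finset.sum_sub_distrib]
  refine Finset.sum_congr rfl fun i _ => Finset.sum_congr rfl fun j _ => ?_
  unfold Pu
  ring

/-- the second part of `√w H` -/
lemma sHb (hq : 0 < q) (D : Dec g q) : O (q + q + 1) (fun x =>
    (∑ i, ∑ j, Pu g i j x * ∑ k, chr g k i j x * nx k x) -
      (dnh g x - tnh g x / 2 - dnnh g x / 2)) := by
  have h1 : O (q + q + 1) (fun x => (∑ i, ∑ j, (Pu g i j x -
      ((if i = j then 1 else 0) - nx i x * nx j x)) * ∑ k, chr g k i j x * nx k x) +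
      ∑ i, ∑ j, ((if i = j then 1 else 0) - nx i x * nx j x) * ∑ k, (chr g k i j x -
        (pd i (fun y => g y j k) x + pd j (fun y => g y i k) x -
          pd k (fun y => g y i j) x) / 2) * nx k x) := by
    refine (O.sum fun i _ => O.sum fun j _ => (h.Pu0 hq D i j).mul'
      (O.sum fun k _ => (h.chr0 hq D k i j).mul' (O_nx k) (r := q + 1) (by linarith))
        (by linarith)).add (O.sum fun i _ => O.sum fun j _ => ?_)
    refine O.mul' (p := 0) (((O_const (if i = j then 1 else 0)).sub (O_nn i j))) (O.sum fun k _ =>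
      (h.chr1 hq D k i j).mul' (O_nx k) (r := q + q + 1) (by linarith)) (by linarith)
  refine h1.congr ?_
  filter_upwards [far_ne (n := n)] with x hx
  have e1 : ∑ i, ∑ j, ((if i = j then (1 : ℝ) else 0) - nx i x * nx j x) *
      ∑ k, ((pd i (fun y => g y j k) x + pd j (fun y => g y i k) x -
          pd k (fun y => g y i j) x) / 2) * nx k x =
      dnh g x - tnh g x / 2 - dnnh g x / 2 := by
    have a1 : ∑ i, ∑ j, (if i = j then (1 : ℝ) else 0) *
        ∑ k, ((pd i (fun y => g y j k) x + pd j (fun y => g y i k) x -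
          pd k (fun y => g y i j) x) / 2) * nx k x = dnh g x - tnh g x / 2 := by
      have b1 : ∀ i, ∑ j, (if i = j then (1 : ℝ) else 0) *
          ∑ k, ((pd i (fun y => g y j k) x + pd j (fun y => g y i k) x -
          pd k (fun y => g y i j) x) / 2) * nx k x =
          ∑ k, (pd i (fun y => g y i k) x * nx k x) -
            ∑ k, nx k x * pd k (fun y => g y i i) x / 2 := by
        intro i
        simp only [ite_mul, one_mul, zero_mul, Finset.sum_ite_eq, Finset.mem_univ, if_true]
        rw [← Finset.sum_sub_distrib]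
        exact Finset.sum_congr rfl fun k _ => by ring
      simp only [b1, Finset.sum_sub_distrib]
      unfold dnh tnh
      congr 1
      rw [Finset.sum_comm, Finset.sum_div]
      exact Finset.sum_congr rfl fun k _ => by rw [Finset.sum_div]
    have a2 : ∑ i, ∑ j, nx i x * nx j x * ∑ k, ((pd i (fun y => g y j k) x +
          pd j (fun y => g y i k) x - pd k (fun y => g y i j) x) / 2) * nx k x =
        dnnh g x / 2 := by
      have b1 : ∑ i, ∑ j, ∑ k, pd j (fun y => g y i k) x * (nx i x * nx j x * nx k x) =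
          dnnh g x := by
        unfold dnnh
        rw [Finset.sum_comm]
        exact Finset.sum_congr rfl fun i _ => Finset.sum_congr rfl fun j _ =>
          Finset.sum_congr rfl fun k _ => by ring
      have b2 : ∑ i, ∑ j, ∑ k, pd k (fun y => g y i j) x * (nx i x * nx j x * nx k x) =
          dnnh g x := by
        unfold dnnh
        calc ∑ i, ∑ j, ∑ k, pd k (fun y => g y i j) x * (nx i x * nx j x * nx k x)
            = ∑ i, ∑ k, ∑ j, pd k (fun y => g y i j) x * (nx i x * nx j x * nx k x) :=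
              Finset.sum_congr rfl fun i _ => Finset.sum_comm
          _ = ∑ k, ∑ i, ∑ j, pd k (fun y => g y i j) x * (nx i x * nx j x * nx k x) :=
              Finset.sum_comm
          _ = _ := Finset.sum_congr rfl fun i _ => Finset.sum_congr rfl fun j _ =>
              Finset.sum_congr rfl fun k _ => by ring
      have b3 : ∑ i, ∑ j, nx i x * nx j x * ∑ k, ((pd i (fun y => g y j k) x +
          pd j (fun y => g y i k) x - pd k (fun y => g y i j) x) / 2) * nx k x =
          (∑ i, ∑ j, ∑ k, pd i (fun y => g y j k) x * (nx i x * nx j x * nx k x)) / 2 +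
          (∑ i, ∑ j, ∑ k, pd j (fun y => g y i k) x * (nx i x * nx j x * nx k x)) / 2 -
          (∑ i, ∑ j, ∑ k, pd k (fun y => g y i j) x * (nx i x * nx j x * nx k x)) / 2 := by
        simp only [Finset.sum_div, Finset.mul_sum, ← Finset.sum_add_distrib,
          ← Finset.sum_sub_distrib]
        exact Finset.sum_congr rfl fun i _ => Finset.sum_congr rfl fun j _ =>
          Finset.sum_congr rfl fun k _ => by ring
      rw [b3, b1, b2]
      unfold dnnh
      ring
    simp only [sub_mul, Finset.sum_sub_distrib] at a1 a2 ⊢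
    rw [a1, a2]
  rw [← e1]
  simp only [← Finset.sum_sub_distrib, ← Finset.sum_add_distrib, Finset.mul_sum]
  refine Finset.sum_congr rfl fun i _ => Finset.sum_congr rfl fun j _ =>
    Finset.sum_congr rfl fun k _ => ?_
  ring

lemma sH (hq : 0 < q) (D : Dec g q) : O (q + q + 1) (fun x => √(ww g x) * Hm g x -
    (((n : ℝ) - 1) / len x - (trh g x - hnn g x) / len x -
      (dnh g x - tnh g x / 2 - dnnh g x / 2))) := by
  have h1 := (h.sHa hq D).sub (h.sHb hq D)
  refine h1.congr ?_
  filter_upwards [far_gt (n := n) R, far_ne (n := n)] with x hx hx0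
  have hsq := (h.sq_pos (x := x) (le_of_lt hx)).ne'
  have e : √(ww g x) * Hm g x = (∑ i, ∑ j, Pu g i j x * dnx i j x) -
      ∑ i, ∑ j, Pu g i j x * ∑ k, chr g k i j x * nx k x := by
    rw [h.Hm_eq (le_of_lt hx), Finset.mul_sum, ← Finset.sum_sub_distrib]
    refine Finset.sum_congr rfl fun i _ => ?_
    rw [Finset.mul_sum, ← Finset.sum_sub_distrib]
    refine Finset.sum_congr rfl fun j _ => ?_
    unfold AA hs
    rw [pd_nx hx0]
    field_simp
  rw [e]
  ring

/-- **expansion of the mean curvature** -/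
theorem rH (hq : 0 < q) (D : Dec g q) :
    O (q + q) (fun x => len x * Hm g x - ((n : ℝ) - 1) - ylin g x) := by
  have h1 : O (q + q) (fun x => len x * (√(ww g x) * Hm g x -
    (((n : ℝ) - 1) / len x - (trh g x - hnn g x) / len x -
      (dnh g x - tnh g x / 2 - dnnh g x / 2)))) := O_len_mul (h.sH hq D) (by linarith)
  have htb : O 0 (fun x => (√(ww g x))⁻¹) := (h.t0 hq D).bdd hq.le
  have h2 : O (q + q) (fun x => ((n : ℝ) - 1) * ((√(ww g x))⁻¹ - 1 - hnn g x / 2) +
      (len x * (√(ww g x) * Hm g x -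
    (((n : ℝ) - 1) / len x - (trh g x - hnn g x) / len x -
      (dnh g x - tnh g x / 2 - dnnh g x / 2)))) * (√(ww g x))⁻¹ +
      Blin g x * ((√(ww g x))⁻¹ - 1)) :=
    (((h.t1 hq D).const_mul _).add (h1.mul' htb (by linarith))).add
      ((O_Blin D).mul' (h.t0 hq D) le_rfl)
  refine h2.congr ?_
  filter_upwards [far_gt (n := n) R, far_ne (n := n)] with x hx hx0
  have hs := (h.sq_pos (x := x) (le_of_lt hx)).ne'
  have hl := len_ne hx0
  unfold ylin Blin
  field_simp
  ring

lemma rH0 (hq : 0 < q) (D : Dec g q) : O q (fun x => len x * Hm g x - ((n : ℝ) - 1)) := by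
  have h1 := ((h.rH hq D).mono (p := q) (by linarith)).add (O_ylin D)
  exact h1.congr (Eventually.of_forall fun x => by ring)

/-- the radial derivative of the logarithm of the volume density -/
lemma dlsg (hq : 0 < q) (D : Dec g q) :
    O (q + q + 1) (fun x => (∑ i, nx i x * Lg g i x) - 1 / 2 * dN (trG g) x) := by
  have h1 : O (q + q + 1) (fun x => 1 / 2 * ∑ i, nx i x * ∑ k, ∑ l,
      (up g k l x - if k = l then 1 else 0) * pd i (fun y => g y k l) x) := by
    refine O.const_mul _ (O.sum fun i _ => ?_)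
    refine (O_nx i).mul' (q := q + q + 1) (O.sum fun k _ => O.sum fun l _ => ?_) (by linarith)
    exact (h.up0 hq D k l).mul' (D.g1 k l i) (by linarith)
  refine h1.congr (Eventually.of_forall fun x => ?_)
  have e0 : ∀ i, pd i (trG g) x = ∑ k, pd i (fun y => g y k k) x := by
    intro i
    have : HP i (trG g) (∑ k, pd i (fun y => g y k k) x) x :=
      HP.sum Finset.univ fun k _ => HP.of_diff ((h.gs k k).differentiable (by simp) x)
    exact this.pd
  unfold dN
  simp only [e0]
  unfold Lg
  simp only [Finset.mul_sum, ← Finset.sum_sub_distrib]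
  refine Finset.sum_congr rfl fun i _ => Finset.sum_congr rfl fun k _ => ?_
  have e2 : 1 / 2 * (nx i x * pd i (fun y => g y k k) x) =
      ∑ l, 1 / 2 * (nx i x * ((if k = l then 1 else 0) * pd i (fun y => g y k l) x)) := by
    simp
  rw [e2, ← Finset.sum_sub_distrib]
  refine Finset.sum_congr rfl fun l _ => ?_
  ring

omit h in
lemma det_lim (hq : 0 < q) (D : Dec g q) (θ : sphere (0 : E n) 1) :
    Tendsto (fun s : ℝ => (mat g (s • (θ : E n))).det) atTop (𝓝 1) := by
  have h1 : Tendsto (fun s : ℝ => mat g (s • (θ : E n))) atTop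
      (𝓝 (1 : Matrix (Fin n) (Fin n) ℝ)) := by
    refine tendsto_pi_nhds.2 fun i => tendsto_pi_nhds.2 fun j => ?_
    have h2 := ((D.g0 i j).tendsto hq).comp (far_ray θ)
    have h3 := h2.add_const (if i = j then (1 : ℝ) else 0)
    rw [zero_add] at h3
    rw [Matrix.one_apply]
    refine h3.congr fun s => ?_
    simp [mat]
  have h4 := (Continuous.matrix_det continuous_id).tendsto (1 : Matrix (Fin n) (Fin n) ℝ)
  have h5 := h4.comp h1
  simpa [Function.comp_def] using h5

omit h in
lemma ray_deriv {f : E n → ℝ} {s : ℝ} (hs : 0 < s) (θ : sphere (0 : E n) 1)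
    (hf : ContDiffAt ℝ ∞ f (s • (θ : E n))) :
    HasDerivAt (fun s : ℝ => f (s • (θ : E n))) (dN f (s • (θ : E n))) s := by
  have h1 : DifferentiableAt ℝ f (s • (θ : E n)) := hf.differentiableAt (by simp)
  have h2 : HasDerivAt (fun s : ℝ => s • (θ : E n)) (θ : E n) s := by
    have := (hasDerivAt_id s).smul_const (θ : E n)
    simpa using this
  have h3 := h1.hasFDerivAt.comp_hasDerivAt s h2
  refine h3.congr_deriv ?_
  rw [Vale.Agent.P366.fderiv_eq_sum_pd]
  unfold dN
  refine Finset.sum_congr rfl fun i _ => ?_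
  rw [pd_eq_pd h1]
  congr 1
  unfold nx len
  rw [norm_smul_sph hs.le]
  simp only [PiLp.smul_apply, smul_eq_mul]
  field_simp

/-- **expansion of the volume density** -/
theorem lsg (hq : 0 < q) (D : Dec g q) :
    O (q + q) (fun x => Real.log (sg g x) - 1 / 2 * trh g x) := by
  have htr : ∀ x, trG g x - n = trh g x := by
    intro x; unfold trG trh hh; simp [Finset.sum_sub_distrib]
  have h1 := h.dlsg hq D
  obtain ⟨C, R0, hC, hR0, hb⟩ := O_iff.mp h1
  refine O.of_bound (C := C / (q + q)) ?_
  refine far_of (max R0 R) fun x hx => ?_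
  have hx1 : R0 < ‖x‖ := (le_max_left _ _).trans_lt hx
  have hx2 : R < ‖x‖ := (le_max_right _ _).trans_lt hx
  have hx0 : 0 < ‖x‖ := by linarith
  let θ : sphere (0 : E n) 1 := ⟨‖x‖⁻¹ • x, by
    rw [mem_sphere_zero_iff_norm, norm_smul, norm_inv, norm_norm, inv_mul_cancel₀ hx0.ne']⟩
  have hθ : ‖x‖ • (θ : E n) = x := by
    show ‖x‖ • (‖x‖⁻¹ • x) = x
    rw [smul_inv_smul₀ hx0.ne']
  have key := tail_bound (φ := fun s => Real.log (sg g (s • (θ : E n))) -
      1 / 2 * (trG g (s • (θ : E n)) - n))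
    (φ' := fun s => (∑ i, nx i (s • (θ : E n)) * Lg g i (s • (θ : E n))) -
      1 / 2 * dN (trG g) (s • (θ : E n)))
    (ρ := ‖x‖) (B := C) (q := q + q) hx0 (by linarith) ?_ ?_ ?_
  · simp only [hθ, htr] at key
    exact key
  · intro s hs
    have hs0 : 0 < s := hx0.trans_le hs
    have hsR : R ≤ len (s • (θ : E n)) := by
      show R ≤ ‖s • (θ : E n)‖
      rw [norm_smul_sph hs0.le]; exact (hx2.trans_le hs).le
    have a1 := ray_deriv hs0 θ (f := fun y => Real.log (sg g y))
      ((h.csg hsR).log (h.sg_pos hsR).ne')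
    have a2 : dN (fun y => Real.log (sg g y)) (s • (θ : E n)) =
        ∑ i, nx i (s • (θ : E n)) * Lg g i (s • (θ : E n)) := by
      unfold dN
      refine Finset.sum_congr rfl fun i _ => ?_
      congr 1
      have h2 : HasDerivAt _ _ (0 : ℝ) := h.HP_sg hsR i
      have h3 := h2.log (by simp only [zero_smul, add_zero]; exact (h.sg_pos hsR).ne')
      simp only [zero_smul, add_zero] at h3
      have h4 : HP i (fun y => Real.log (sg g y)) _ (s • (θ : E n)) := h3
      rw [h4.pd, mul_comm, mul_div_assoc, div_self (h.sg_pos hsR).ne', mul_one]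
    rw [a2] at a1
    have a3 : ContDiffAt ℝ ∞ (trG g) (s • (θ : E n)) := by
      unfold trG
      exact ContDiffAt.sum fun i _ => (h.gs i i).contDiffAt
    have a4 := (((ray_deriv hs0 θ a3).sub_const (n : ℝ))).const_mul (1 / 2)
    exact a1.sub a4
  · intro s hs
    have hs0 : 0 < s := hx0.trans_le hs
    have a1 := hb (s • (θ : E n)) (by rw [norm_smul_sph hs0.le]; exact hx1.trans_le hs)
    rw [norm_smul_sph hs0.le] at a1
    exact a1
  · have a1 : Tendsto (fun s : ℝ => Real.log (sg g (s • (θ : E n)))) atTop (𝓝 0) := by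
      have := (Real.continuousAt_log (x := √1) (by simp)).tendsto.comp ((det_lim hq D θ).sqrt)
      simpa [Function.comp_def, sg] using this
    have a2 := (((O_trh D).tendsto hq).comp (far_ray θ)).const_mul (1 / 2)
    have a3 := a1.sub a2
    simp only [htr]
    simpa [Function.comp_def] using a3

lemma sg1 (hq : 0 < q) (D : Dec g q) : O (q + q) (fun x => sg g x - 1 - 1 / 2 * trh g x) := by
  have h1 := h.lsg hq D
  have h2 : O q (fun x => Real.log (sg g x)) := by
    have := (h1.mono (p := q) (by linarith)).add ((O_trh D).const_mul (1 / 2))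
    exact this.congr (Eventually.of_forall fun x => by ring)
  have h3 : O (q + q) (fun x => Real.exp (Real.log (sg g x)) - 1 - Real.log (sg g x)) := by
    have := exp_taylor.comp_tendsto (h2.tendsto hq)
    exact IsBigO.trans this (h2.mul' h2 le_rfl)
  refine (h3.add h1).congr ?_
  filter_upwards [far_gt (n := n) R] with x hx
  rw [Real.exp_log (h.sg_pos (le_of_lt hx))]
  ring

/-- **expansion of the area element** -/
theorem ad1 (hq : 0 < q) (D : Dec g q) : O (q + q) (fun x => ad g x - 1 - alin g x) := by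
  have h1 := h.sg1 hq D
  have h2 := h.s1 hq D
  have hsb : O 0 (fun x => √(ww g x)) := (h.s0 hq D).bdd hq.le
  have h3 : O (q + q) (fun x => (sg g x - 1 - 1 / 2 * trh g x) * √(ww g x) +
      (√(ww g x) - 1 + hnn g x / 2) + (1 / 2) * (trh g x * (√(ww g x) - 1))) :=
    ((h1.mul' hsb (by linarith)).add h2).add (((O_trh D).mul' (h.s0 hq D) le_rfl).const_mul _)
  exact h3.congr (Eventually.of_forall fun x => by unfold ad alin; ring)

lemma ad0 (hq : 0 < q) (D : Dec g q) : O q (fun x => ad g x - 1) := by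
  have h1 := ((h.ad1 hq D).mono (p := q) (by linarith)).add (O_alin D)
  exact h1.congr (Eventually.of_forall fun x => by ring)

/-- **expansion of `r² (H² - τ²)` times the area element** -/
theorem Q1 (hq : 0 < q) (D : Dec g q) (hK : ∀ i j, O (q + 1) (fun x => K x i j)) :
    O (q + q) (fun x => len x ^ 2 * (ad g x * Qf g K x) - ((n : ℝ) - 1) ^ 2 -
      ((n : ℝ) - 1) ^ 2 * alin g x - 2 * ((n : ℝ) - 1) * ylin g x) := by
  have ha := h.ad1 hq D
  have ha0 := h.ad0 hq D
  have hab : O 0 (ad g) := ha0.bdd hq.le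
  have hy := h.rH hq D
  have hy0 := h.rH0 hq D
  have hτ : O q (fun x => len x * tauf g K x) := O_len_mul (h.tau0 hq D hK) (by linarith)
  have h1 : O (q + q) (fun x => ((n : ℝ) - 1) ^ 2 * (ad g x - 1 - alin g x) +
      (2 * ((n : ℝ) - 1)) * (ad g x * (len x * Hm g x - ((n : ℝ) - 1) - ylin g x)) +
      (2 * ((n : ℝ) - 1)) * ((ad g x - 1) * ylin g x) +
      ad g x * ((len x * Hm g x - ((n : ℝ) - 1)) * (len x * Hm g x - ((n : ℝ) - 1))) -
      ad g x * ((len x * tauf g K x) * (len x * tauf g K x))) := by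
    refine O.sub (O.add (O.add (O.add (ha.const_mul _) ?_) ?_) ?_) ?_
    · exact (hab.mul' hy (r := q + q) (by linarith)).const_mul _
    · exact (ha0.mul' (O_ylin D) le_rfl).const_mul _
    · exact hab.mul' (hy0.mul' hy0 le_rfl) (by linarith)
    · exact hab.mul' (hτ.mul' hτ le_rfl) (by linarith)
  refine h1.congr (Eventually.of_forall fun x => ?_)
  unfold Qf
  ring

/-- the centred spheres are untrapped far out -/
theorem far_lt (hn : 2 ≤ n) (hq : 0 < q) (D : Dec g q)
    (hK : ∀ i j, O (q + 1) (fun x => K x i j)) :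
    ∀ᶠ r in atTop, ∀ x : E n, len x = r → |tauf g K x| < Hm g x := by
  have h2 : (2 : ℝ) ≤ n := by exact_mod_cast hn
  have hτ : O q (fun x => len x * tauf g K x) := O_len_mul (h.tau0 hq D hK) (by linarith)
  have h3 := (h.rH0 hq D).small hq (show (0 : ℝ) < 1 / 4 by norm_num)
  have h4 := hτ.small hq (show (0 : ℝ) < 1 / 4 by norm_num)
  obtain ⟨R1, hR1⟩ := far_iff.1 (h3.and h4)
  filter_upwards [eventually_gt_atTop R1, eventually_gt_atTop 0] with r hr hr0 x hx
  obtain ⟨a1, a2⟩ := hR1 x (by show R1 < len x; rw [hx]; exact hr)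
  rw [hx] at a1 a2
  have a3 := abs_le.1 a1
  rw [abs_mul, abs_of_pos hr0] at a2
  have a4 : r * |tauf g K x| < r * Hm g x := by linarith
  exact lt_of_mul_lt_mul_left a4 hr0.le

end Met

end Vale.Agent.H106
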