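import Vale.Agent.P366.R2.H106.Ineq
import Vale.Agent.P366.T4.Avg

/-! The integrated inequality. -/

open MeasureTheory Metric Filter Topology Set
open scoped ContDiff ENNReal Matrix MatrixOrder

noncomputable section
namespace Vale.Agent.H106
open Vale.Agent.P366.Stmt Vale.Agent.P366.T2 Vale.Agent.T4
open Vale.Agent.P366 (sphI sphM av flux dvg norm_smul_sph integrable_sph sphI_hasDerivAt
  flux_hasDerivAt isOpen_outside sphI_congr sphI_continuousOn cont_smul_sph1)

variable {n : ℕ}

/-- integral over the centred sphere of radius `r` with the induced area element -/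
def leafI (g : Field n) (f : E n → ℝ) (r : ℝ) : ℝ := r ^ (n - 1) * sphI (fun x => ad g x * f x) r

/-- area of the centred spheres -/
def arA (g : Field n) (r : ℝ) : ℝ := leafI g (fun _ => 1) r

/-- integral of `H² - τ²` -/
def yyQ (g K : Field n) (r : ℝ) : ℝ := leafI g (Qf g K) r

lemma integrable_at {r : ℝ} (h0 : 0 ≤ r) {f : E n → ℝ}
    (hf : ∀ x, len x = r → ContinuousAt f x) :
    Integrable (fun θ : sphere (0 : E n) 1 => f (r • (θ : E n))) (sphM n) := by
  have h1 : Continuous (fun θ : sphere (0 : E n) 1 => f (r • (θ : E n))) := by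
    rw [continuous_iff_continuousAt]
    intro θ
    exact ContinuousAt.comp (f := fun θ : sphere (0 : E n) 1 => r • (θ : E n))
      (hf _ (norm_smul_sph h0 θ)) (cont_smul_sph1 r).continuousAt
  exact (h1.integrable_of_hasCompactSupport (HasCompactSupport.of_compactSpace _))

lemma int4 {α : Type*} {m0 : MeasurableSpace α} {μ : Measure α} {a b c d : α → ℝ}
    (ha : Integrable a μ) (hb : Integrable b μ) (hc : Integrable c μ) (hd : Integrable d μ)
    (x y z : ℝ) : Integrable (fun t => a t - x * b t - y * c t - z * d t) μ ∧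
      ∫ t, (a t - x * b t - y * c t - z * d t) ∂μ =
        ∫ t, a t ∂μ - x * ∫ t, b t ∂μ - y * ∫ t, c t ∂μ - z * ∫ t, d t ∂μ := by
  have h1 : Integrable (fun t => a t - x * b t) μ := ha.sub (hb.const_mul x)
  have h2 : Integrable (fun t => a t - x * b t - y * c t) μ := h1.sub (hc.const_mul y)
  refine ⟨h2.sub (hd.const_mul z), ?_⟩
  rw [integral_sub h2 (hd.const_mul z), integral_sub h1 (hc.const_mul y),
    integral_sub ha (hb.const_mul x), integral_const_mul, integral_const_mul, integral_const_mul]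

namespace Met

variable {g : Field n} {R : ℝ} (h : Met g R)
include h

section

variable {K : Field n} (hK : ∀ i j, Smooth (fun x => K x i j)) (hKs : ∀ x i j, K x i j = K x j i)

lemma cric {x : E n} (hx : R ≤ len x) (i j : Fin n) : ContDiffAt ℝ ∞ (ric g i j) x := by
  unfold ric
  exact ContDiffAt.sum fun k _ => ((contDiffAt_pd (h.cchr hx k i j) k).sub
    (contDiffAt_pd (h.cchr hx k i k) j)).add (ContDiffAt.sum fun l _ =>
      ((h.cchr hx k k l).mul (h.cchr hx l i j)).sub ((h.cchr hx k j l).mul (h.cchr hx l i k)))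

lemma cscal {x : E n} (hx : R ≤ len x) : ContDiffAt ℝ ∞ (scal g) x := by
  have e : scal g = fun x => ∑ i, ∑ j, up g i j x * ric g i j x := funext fun x => scal_ric g x
  rw [e]
  exact ContDiffAt.sum fun i _ => ContDiffAt.sum fun j _ => (h.cup hx i j).mul (h.cric hx i j)

lemma cct {A B : E n → Fin n → Fin n → ℝ} {x : E n} (hx : R ≤ len x)
    (hA : ∀ i j, ContDiffAt ℝ ∞ (fun y => A y i j) x)
    (hB : ∀ i j, ContDiffAt ℝ ∞ (fun y => B y i j) x) :
    ContDiffAt ℝ ∞ (fun y => ct g y (A y) (B y)) x := by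
  unfold ct
  exact ContDiffAt.sum fun i _ => ContDiffAt.sum fun j _ => ContDiffAt.sum fun k _ =>
    ContDiffAt.sum fun l _ => (((h.cPu hx i k).mul (h.cPu hx j l)).mul (hA i j)).mul (hB k l)

lemma cdt {a b : Fin n → E n → ℝ} {x : E n} (hx : R ≤ len x)
    (ha : ∀ i, ContDiffAt ℝ ∞ (a i) x) (hb : ∀ i, ContDiffAt ℝ ∞ (b i) x) :
    ContDiffAt ℝ ∞ (fun y => dt g y (fun k => a k y) (fun k => b k y)) x := by
  unfold dt
  exact ContDiffAt.sum fun i _ => ContDiffAt.sum fun j _ => ((h.cPu hx i j).mul (ha i)).mul (hb j)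

lemma cRS {x : E n} (hx : R ≤ len x) : ContDiffAt ℝ ∞ (RS g) x := by
  unfold RS
  exact (((h.cscal hx).sub (contDiffAt_const.mul (ContDiffAt.sum fun i _ =>
    ContDiffAt.sum fun j _ => ((h.cric hx i j).mul (h.cnu hx i)).mul (h.cnu hx j)))).add
      ((h.cHm hx).pow 2)).sub (h.cct hx (fun i j => h.cAA hx i j) (fun i j => h.cAA hx i j))

lemma cad {x : E n} (hx : R ≤ len x) : ContDiffAt ℝ ∞ (ad g) x := (h.csg hx).mul (h.csq hx)

lemma cFx {x : E n} (hx : R ≤ len x) : ContDiffAt ℝ ∞ (Fx g) x :=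
  (h.cHm hx).div (h.csq hx) (h.sq_pos hx).ne'

lemma ad_pos {x : E n} (hx : R ≤ len x) : 0 < ad g x := mul_pos (h.sg_pos hx) (h.sq_pos hx)

include hK in
lemma ckF {x : E n} (hx : R ≤ len x) : ContDiffAt ℝ ∞ (kF g K) x :=
  (h.ctauf hK hx).div (h.csq hx) (h.sq_pos hx).ne'

include hK in
lemma cnormSq {x : E n} (hx : R ≤ len x) : ContDiffAt ℝ ∞ (normSq g K) x := by
  unfold normSq
  exact ContDiffAt.sum fun i _ => ContDiffAt.sum fun j _ => ContDiffAt.sum fun k _ =>
    ContDiffAt.sum fun l _ => (((h.cup hx i k).mul (h.cup hx j l)).mul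
      (hK i j).contDiffAt).mul (hK k l).contDiffAt

include hK in
lemma cmu {x : E n} (hx : R ≤ len x) : ContDiffAt ℝ ∞ (mu g K) x := by
  unfold mu
  exact (((h.cscal hx).add ((h.ctr hK hx).pow 2)).sub (h.cnormSq hK hx)).div_const 2

include hK in
lemma cmom {x : E n} (hx : R ≤ len x) (j : Fin n) : ContDiffAt ℝ ∞ (mom g K j) x := by
  unfold mom
  exact ContDiffAt.sum fun i _ => ContDiffAt.sum fun k _ => (h.cup hx i k).mul
    ((contDiffAt_pd (h.cmomT hK hx i j) k).sub (ContDiffAt.sum fun l _ =>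
      ((h.cchr hx l k i).mul (h.cmomT hK hx l j)).add
        ((h.cchr hx l k j).mul (h.cmomT hK hx i l))))

include hK in
lemma cJn {x : E n} (hx : R ≤ len x) : ContDiffAt ℝ ∞ (Jn g K) x := by
  unfold Jn
  exact ContDiffAt.sum fun i _ => (h.cmom hK hx i).mul (h.cnu hx i)

include hK in
lemma calp {x : E n} (hx : R ≤ len x) (hlt : |tauf g K x| < Hm g x) (k : Fin n) :
    ContDiffAt ℝ ∞ (alp g K k) x :=
  (h.ckap hK hx k).sub (contDiffAt_pd (h.cchi hK hx hlt) k)

include hK in
lemma cehk {x : E n} (hx : R ≤ len x) (hlt : |tauf g K x| < Hm g x) (k : Fin n) :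
    ContDiffAt ℝ ∞ (ehk g K k) x :=
  (contDiffAt_pd ((h.cHm hx).log (H_pos hlt).ne') k).sub
    ((h.cuf hK hx hlt).mul (h.ckap hK hx k))

include hK in
lemma cgR {x : E n} (hx : R ≤ len x) (hlt : |tauf g K x| < Hm g x) :
    ContDiffAt ℝ ∞ (gR g K) x := by
  unfold gR
  exact (h.cFx hx).mul ((((h.cmu hK hx).sub ((h.cuf hK hx hlt).mul (h.cJn hK hx))).add
    (h.cdt hx (h.cehk hK hx hlt) (h.cehk hK hx hlt))).add ((contDiffAt_const.sub
      ((h.cuf hK hx hlt).pow 2)).mul (h.cdt hx (h.calp hK hx hlt) (h.calp hK hx hlt))))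

include hK in
lemma cgL {x : E n} (hx : R ≤ len x) (hlt : |tauf g K x| < Hm g x) :
    ContDiffAt ℝ ∞ (gL g K) x := by
  unfold gL
  exact (((h.cFx hx).mul (h.cRS hx)).add (h.cdt hx (fun k => contDiffAt_pd (h.cFx hx) k)
    (fun k => contDiffAt_pd ((h.cQf hK hx).log (Q_pos hlt).ne') k))).sub
      (contDiffAt_const.mul (h.cdt hx (h.calp hK hx hlt)
        (fun k => contDiffAt_pd (h.ckF hK hx) k)))

omit h in
lemma sum_dt {a b : Fin n → ℝ} {x : E n} :
    ∑ i, (∑ l, Pu g i l x * b l) * a i = dt g x a b := by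
  unfold dt
  refine Finset.sum_congr rfl fun i _ => ?_
  rw [Finset.sum_mul]
  exact Finset.sum_congr rfl fun l _ => by ring

include hK hKs in
/-- **The pointwise inequality.** -/
theorem key_pt (hn : 2 ≤ n) {x : E n} (hx : R < len x) (hlt : |tauf g K x| < Hm g x) :
    (∑ i, pd i (fun y => sg g y * (Qf g K y * nu g i y)) x) +
      ad g x * (Fx g x * Qf g K x) / ((n : ℝ) - 1) ≤
    ad g x * gL g K x - 2 * (ad g x * gR g K x) -
      2 * (∑ i, pd i (fun y => sg g y * (Hm g y * ZZ g i y)) x) -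
      2 * (∑ i, pd i (fun y => sg g y * (tauf g K y * bb g K i y)) x) := by
  have hx' := hx.le
  have hs0 := h.sq_pos hx'
  have hsg := h.sg_pos hx'
  rw [h.div_sg hx' (fun i => (h.cQf hK hx').mul (h.cnu hx' i)),
    h.div_sg hx' (fun i => (h.cHm hx').mul (h.cZZ hx' i)),
    h.div_sg hx' (fun i => (h.ctauf hK hx').mul (h.cbb hK hx' i)),
    dv_mul (h.cQf hK hx') (fun i => h.cnu hx' i),
    dv_mul (h.cHm hx') (fun i => h.cZZ hx' i),
    dv_mul (h.ctauf hK hx') (fun i => h.cbb hK hx' i)]
  have h1 := h.nu_Qf hK hKs hx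
  have h2 := h.squares hK hx' hlt
  have h3 := h.tensor_le hn hx' (fun i j => K x i j) hlt
  have d1 : ∑ i, ZZ g i x * pd i (Hm g) x =
      dt g x (fun k => pd k (lam g) x) (fun k => pd k (Hm g) x) := by
    rw [h.dt_symm]; exact sum_dt
  have d2 : ∑ i, bb g K i x * pd i (tauf g K) x =
      dt g x (fun k => kap g K k x) (fun k => pd k (tauf g K) x) := by
    rw [h.dt_symm]; exact sum_dt
  have d3 : ∑ i, bb g K i x * pd i (lam g) x =
      dt g x (fun k => kap g K k x) (fun k => pd k (lam g) x) := by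
    rw [h.dt_symm]; exact sum_dt
  rw [d1, d2]
  rw [d3] at h1
  have hH := H_pos hlt
  have hu : uf g K x * Hm g x = tauf g K x := by unfold uf; field_simp
  have hF : √(ww g x) * Fx g x = Hm g x := by unfold Fx; field_simp
  have e1 : ad g x * gL g K x = sg g x * (Hm g x * RS g x + √(ww g x) *
      (dt g x (fun k => pd k (Fx g) x) (fun k => pd k (fun y => Real.log (Qf g K y)) x) -
        2 * dt g x (fun k => alp g K k x) (fun k => pd k (kF g K) x))) := by
    unfold ad gL
    linear_combination (sg g x * RS g x) * hF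
  have e2 : ad g x * gR g K x = sg g x * (Hm g x * mu g K x - tauf g K x * Jn g K x +
      Hm g x * (dt g x (fun k => ehk g K k x) (fun k => ehk g K k x) +
        (1 - uf g K x ^ 2) * dt g x (fun k => alp g K k x) (fun k => alp g K k x))) := by
    unfold ad gR
    linear_combination (sg g x * (mu g K x - uf g K x * Jn g K x +
      dt g x (fun k => ehk g K k x) (fun k => ehk g K k x) +
      (1 - uf g K x ^ 2) * dt g x (fun k => alp g K k x) (fun k => alp g K k x))) * hF -
        (sg g x * Jn g K x) * hu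
  have e3 : ad g x * (Fx g x * Qf g K x) / ((n : ℝ) - 1) =
      sg g x * ((Hm g x ^ 2 - tauf g K x ^ 2) * Hm g x / ((n : ℝ) - 1)) := by
    unfold ad
    have : sg g x * √(ww g x) * (Fx g x * Qf g K x) = sg g x * (Hm g x * Qf g K x) := by
      linear_combination (sg g x * Qf g K x) * hF
    rw [this]
    unfold Qf
    ring
  rw [e1, e2, e3]
  have e4 : dv g (nu g) x = Hm g x := rfl
  rw [e4]
  have hkey : 0 ≤ sg g x * ((Hm g x * ct g x (AA g x) (AA g x) -
      2 * tauf g K x * ct g x (fun i j => K x i j) (AA g x) +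
        Hm g x * ct g x (fun i j => K x i j) (fun i j => K x i j)) -
      (Hm g x ^ 2 - tauf g K x ^ 2) * Hm g x / ((n : ℝ) - 1)) :=
    mul_nonneg hsg.le (by linarith)
  refine le_of_sub_nonneg (hkey.trans (le_of_eq ?_))
  linear_combination sg g x * h1 + sg g x * h2

/-! ### integrals -/

/-- derivative of the integrals over the centred spheres -/
lemma leafI_deriv [Nontrivial (E n)] {f : E n → ℝ} (hf : ∀ x, R ≤ len x → ContDiffAt ℝ ∞ f x)
    {r : ℝ} (hr : R < r) : HasDerivAt (leafI g f)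
      (r ^ (n - 1) * sphI (fun x => ∑ i, pd i (fun y => sg g y * (f y * nu g i y)) x) r) r := by
  have hW : ∀ i, ContDiffOn ℝ 1 (fun y => sg g y * (f y * nu g i y)) {x : E n | R < ‖x‖} := by
    intro i x hx
    have hx' : R ≤ len x := le_of_lt hx
    exact (((h.csg hx').mul ((hf x hx').mul (h.cnu hx' i))).of_le (by simp)).contDiffWithinAt
  have h1 := flux_hasDerivAt h.hR.le hW hr
  have e1 : sphI (dvg fun i y => sg g y * (f y * nu g i y)) r =
      sphI (fun x => ∑ i, pd i (fun y => sg g y * (f y * nu g i y)) x) r := by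
    refine sphI_congr (h.hR.le.trans hr.le) fun x hx => ?_
    unfold dvg
    refine Finset.sum_congr rfl fun i _ => ?_
    exact (pd_eq_pd ((hW i).contDiffAt ((isOpen_outside R).mem_nhds (by
      show R < ‖x‖
      rw [hx]; exact hr)) |>.differentiableAt (by simp)) i).symm
  rw [e1] at h1
  refine h1.congr_of_eventuallyEq ?_
  filter_upwards [lt_mem_nhds hr] with s hs
  unfold leafI flux
  congr 1
  refine sphI_congr (h.hR.le.trans hs.le) fun x hx => ?_
  have hx' : R ≤ len x := by show R ≤ ‖x‖; rw [hx]; exact hs.le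
  have h2 := h.nu_nx hx'
  have e2 : ∑ i, sg g x * (f x * nu g i x) * (x i / ‖x‖) =
      sg g x * f x * ∑ i, nu g i x * nx i x := by
    rw [Finset.mul_sum]
    refine Finset.sum_congr rfl fun i _ => ?_
    unfold nx len
    ring
  rw [e2, h2]
  unfold ad
  ring

lemma leafI_contOn {f : E n → ℝ} (hf : ∀ x, R ≤ len x → ContinuousAt f x) :
    ContinuousOn (leafI g f) (Ici R) := by
  unfold leafI
  refine ContinuousOn.mul (by fun_prop) ?_
  intro r0 hr0
  have hr0' : R ≤ r0 := hr0
  set Kc : Set (ℝ × sphere (0 : E n) 1) := Icc R (r0 + 1) ×ˢ univ with hKc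
  have hKcomp : IsCompact Kc := isCompact_Icc.prod isCompact_univ
  have hc : ∀ x, R ≤ len x → ContinuousAt (fun x => ad g x * f x) x := fun x hx =>
    (h.cad hx).continuousAt.mul (hf x hx)
  have hcont : ContinuousOn (fun p : ℝ × sphere (0 : E n) 1 =>
      ad g (p.1 • (p.2 : E n)) * f (p.1 • (p.2 : E n))) Kc := by
    rintro ⟨r, θ⟩ ⟨hr, -⟩
    refine ContinuousAt.continuousWithinAt ?_
    have h0 : 0 ≤ r := h.hR.le.trans hr.1
    exact ContinuousAt.comp (f := fun p : ℝ × sphere (0 : E n) 1 => p.1 • (p.2 : E n))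
      (g := fun x => ad g x * f x) (hc _ (by
        show R ≤ ‖r • (θ : E n)‖
        rw [norm_smul_sph h0]; exact hr.1))
      (Vale.Agent.P366.cont_smul_sph2 n).continuousAt
  obtain ⟨C, hC⟩ := hKcomp.exists_bound_of_continuousOn hcont
  have hnhds : Ici R ∩ Iio (r0 + 1) ∈ 𝓝[Ici R] r0 :=
    inter_mem_nhdsWithin _ (Iio_mem_nhds (by linarith))
  refine continuousWithinAt_of_dominated (bound := fun _ => C) ?_ ?_ ?_ ?_
  · filter_upwards [hnhds] with r hr
    have h0 : 0 ≤ r := h.hR.le.trans hr.1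
    exact (integrable_at h0 (f := fun x => ad g x * f x) fun x hx =>
      hc x (by rw [hx]; exact hr.1)).aestronglyMeasurable
  · filter_upwards [hnhds] with r hr
    refine Eventually.of_forall fun θ => ?_
    exact hC (r, θ) ⟨⟨hr.1, le_of_lt hr.2⟩, mem_univ _⟩
  · exact integrable_const C
  · refine Eventually.of_forall fun θ => ?_
    have h0 : 0 ≤ r0 := h.hR.le.trans hr0'
    refine ContinuousAt.continuousWithinAt ?_
    exact ContinuousAt.comp (f := fun r : ℝ => r • (θ : E n)) (g := fun x => ad g x * f x)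
      (hc _ (by show R ≤ ‖r0 • (θ : E n)‖; rw [norm_smul_sph h0]; exact hr0'))
      (continuous_id.smul continuous_const).continuousAt

/-- tangential divergences integrate to zero -/
lemma sphI_tan [Nontrivial (E n)] {f : E n → ℝ} {a : Fin n → E n → ℝ}
    (hf : ∀ x, R ≤ len x → ContDiffAt ℝ ∞ f x) (ha : ∀ l x, R ≤ len x → ContDiffAt ℝ ∞ (a l) x)
    {r : ℝ} (hr : R < r) :
    sphI (fun x => ∑ i, pd i (fun y => sg g y * (f y * ∑ l, Pu g i l y * a l y)) x) r = 0 := by
  refine sphI_div_tangential h.hR.le (W := fun i y => sg g y * (f y * ∑ l, Pu g i l y * a l y))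
    ?_ ?_ hr
  · intro i x hx
    have hx' : R ≤ len x := le_of_lt hx
    have : ContDiffAt ℝ ∞ (fun y => sg g y * (f y * ∑ l, Pu g i l y * a l y)) x :=
      (h.csg hx').mul ((hf x hx').mul (ContDiffAt.sum fun l _ => (h.cPu hx' i l).mul (ha l x hx')))
    exact (this.of_le (by simp)).contDiffWithinAt
  · intro x hx
    have hx' : R ≤ len x := le_of_lt hx
    have e : ∀ i, sg g x * (f x * ∑ l, Pu g i l x * a l x) * nx i x =
        ∑ l, sg g x * f x * a l x * (nx i x * Pu g i l x) := by
      intro i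
      rw [Finset.mul_sum, Finset.mul_sum, Finset.sum_mul]
      exact Finset.sum_congr rfl fun l _ => by ring
    simp only [e]
    rw [Finset.sum_comm]
    simp only [← Finset.mul_sum, h.nx_Pu hx', mul_zero, Finset.sum_const_zero]

include hK hKs in
/-- **The integrated inequality.** -/
theorem avg_ineq [Nontrivial (E n)] (hn : 2 ≤ n) {r : ℝ} (hr : R < r)
    (hlt : ∀ x, len x = r → |tauf g K x| < Hm g x) {c Fb : ℝ}
    (hG : leafI g (fun x => gL g K x - c * Fx g x - (Fx g x - Fb) * Qf g K x / ((n : ℝ) - 1)) r ≤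
      2 * leafI g (gR g K) r) :
    r ^ (n - 1) * sphI (fun x => ∑ i, pd i (fun y => sg g y * (Qf g K y * nu g i y)) x) r ≤
      c * leafI g (Fx g) r - Fb / ((n : ℝ) - 1) * yyQ g K r := by
  have hr0 : 0 < r := h.hR.trans hr
  have hP : (0 : ℝ) < r ^ (n - 1) := by positivity
  have hxr : ∀ x : E n, len x = r → R < len x := fun x hx => by rw [hx]; exact hr
  -- continuity
  have cD : ∀ (V : Fin n → E n → ℝ), (∀ i x, R ≤ len x → ContDiffAt ℝ ∞ (V i) x) →
      ∀ x, len x = r → ContinuousAt (fun x => ∑ i, pd i (fun y => sg g y * V i y) x) x := by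
    intro V hV x hx
    have hx' := (hxr x hx).le
    have : ContDiffAt ℝ ∞ (fun x => ∑ i, pd i (fun y => sg g y * V i y) x) x :=
      ContDiffAt.sum fun i _ => contDiffAt_pd ((h.csg hx').mul (hV i x hx')) i
    exact this.continuousAt
  have c1 := cD (fun i y => Qf g K y * nu g i y) fun i x hx => (h.cQf hK hx).mul (h.cnu hx i)
  have c2 := cD (fun i y => Hm g y * ZZ g i y) fun i x hx => (h.cHm hx).mul (h.cZZ hx i)
  have c3 := cD (fun i y => tauf g K y * bb g K i y) fun i x hx =>
    (h.ctauf hK hx).mul (h.cbb hK hx i)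
  have c4 : ∀ x, len x = r → ContinuousAt (fun x => ad g x * gL g K x) x := fun x hx =>
    ((h.cad (hxr x hx).le).mul (h.cgL hK (hxr x hx).le (hlt x hx))).continuousAt
  have c5 : ∀ x, len x = r → ContinuousAt (fun x => ad g x * gR g K x) x := fun x hx =>
    ((h.cad (hxr x hx).le).mul (h.cgR hK (hxr x hx).le (hlt x hx))).continuousAt
  have c6 : ∀ x, len x = r → ContinuousAt (fun x => ad g x * (Fx g x * Qf g K x)) x := fun x hx =>
    ((h.cad (hxr x hx).le).mul ((h.cFx (hxr x hx).le).mul (h.cQf hK (hxr x hx).le))).continuousAt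
  have c7 : ∀ x, len x = r → ContinuousAt (fun x => ad g x * Fx g x) x := fun x hx =>
    ((h.cad (hxr x hx).le).mul (h.cFx (hxr x hx).le)).continuousAt
  have c8 : ∀ x, len x = r → ContinuousAt (fun x => ad g x * Qf g K x) x := fun x hx =>
    ((h.cad (hxr x hx).le).mul (h.cQf hK (hxr x hx).le)).continuousAt
  have i1 := integrable_at hr0.le c1
  have i2 := integrable_at hr0.le c2
  have i3 := integrable_at hr0.le c3
  have i4 := integrable_at hr0.le c4
  have i5 := integrable_at hr0.le c5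
  have i6 := integrable_at hr0.le c6
  have i7 := integrable_at hr0.le c7
  have i8 := integrable_at hr0.le c8
  -- tangential terms
  have t2 : sphI (fun x => ∑ i, pd i (fun y => sg g y * (Hm g y * ZZ g i y)) x) r = 0 :=
    h.sphI_tan (fun x hx => h.cHm hx) (fun l x hx => contDiffAt_pd (h.clam hx) l) hr
  have t3 : sphI (fun x => ∑ i, pd i (fun y => sg g y * (tauf g K y * bb g K i y)) x) r = 0 :=
    h.sphI_tan (fun x hx => h.ctauf hK hx) (fun l x hx => h.ckap hK hx l) hr
  -- integrate the pointwise inequality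
  have h1 : sphI (fun x => ∑ i, pd i (fun y => sg g y * (Qf g K y * nu g i y)) x) r +
      sphI (fun x => ad g x * (Fx g x * Qf g K x)) r / ((n : ℝ) - 1) ≤
      sphI (fun x => ad g x * gL g K x) r - 2 * sphI (fun x => ad g x * gR g K x) r := by
    obtain ⟨j1, e1⟩ := int4 i1 i6 i7 i7 (-(1 / ((n : ℝ) - 1))) 0 0
    obtain ⟨j2, e2⟩ := int4 i4 i5 i2 i3 2 2 2
    have h2 := integral_mono j1 j2 fun θ => by
      have hθ : len (r • (θ : E n)) = r := norm_smul_sph hr0.le θ
      have h3 := h.key_pt hK hKs hn (hxr _ hθ) (hlt _ hθ)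
      refine le_trans (le_of_eq ?_) h3
      ring
    rw [e1, e2] at h2
    change sphI (fun x => ∑ i, pd i (fun y => sg g y * (Qf g K y * nu g i y)) x) r -
      -(1 / ((n : ℝ) - 1)) * sphI (fun x => ad g x * (Fx g x * Qf g K x)) r -
      0 * sphI (fun x => ad g x * Fx g x) r - 0 * sphI (fun x => ad g x * Fx g x) r ≤
      sphI (fun x => ad g x * gL g K x) r - 2 * sphI (fun x => ad g x * gR g K x) r -
      2 * sphI (fun x => ∑ i, pd i (fun y => sg g y * (Hm g y * ZZ g i y)) x) r -
      2 * sphI (fun x => ∑ i, pd i (fun y => sg g y * (tauf g K y * bb g K i y)) x) r at h2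
    rw [t2, t3] at h2
    refine le_trans (le_of_eq ?_) (h2.trans (le_of_eq ?_)) <;> ring
  -- split the hypothesis
  have h3 : sphI (fun x => ad g x * gL g K x) r - c * sphI (fun x => ad g x * Fx g x) r -
      sphI (fun x => ad g x * (Fx g x * Qf g K x)) r / ((n : ℝ) - 1) +
      Fb / ((n : ℝ) - 1) * sphI (fun x => ad g x * Qf g K x) r ≤
      2 * sphI (fun x => ad g x * gR g K x) r := by
    obtain ⟨-, e1⟩ := int4 i4 i7 i6 i8 c (1 / ((n : ℝ) - 1)) (-(Fb / ((n : ℝ) - 1)))
    have h4 : sphI (fun x => ad g x * (gL g K x - c * Fx g x -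
        (Fx g x - Fb) * Qf g K x / ((n : ℝ) - 1))) r =
        sphI (fun x => ad g x * gL g K x) r - c * sphI (fun x => ad g x * Fx g x) r -
      1 / ((n : ℝ) - 1) * sphI (fun x => ad g x * (Fx g x * Qf g K x)) r -
      -(Fb / ((n : ℝ) - 1)) * sphI (fun x => ad g x * Qf g K x) r := by
      refine Eq.trans ?_ e1
      refine integral_congr_ae (Eventually.of_forall fun θ => ?_)
      ring
    have h5 : r ^ (n - 1) * sphI (fun x => ad g x * (gL g K x - c * Fx g x -
        (Fx g x - Fb) * Qf g K x / ((n : ℝ) - 1))) r ≤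
        r ^ (n - 1) * (2 * sphI (fun x => ad g x * gR g K x) r) := by
      refine le_trans hG (le_of_eq ?_)
      unfold leafI
      ring
    have h6 := le_of_mul_le_mul_left h5 hP
    rw [h4] at h6
    refine le_trans (le_of_eq ?_) h6
    ring
  have h6 : sphI (fun x => ∑ i, pd i (fun y => sg g y * (Qf g K y * nu g i y)) x) r ≤
      c * sphI (fun x => ad g x * Fx g x) r -
        Fb / ((n : ℝ) - 1) * sphI (fun x => ad g x * Qf g K x) r := by linarith
  have h7 := mul_le_mul_of_nonneg_left h6 hP.le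
  refine h7.trans (le_of_eq ?_)
  unfold yyQ leafI
  ring

end

end Met

end Vale.Agent.H106
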