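import Vale.Agent.P366.T5.W3
import Vale.Agent.P366.R2.H106.Alg

/-! General metrics on the exterior of a ball: the unit normal of the centred spheres. -/

open MeasureTheory Metric Filter Topology Set
open scoped ContDiff ENNReal Matrix MatrixOrder

noncomputable section
namespace Vale.Agent.H106
open Vale.Agent.P366.Stmt Vale.Agent.P366.T2 Vale.Agent.T4

variable {n : ℕ}

/-- A smooth metric on `R ≤ |x|`. -/
structure Met (g : Field n) (R : ℝ) : Prop where
  hR : 0 < R
  gs : ∀ i j, Smooth (fun x => g x i j)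
  symm : ∀ x i j, g x i j = g x j i
  pos : ∀ x, R ≤ len x → (mat g x).PosDef

/-- gradient of `r` -/
def Nu (g : Field n) (i : Fin n) (x : E n) : ℝ := ∑ j, up g i j x * nx j x

/-- `|∇ r|²` -/
def ww (g : Field n) (x : E n) : ℝ := ∑ i, Nu g i x * nx i x

/-- unit normal of the centred spheres -/
def nu (g : Field n) (i : Fin n) (x : E n) : ℝ := Nu g i x / √(ww g x)

/-- tangential inverse metric -/
def Pu (g : Field n) (i j : Fin n) (x : E n) : ℝ := up g i j x - nu g i x * nu g j x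

/-- Ricci curvature -/
def ric (g : Field n) (i j : Fin n) (x : E n) : ℝ :=
  ∑ k, (pd k (chr g k i j) x - pd j (chr g k i k) x +
    ∑ l, (chr g k k l x * chr g l i j x - chr g k j l x * chr g l i k x))

lemma scal_ric (g : Field n) (x : E n) : scal g x = ∑ i, ∑ j, up g i j x * ric g i j x := rfl

lemma pd_congr' {f h : E n → ℝ} {x : E n} (hfh : f =ᶠ[𝓝 x] h) (i : Fin n) : pd i f x = pd i h x :=
  hfh.lineDeriv_eq

lemma pd_len {x : E n} (hx : x ≠ 0) (j : Fin n) : pd j len x = nx j x := by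
  have h := HP.radial (f := fun t => t) (f' := 1) hx (hasDerivAt_id (len x)) j
  rw [h.pd]
  unfold nx
  field_simp

lemma pd_pd_symm {f : E n → ℝ} {x : E n} (hf : ContDiffAt ℝ ∞ f x) (i j : Fin n) :
    pd i (pd j f) x = pd j (pd i f) x := by
  have h3 : ∀ᶠ y in 𝓝 x, ContDiffAt ℝ 1 f y := (hf.of_le (by simp)).eventually (by simp)
  have e : ∀ j : Fin n, pd j f =ᶠ[𝓝 x] fun y => fderiv ℝ f y (EuclideanSpace.single j 1) := by
    intro j
    filter_upwards [h3] with y hy
    show lineDeriv ℝ f y (EuclideanSpace.single j (1 : ℝ)) = _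
    exact (hy.differentiableAt (by simp)).lineDeriv_eq_fderiv
  have hd : DifferentiableAt ℝ (fderiv ℝ f) x :=
    (hf.fderiv_right (m := ∞) (by simp)).differentiableAt (by simp)
  have e2 : ∀ i j : Fin n, pd i (pd j f) x =
      fderiv ℝ (fderiv ℝ f) x (EuclideanSpace.single i 1) (EuclideanSpace.single j 1) := by
    intro i j
    rw [pd_congr' (e j)]
    have h1 : HasFDerivAt (fun y => fderiv ℝ f y (EuclideanSpace.single j 1)) _ x :=
      hd.hasFDerivAt.clm_apply (hasFDerivAt_const _ _)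
    have h2 := h1.hasLineDerivAt (EuclideanSpace.single i (1 : ℝ))
    show lineDeriv ℝ _ x (EuclideanSpace.single i (1 : ℝ)) = _
    rw [h2.lineDeriv]
    simp
  rw [e2 i j, e2 j i]
  have h2 : (2 : WithTop ℕ∞) ≤ ((⊤ : ℕ∞) : WithTop ℕ∞) := ENat.LEInfty.out
  have hsym : IsSymmSndFDerivAt ℝ f x := hf.isSymmSndFDerivAt (by simpa using h2)
  exact hsym.eq _ _

namespace Met

variable {g : Field n} {R : ℝ} (h : Met g R)
include h

lemma len_pos {x : E n} (hx : R ≤ len x) : 0 < len x := h.hR.trans_le hx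

lemma ne_zero {x : E n} (hx : R ≤ len x) : x ≠ 0 := ne_zero_of_len h.hR hx

lemma det_pos {x : E n} (hx : R ≤ len x) : 0 < (mat g x).det := (h.pos x hx).det_pos

lemma det_ne {x : E n} (hx : R ≤ len x) : (mat g x).det ≠ 0 := (h.det_pos hx).ne'

lemma cdet (x : E n) : ContDiffAt ℝ ∞ (fun y => (mat g y).det) x :=
  Vale.Agent.P366.Bridge.contDiffAt_det fun i j => (h.gs i j).contDiffAt

lemma reg_nhds {x : E n} (hx : R ≤ len x) : ∀ᶠ y in 𝓝 x, (mat g y).det ≠ 0 :=
  (h.cdet x).continuousAt.eventually_ne (h.det_ne hx)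

lemma up_symm {x : E n} (i j : Fin n) : up g i j x = up g j i x := by
  unfold up
  have hs : (mat g x)ᵀ = mat g x := by
    ext a b; exact h.symm x b a
  have : ((mat g x)⁻¹)ᵀ = (mat g x)⁻¹ := by rw [Matrix.transpose_nonsing_inv, hs]
  exact congrFun (congrFun this j) i

omit h in
lemma up_g' {x : E n} (hx : (mat g x).det ≠ 0) (i k : Fin n) :
    ∑ j, up g i j x * g x j k = if i = k then 1 else 0 := by
  have h1 : (mat g x)⁻¹ * mat g x = 1 :=
    Matrix.nonsing_inv_mul _ (isUnit_iff_ne_zero.2 hx)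
  have h2 := congrFun (congrFun h1 i) k
  rw [Matrix.mul_apply, Matrix.one_apply] at h2
  exact h2

lemma up_g {x : E n} (hx : R ≤ len x) (i k : Fin n) :
    ∑ j, up g i j x * g x j k = if i = k then 1 else 0 := up_g' (h.det_ne hx) i k

lemma g_up {x : E n} (hx : R ≤ len x) (i k : Fin n) :
    ∑ j, g x i j * up g j k x = if i = k then 1 else 0 := by
  have h1 := h.up_g hx k i
  rw [show (if i = k then (1 : ℝ) else 0) = if k = i then 1 else 0 by simp [eq_comm], ← h1]
  exact Finset.sum_congr rfl fun j _ => by rw [h.symm x i j, h.up_symm j k, mul_comm]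

lemma cup {x : E n} (hx : R ≤ len x) (i j : Fin n) : ContDiffAt ℝ ∞ (up g i j) x :=
  Vale.Agent.P366.Bridge.up_smooth h.gs (h.det_ne hx) i j

lemma cnx {x : E n} (hx : R ≤ len x) (i : Fin n) : ContDiffAt ℝ ∞ (nx i) x :=
  contDiffAt_nx i (h.ne_zero hx)

lemma cNu {x : E n} (hx : R ≤ len x) (i : Fin n) : ContDiffAt ℝ ∞ (Nu g i) x := by
  unfold Nu
  exact ContDiffAt.sum fun j _ => (h.cup hx i j).mul (h.cnx hx j)

lemma cww {x : E n} (hx : R ≤ len x) : ContDiffAt ℝ ∞ (ww g) x := by
  unfold ww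
  exact ContDiffAt.sum fun j _ => (h.cNu hx j).mul (h.cnx hx j)

lemma up_posDef {x : E n} (hx : R ≤ len x) : ((mat g x)⁻¹).PosDef := (h.pos x hx).inv

lemma quad_nonneg {x : E n} (hx : R ≤ len x) (a : Fin n → ℝ) :
    0 ≤ ∑ i, ∑ j, up g i j x * a i * a j := by
  have h1 := (h.up_posDef hx).posSemidef.dotProduct_mulVec_nonneg a
  simp only [dotProduct, Matrix.mulVec, Pi.star_apply, star_trivial, Finset.mul_sum] at h1
  refine h1.trans (le_of_eq ?_)
  exact Finset.sum_congr rfl fun k _ => Finset.sum_congr rfl fun l _ => by unfold up; ring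

omit h in
lemma ww_eq (x : E n) : ww g x = ∑ i, ∑ j, up g i j x * nx i x * nx j x := by
  unfold ww Nu
  refine Finset.sum_congr rfl fun i _ => ?_
  rw [Finset.sum_mul]
  exact Finset.sum_congr rfl fun j _ => by ring

lemma ww_pos {x : E n} (hx : R ≤ len x) : 0 < ww g x := by
  have hx0 := h.ne_zero hx
  have hne : (fun i => nx i x : Fin n → ℝ) ≠ 0 := by
    intro h0
    have h1 := sum_nx_sq hx0
    have : ∀ i, nx i x = 0 := fun i => congrFun h0 i
    simp only [this] at h1
    simp at h1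
  have h1 := (h.up_posDef hx).dotProduct_mulVec_pos hne
  simp only [dotProduct, Matrix.mulVec, Pi.star_apply, star_trivial, Finset.mul_sum] at h1
  rw [ww_eq]
  refine h1.trans_le (le_of_eq ?_)
  exact Finset.sum_congr rfl fun k _ => Finset.sum_congr rfl fun l _ => by unfold up; ring

lemma sq_pos {x : E n} (hx : R ≤ len x) : 0 < √(ww g x) := Real.sqrt_pos.2 (h.ww_pos hx)

lemma sq_mul {x : E n} (hx : R ≤ len x) : √(ww g x) * √(ww g x) = ww g x :=
  Real.mul_self_sqrt (h.ww_pos hx).le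

lemma csq {x : E n} (hx : R ≤ len x) : ContDiffAt ℝ ∞ (fun y => √(ww g y)) x :=
  (h.cww hx).sqrt (h.ww_pos hx).ne'

lemma cnu {x : E n} (hx : R ≤ len x) (i : Fin n) : ContDiffAt ℝ ∞ (nu g i) x :=
  (h.cNu hx i).div (h.csq hx) (h.sq_pos hx).ne'

lemma cPu {x : E n} (hx : R ≤ len x) (i j : Fin n) : ContDiffAt ℝ ∞ (Pu g i j) x :=
  (h.cup hx i j).sub ((h.cnu hx i).mul (h.cnu hx j))

lemma nu_nx {x : E n} (hx : R ≤ len x) : ∑ i, nu g i x * nx i x = √(ww g x) := by
  have h1 := h.sq_pos hx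
  unfold nu
  simp only [div_mul_eq_mul_div]
  rw [← Finset.sum_div]
  change ww g x / √(ww g x) = _
  rw [div_eq_iff h1.ne', h.sq_mul hx]

lemma up_nx {x : E n} (hx : R ≤ len x) (i : Fin n) :
    ∑ j, up g i j x * nx j x = √(ww g x) * nu g i x := by
  have h1 := h.sq_pos hx
  unfold nu
  rw [mul_div_cancel₀ _ h1.ne']
  rfl

lemma nx_up {x : E n} (hx : R ≤ len x) (j : Fin n) :
    ∑ i, nx i x * up g i j x = √(ww g x) * nu g j x := by
  rw [← h.up_nx hx j]
  exact Finset.sum_congr rfl fun i _ => by rw [h.up_symm i j, mul_comm]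

lemma Pu_symm {x : E n} (i j : Fin n) : Pu g i j x = Pu g j i x := by
  unfold Pu; rw [h.up_symm i j]; ring

lemma Pu_nx {x : E n} (hx : R ≤ len x) (i : Fin n) : ∑ j, Pu g i j x * nx j x = 0 := by
  unfold Pu
  simp only [sub_mul, Finset.sum_sub_distrib, h.up_nx hx, mul_assoc, ← Finset.mul_sum,
    h.nu_nx hx]
  ring

lemma nx_Pu {x : E n} (hx : R ≤ len x) (j : Fin n) : ∑ i, nx i x * Pu g i j x = 0 := by
  rw [← h.Pu_nx hx j]
  exact Finset.sum_congr rfl fun i _ => by rw [h.Pu_symm i j, mul_comm]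

lemma g_nu {x : E n} (hx : R ≤ len x) (i : Fin n) :
    ∑ j, g x i j * nu g j x = nx i x / √(ww g x) := by
  have h1 : ∑ j, g x i j * Nu g j x = nx i x := by
    unfold Nu
    have e : ∑ j, g x i j * ∑ k, up g j k x * nx k x =
        ∑ k, (∑ j, g x i j * up g j k x) * nx k x := by
      simp only [Finset.mul_sum, Finset.sum_mul]
      rw [Finset.sum_comm]
      exact Finset.sum_congr rfl fun k _ => Finset.sum_congr rfl fun j _ => by ring
    rw [e]
    simp only [h.g_up hx]
    simp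
  unfold nu
  simp only [mul_div_assoc']
  rw [← Finset.sum_div, h1]

lemma nu_unit {x : E n} (hx : R ≤ len x) : ∑ i, ∑ j, g x i j * nu g i x * nu g j x = 1 := by
  have h1 := h.sq_pos hx
  have e : ∀ i, ∑ j, g x i j * nu g i x * nu g j x = nu g i x * nx i x / √(ww g x) := by
    intro i
    rw [mul_div_assoc, ← h.g_nu hx i, Finset.mul_sum]
    exact Finset.sum_congr rfl fun j _ => by ring
  simp only [e]
  rw [← Finset.sum_div, h.nu_nx hx, div_self h1.ne']

/-- the tangential inverse metric is positive semidefinite -/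
lemma Pu_nonneg {x : E n} (hx : R ≤ len x) (a : Fin n → ℝ) :
    0 ≤ ∑ i, ∑ j, Pu g i j x * a i * a j := by
  have hs := h.sq_pos hx
  -- `a - (a · ν) √w⁻¹ n`
  obtain ⟨c, hcs⟩ : ∃ c, ∑ i, a i * nu g i x = c * √(ww g x) :=
    ⟨(∑ i, a i * nu g i x) / √(ww g x), by field_simp⟩
  have h1 := h.quad_nonneg hx (fun i => a i - c * nx i x)
  refine h1.trans (le_of_eq ?_)
  have e1 : ∀ i, ∑ j, up g i j x * (a i - c * nx i x) * (a j - c * nx j x) =
      (∑ j, up g i j x * a i * a j) - c * nx i x * (∑ j, up g i j x * a j) -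
        c * a i * (∑ j, up g i j x * nx j x) + c ^ 2 * nx i x * (∑ j, up g i j x * nx j x) := by
    intro i
    simp only [Finset.mul_sum, ← Finset.sum_sub_distrib, ← Finset.sum_add_distrib]
    exact Finset.sum_congr rfl fun j _ => by ring
  simp only [e1, h.up_nx hx, Finset.sum_sub_distrib, Finset.sum_add_distrib]
  have e2 : ∑ i, c * nx i x * (∑ j, up g i j x * a j) = c * √(ww g x) * ∑ i, a i * nu g i x := by
    calc ∑ i, c * nx i x * (∑ j, up g i j x * a j) =
        ∑ i, ∑ j, c * (nx i x * up g i j x) * a j := by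
          refine Finset.sum_congr rfl fun i _ => ?_
          rw [Finset.mul_sum]
          exact Finset.sum_congr rfl fun j _ => by ring
      _ = ∑ j, ∑ i, c * (nx i x * up g i j x) * a j := Finset.sum_comm
      _ = ∑ j, c * √(ww g x) * (a j * nu g j x) := by
          refine Finset.sum_congr rfl fun j _ => ?_
          rw [← Finset.sum_mul, ← Finset.mul_sum, h.nx_up hx]
          ring
      _ = _ := by rw [Finset.mul_sum]
  have e3 : ∑ i, c * a i * (√(ww g x) * nu g i x) = c * √(ww g x) * ∑ i, a i * nu g i x := by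
    rw [Finset.mul_sum]
    exact Finset.sum_congr rfl fun j _ => by ring
  have e4 : ∑ i, c ^ 2 * nx i x * (√(ww g x) * nu g i x) = c ^ 2 * ww g x := by
    calc ∑ i, c ^ 2 * nx i x * (√(ww g x) * nu g i x) =
        c ^ 2 * √(ww g x) * ∑ i, nu g i x * nx i x := by
          rw [Finset.mul_sum]
          exact Finset.sum_congr rfl fun j _ => by ring
      _ = _ := by rw [h.nu_nx hx, mul_assoc, h.sq_mul hx]
  rw [e2, e3, e4, hcs]
  have e5 : ∑ i, ∑ j, Pu g i j x * a i * a j = (∑ i, ∑ j, up g i j x * a i * a j) -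
      (c * √(ww g x)) ^ 2 := by
    rw [← hcs, sq, Finset.sum_mul_sum, ← Finset.sum_sub_distrib]
    refine Finset.sum_congr rfl fun i _ => ?_
    rw [← Finset.sum_sub_distrib]
    refine Finset.sum_congr rfl fun j _ => ?_
    unfold Pu; ring
  rw [e5]
  have := h.sq_mul hx
  linear_combination (-(c ^ 2)) * this

end Met

end Vale.Agent.H106
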