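import Vale.Agent.P366.R2.H106.Core
import Vale.Agent.P366.T5.X8_92

/-! Time flat leaves which are uniformly expanding or have constant spacetime mean curvature. -/

open MeasureTheory Metric Filter Topology Set
open scoped ContDiff ENNReal Matrix MatrixOrder

noncomputable section
namespace Vale.Agent.H106
open Vale.Agent.P366.Stmt Vale.Agent.P366.T2 Vale.Agent.T4 Vale.Agent.H177
open Vale.Agent.P366 (sphI sphM av norm_smul_sph sphI_congr)

variable {n : ℕ}

namespace Met

variable {g : Field n} {R : ℝ} (h : Met g R)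
include h

/-- a function constant on a centred sphere has no tangential gradient -/
lemma dt_const {f : E n → ℝ} {x : E n} (hx : R ≤ len x) (hf : ContDiffAt ℝ ∞ f x)
    (hc : ∀ y, len y = len x → f y = f x) (a : Fin n → ℝ) :
    dt g x a (fun k => pd k f x) = 0 := by
  have hx0 := h.ne_zero hx
  unfold dt
  refine Finset.sum_eq_zero fun k _ => ?_
  have h1 := tang_zero92 hx0 (hf.differentiableAt (by simp)) hc
    (w := WithLp.toLp 2 fun l => Pu g k l x) (by
      have := h.Pu_nx hx k
      rw [← this]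
      exact Finset.sum_congr rfl fun l _ => mul_comm _ _)
  have e : ∑ l, Pu g k l x * a k * pd l f x = a k * ∑ l, Pu g k l x * pd l f x := by
    rw [Finset.mul_sum]
    exact Finset.sum_congr rfl fun l _ => by ring
  rw [e, h1, mul_zero]

/-! ### linearity of the integral -/

lemma int_at {f : E n → ℝ} {r : ℝ} (hr : R ≤ r) (hf : ∀ x, len x = r → ContinuousAt f x) :
    Integrable (fun θ : sphere (0 : E n) 1 => ad g (r • (θ : E n)) * f (r • (θ : E n)))
      (sphM n) :=
  integrable_at (h.hR.le.trans hr) (f := fun x => ad g x * f x) fun x hx =>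
    (h.cad (by rw [hx]; exact hr)).continuousAt.mul (hf x hx)

lemma leafI_congr {f f' : E n → ℝ} {r : ℝ} (hr : R ≤ r) (hf : ∀ x, len x = r → f x = f' x) :
    leafI g f r = leafI g f' r := by
  unfold leafI
  congr 1
  exact sphI_congr (h.hR.le.trans hr) fun x hx => by rw [hf x hx]

lemma leafI_lin {a b : E n → ℝ} {r : ℝ} (hr : R ≤ r) (ha : ∀ x, len x = r → ContinuousAt a x)
    (hb : ∀ x, len x = r → ContinuousAt b x) (s t : ℝ) :
    leafI g (fun x => s * a x + t * b x) r = s * leafI g a r + t * leafI g b r := by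
  have i1 := h.int_at hr ha
  have i2 := h.int_at hr hb
  unfold leafI sphI
  have e : ∀ θ : sphere (0 : E n) 1, ad g (r • (θ : E n)) *
      (s * a (r • (θ : E n)) + t * b (r • (θ : E n))) =
      s * (ad g (r • (θ : E n)) * a (r • (θ : E n))) +
        t * (ad g (r • (θ : E n)) * b (r • (θ : E n))) := fun θ => by ring
  simp only [e]
  rw [integral_add (i1.const_mul s) (i2.const_mul t), integral_const_mul, integral_const_mul]
  ring

lemma leafI_mono {a b : E n → ℝ} {r : ℝ} (hr : R ≤ r) (ha : ∀ x, len x = r → ContinuousAt a x)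
    (hb : ∀ x, len x = r → ContinuousAt b x) (hab : ∀ x, len x = r → a x ≤ b x) :
    leafI g a r ≤ leafI g b r := by
  have hr0 : 0 < r := h.hR.trans_le hr
  have i1 := h.int_at hr ha
  have i2 := h.int_at hr hb
  unfold leafI sphI
  refine mul_le_mul_of_nonneg_left (integral_mono i1 i2 fun θ => ?_) (by positivity)
  have hθ : len (r • (θ : E n)) = r := norm_smul_sph hr0.le θ
  exact mul_le_mul_of_nonneg_left (hab _ hθ) (h.ad_pos (by rw [hθ]; exact hr)).le

omit h in
lemma leafI_zero (r : ℝ) : leafI g (fun _ => 0) r = 0 := by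
  unfold leafI sphI
  simp

lemma leafI_nonneg {a : E n → ℝ} {r : ℝ} (hr : R ≤ r) (ha : ∀ x, len x = r → ContinuousAt a x)
    (h0 : ∀ x, len x = r → 0 ≤ a x) : 0 ≤ leafI g a r := by
  rw [← leafI_zero (g := g) r]
  exact h.leafI_mono hr (fun _ _ => continuousAt_const) ha h0

omit h in
lemma leafI_const (c r : ℝ) : leafI g (fun _ => c) r = c * arA g r := by
  unfold arA leafI sphI
  have e : ∀ θ : sphere (0 : E n) 1, ad g (r • (θ : E n)) * c =
      c * (ad g (r • (θ : E n)) * 1) := fun θ => by ring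
  simp only [e, integral_const_mul]
  ring

section

variable {K : Field n} (hK : ∀ i j, Smooth (fun x => K x i j)) (hKs : ∀ x i j, K x i j = K x j i)

lemma F_pos {x : E n} (hx : R ≤ len x) (hlt : |tauf g K x| < Hm g x) : 0 < Fx g x :=
  div_pos (H_pos hlt) (h.sq_pos hx)

lemma gR_nonneg {x : E n} (hx : R ≤ len x) (hlt : |tauf g K x| < Hm g x)
    (hD : covNorm g (mom g K) x ≤ mu g K x) : 0 ≤ gR g K x := by
  have hu := u_lt hlt
  have h1 := h.Jn_le (K := K) hx
  have h2 : uf g K x * Jn g K x ≤ mu g K x := by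
    have h3 : uf g K x * Jn g K x ≤ |uf g K x| * |Jn g K x| := by
      rw [← abs_mul]; exact le_abs_self _
    have h4 : |uf g K x| * |Jn g K x| ≤ 1 * |Jn g K x| :=
      mul_le_mul_of_nonneg_right hu.le (abs_nonneg _)
    linarith
  unfold gR
  refine mul_nonneg (h.F_pos hx hlt).le ?_
  have h3 := h.dt_nonneg hx (fun k => ehk g K k x)
  have h4 := mul_nonneg (u_ne hlt).2.2.le (h.dt_nonneg hx (fun k => alp g K k x))
  linarith

include hK in
/-- Leaves with nonnegative torsion term: the general condition. -/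
theorem good_of_ineq [Nontrivial (E n)] {r : ℝ} (hr : R < r)
    (hlt : ∀ x, len x = r → |tauf g K x| < Hm g x)
    (hD : ∀ x, len x = r → covNorm g (mom g K) x ≤ mu g K x)
    (hF : 0 ≤ leafI g (fun x => dt g x (fun k => alp g K k x) (fun k => pd k (kF g K) x)) r)
    (hI : leafI g (fun x => Fx g x * (RS g x - Qf g K x / ((n : ℝ) - 1)) +
      dt g x (fun k => pd k (Fx g) x) (fun k => pd k (fun y => Real.log (Qf g K y)) x)) r +
        leafI g (Fx g) r / arA g r * (leafI g (Qf g K) r / ((n : ℝ) - 1)) ≤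
      ((n : ℝ) - 1) * ((n : ℝ) - 2) / rhoA g r ^ 2 * leafI g (Fx g) r) :
    GoodR g K r := by
  have hx : ∀ x : E n, len x = r → R ≤ len x := fun x hx => by rw [hx]; exact hr.le
  have cR : ∀ x, len x = r → ContinuousAt (gR g K) x := fun x hxr =>
    (h.cgR hK (hx x hxr) (hlt x hxr)).continuousAt
  have hRn : 0 ≤ leafI g (gR g K) r := h.leafI_nonneg hr.le cR fun x hxr =>
    h.gR_nonneg (hx x hxr) (hlt x hxr) (hD x hxr)
  have cF : ∀ x, len x = r → ContinuousAt (Fx g) x := fun x hxr => (h.cFx (hx x hxr)).continuousAt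
  have cQ : ∀ x, len x = r → ContinuousAt (Qf g K) x := fun x hxr =>
    (h.cQf hK (hx x hxr)).continuousAt
  have cDT : ∀ x, len x = r → ContinuousAt
      (fun x => dt g x (fun k => alp g K k x) (fun k => pd k (kF g K) x)) x := fun x hxr =>
    (h.cdt (hx x hxr) (h.calp hK (hx x hxr) (hlt x hxr))
      (fun k => contDiffAt_pd (h.ckF hK (hx x hxr)) k)).continuousAt
  have cI : ∀ x, len x = r → ContinuousAt (fun x => Fx g x * (RS g x - Qf g K x / ((n : ℝ) - 1)) +
      dt g x (fun k => pd k (Fx g) x) (fun k => pd k (fun y => Real.log (Qf g K y)) x)) x :=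
    fun x hxr => (((h.cFx (hx x hxr)).mul ((h.cRS (hx x hxr)).sub
      ((h.cQf hK (hx x hxr)).div_const _))).add (h.cdt (hx x hxr)
        (fun k => contDiffAt_pd (h.cFx (hx x hxr)) k) (fun k => contDiffAt_pd
          ((h.cQf hK (hx x hxr)).log (Q_pos (hlt x hxr)).ne') k))).continuousAt
  unfold GoodR
  set cc := ((n : ℝ) - 1) * ((n : ℝ) - 2) / rhoA g r ^ 2 with hcc
  set Fb := leafI g (Fx g) r / arA g r with hFb
  have h3 : leafI g (fun x => gL g K x - cc * Fx g x -
      (Fx g x - Fb) * Qf g K x / ((n : ℝ) - 1)) r =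
      leafI g (fun x => Fx g x * (RS g x - Qf g K x / ((n : ℝ) - 1)) +
      dt g x (fun k => pd k (Fx g) x) (fun k => pd k (fun y => Real.log (Qf g K y)) x)) r +
        Fb * (leafI g (Qf g K) r / ((n : ℝ) - 1)) - cc * leafI g (Fx g) r -
      2 * leafI g (fun x => dt g x (fun k => alp g K k x) (fun k => pd k (kF g K) x)) r := by
    have e1 : leafI g (fun x => gL g K x - cc * Fx g x -
        (Fx g x - Fb) * Qf g K x / ((n : ℝ) - 1)) r =
        leafI g (fun x => 1 * (1 * (Fx g x * (RS g x - Qf g K x / ((n : ℝ) - 1)) +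
          dt g x (fun k => pd k (Fx g) x) (fun k => pd k (fun y => Real.log (Qf g K y)) x)) +
            (-cc) * Fx g x) +
          1 * ((-2) * dt g x (fun k => alp g K k x) (fun k => pd k (kF g K) x) +
            (Fb / ((n : ℝ) - 1)) * Qf g K x)) r := by
      refine h.leafI_congr hr.le fun x hxr => ?_
      unfold gL
      ring
    rw [e1, h.leafI_lin (a := fun x => 1 * (Fx g x * (RS g x - Qf g K x / ((n : ℝ) - 1)) +
          dt g x (fun k => pd k (Fx g) x) (fun k => pd k (fun y => Real.log (Qf g K y)) x)) +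
            (-cc) * Fx g x)
      (b := fun x => (-2) * dt g x (fun k => alp g K k x) (fun k => pd k (kF g K) x) +
            (Fb / ((n : ℝ) - 1)) * Qf g K x) hr.le
      (fun x hxr => (continuousAt_const.mul (cI x hxr)).add (continuousAt_const.mul (cF x hxr)))
      (fun x hxr => (continuousAt_const.mul (cDT x hxr)).add
        (continuousAt_const.mul (cQ x hxr))), h.leafI_lin hr.le cI cF,
      h.leafI_lin hr.le cDT cQ]
    ring
  rw [h3]
  linarith

include hK in
/-- Leaves with nonnegative torsion term which are uniformly expanding. -/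
theorem good_of_rate [Nontrivial (E n)] {r : ℝ} (hr : R < r)
    (hlt : ∀ x, len x = r → |tauf g K x| < Hm g x)
    (hD : ∀ x, len x = r → covNorm g (mom g K) x ≤ mu g K x)
    (hF : 0 ≤ leafI g (fun x => dt g x (fun k => alp g K k x) (fun k => pd k (kF g K) x)) r)
    (hcurv : leafI g (RS g) r ≤ ((n : ℝ) - 1) * ((n : ℝ) - 2) / rhoA g r ^ 2 * arA g r)
    {c : ℝ} (hc0 : 0 < c) (hc : ∀ x, len x = r → Fx g x = c) : GoodR g K r := by
  have hx : ∀ x : E n, len x = r → R ≤ len x := fun x hx => by rw [hx]; exact hr.le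
  have hA := h.arA_pos hr.le
  refine h.good_of_ineq hK hr hlt hD hF ?_
  have cR : ∀ x, len x = r → ContinuousAt (RS g) x := fun x hxr => (h.cRS (hx x hxr)).continuousAt
  have cQ : ∀ x, len x = r → ContinuousAt (Qf g K) x := fun x hxr =>
    (h.cQf hK (hx x hxr)).continuousAt
  have e1 : leafI g (fun x => Fx g x * (RS g x - Qf g K x / ((n : ℝ) - 1)) +
      dt g x (fun k => pd k (Fx g) x) (fun k => pd k (fun y => Real.log (Qf g K y)) x)) r =
      c * leafI g (RS g) r - c / ((n : ℝ) - 1) * leafI g (Qf g K) r := by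
    have e2 := h.leafI_lin hr.le cR cQ c (-(c / ((n : ℝ) - 1)))
    rw [h.leafI_congr hr.le (f' := fun x => c * RS g x + (-(c / ((n : ℝ) - 1))) * Qf g K x)
      fun x hxr => ?_, e2]
    · ring
    · have h1 : dt g x (fun k => pd k (Fx g) x)
          (fun k => pd k (fun y => Real.log (Qf g K y)) x) = 0 := by
        rw [h.dt_symm]
        exact h.dt_const (hx x hxr) (h.cFx (hx x hxr)) (fun y hy => by
          rw [hc y (by rw [hy, hxr]), hc x hxr]) _
      rw [h1, hc x hxr]
      ring
  rw [e1, h.leafI_congr hr.le hc, leafI_const]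
  have h1 := mul_le_mul_of_nonneg_left hcurv hc0.le
  have e3 : c * arA g r / arA g r = c := by field_simp
  rw [e3]
  refine le_trans (le_of_eq ?_) (h1.trans (le_of_eq ?_)) <;> ring

include hK in
/-- Leaves with nonnegative torsion term and constant mass aspect. -/
theorem good_of_aspect [Nontrivial (E n)] {r : ℝ} (hr : R < r)
    (hlt : ∀ x, len x = r → |tauf g K x| < Hm g x)
    (hD : ∀ x, len x = r → covNorm g (mom g K) x ≤ mu g K x)
    (hF : 0 ≤ leafI g (fun x => dt g x (fun k => alp g K k x) (fun k => pd k (kF g K) x)) r)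
    (hcurv : leafI g (RS g) r ≤ ((n : ℝ) - 1) * ((n : ℝ) - 2) / rhoA g r ^ 2 * arA g r)
    {a : ℝ} (ha : ∀ f : E n → ℝ, (∀ x, len x = r → ContDiffAt ℝ ∞ f x) →
      leafI g (fun x => f x * (RS g x - Qf g K x / ((n : ℝ) - 1) - a) +
        dt g x (fun k => pd k f x) (fun k => pd k (fun y => Real.log (Qf g K y)) x)) r = 0) :
    GoodR g K r := by
  have hx : ∀ x : E n, len x = r → R ≤ len x := fun x hx => by rw [hx]; exact hr.le
  have hA := h.arA_pos hr.le
  refine h.good_of_ineq hK hr hlt hD hF ?_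
  have cF : ∀ x, len x = r → ContinuousAt (Fx g) x := fun x hxr => (h.cFx (hx x hxr)).continuousAt
  have cR : ∀ x, len x = r → ContinuousAt (RS g) x := fun x hxr => (h.cRS (hx x hxr)).continuousAt
  have cQ : ∀ x, len x = r → ContinuousAt (Qf g K) x := fun x hxr =>
    (h.cQf hK (hx x hxr)).continuousAt
  have c1 : ∀ x : E n, len x = r → ContinuousAt (fun _ : E n => (1 : ℝ)) x := fun _ _ =>
    continuousAt_const
  have cI : ∀ x, len x = r → ContinuousAt (fun x => Fx g x * (RS g x - Qf g K x / ((n : ℝ) - 1)) +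
      dt g x (fun k => pd k (Fx g) x) (fun k => pd k (fun y => Real.log (Qf g K y)) x)) x :=
    fun x hxr => (((h.cFx (hx x hxr)).mul ((h.cRS (hx x hxr)).sub
      ((h.cQf hK (hx x hxr)).div_const _))).add (h.cdt (hx x hxr)
        (fun k => contDiffAt_pd (h.cFx (hx x hxr)) k) (fun k => contDiffAt_pd
          ((h.cQf hK (hx x hxr)).log (Q_pos (hlt x hxr)).ne') k))).continuousAt
  have a1 := ha (Fx g) fun x hxr => h.cFx (hx x hxr)
  have a2 := ha (fun _ => 1) fun x _ => contDiffAt_const
  have e1 : leafI g (fun x => Fx g x * (RS g x - Qf g K x / ((n : ℝ) - 1)) +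
      dt g x (fun k => pd k (Fx g) x) (fun k => pd k (fun y => Real.log (Qf g K y)) x)) r =
      a * leafI g (Fx g) r := by
    have e2 := h.leafI_lin hr.le cI cF 1 (-a)
    rw [h.leafI_congr hr.le (f' := fun x => Fx g x * (RS g x - Qf g K x / ((n : ℝ) - 1) - a) +
      dt g x (fun k => pd k (Fx g) x) (fun k => pd k (fun y => Real.log (Qf g K y)) x))
      fun x _ => by ring, a1] at e2
    linarith
  have e3 : a * arA g r = leafI g (RS g) r - leafI g (Qf g K) r / ((n : ℝ) - 1) := by
    have e2 := h.leafI_lin (b := fun x => (-(1 / ((n : ℝ) - 1))) * Qf g K x + (-a) * 1) hr.le cR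
      (fun x hxr => (continuousAt_const.mul (cQ x hxr)).add (continuousAt_const.mul (c1 x hxr)))
        1 1
    rw [h.leafI_lin hr.le cQ c1, h.leafI_congr hr.le (f' := fun x => (fun _ : E n => (1 : ℝ)) x *
      (RS g x - Qf g K x / ((n : ℝ) - 1) - a) + dt g x (fun k => pd k (fun _ : E n => (1 : ℝ)) x)
        (fun k => pd k (fun y => Real.log (Qf g K y)) x)) fun x _ => ?_, a2] at e2
    · change 0 = 1 * leafI g (RS g) r + 1 * (-(1 / ((n : ℝ) - 1)) * leafI g (Qf g K) r +
        -a * arA g r) at e2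
      linear_combination e2
    · have e4 : (fun k => pd k (fun _ : E n => (1 : ℝ)) x) = fun _ => 0 := by
        funext k
        exact (HP.const k 1 x).pd
      rw [e4]
      unfold dt
      simp
      ring
  have hFn : 0 ≤ leafI g (Fx g) r := h.leafI_nonneg hr.le cF fun x hxr =>
    (h.F_pos (hx x hxr) (hlt x hxr)).le
  rw [e1]
  set Fb := leafI g (Fx g) r / arA g r with hFb
  have hFA : leafI g (Fx g) r = Fb * arA g r := by rw [hFb]; field_simp
  have hFb0 : 0 ≤ Fb := div_nonneg hFn hA.le
  rw [hFA]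
  have h1 := mul_le_mul_of_nonneg_left hcurv hFb0
  have e5 : a * (Fb * arA g r) = Fb * (a * arA g r) := by ring
  rw [e5, e3]
  refine le_trans (le_of_eq ?_) (h1.trans (le_of_eq ?_)) <;> ring

end

end Met

end Vale.Agent.H106
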