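import Vale.Agent.P366.R2.H106.Defs
import Vale.Agent.P366.R2.H106.Area

/-! The definitions of the statement in terms of the working definitions. -/

open MeasureTheory Metric Filter Topology Set
open scoped ContDiff ENNReal Matrix MatrixOrder

noncomputable section
namespace Vale.Agent.H106
open Vale.Agent.P366.Stmt Vale.Agent.P366.T2 Vale.Agent.T4 Vale.Agent.H177
open Vale.Agent.P366 (sphI sphM av norm_smul_sph sphI_congr)

variable {n : ℕ}

lemma slope_eq (g : Field n) {x : E n} (hx : x ≠ 0) : slope g x = √(ww g x) := by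
  unfold slope covNorm
  rw [Met.ww_eq]
  congr 1
  exact Finset.sum_congr rfl fun i _ => Finset.sum_congr rfl fun j _ => by
    show up g i j x * pd i len x * pd j len x = _
    rw [pd_len hx, pd_len hx]

lemma nrm_eq (g : Field n) {x : E n} (hx : x ≠ 0) (i : Fin n) : nrm g len i x = nu g i x := by
  have h1 := slope_eq g hx
  unfold slope at h1
  unfold nrm nu Nu
  rw [h1]
  congr 1
  exact Finset.sum_congr rfl fun j _ => by rw [pd_len hx]

lemma ne_nhds {x : E n} (hx : x ≠ 0) : ∀ᶠ y in 𝓝 x, y ≠ 0 := isOpen_ne.mem_nhds hx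

lemma hess_eq (g : Field n) {x : E n} (hx : x ≠ 0) (i j : Fin n) :
    hess g len x i j = hs g i j x := by
  unfold hess hs
  have h1 : pd i (pd j len) x = pd i (nx j) x :=
    pd_congr' ((ne_nhds hx).mono fun y hy => pd_len hy j) i
  rw [h1]
  congr 1
  exact Finset.sum_congr rfl fun k _ => by rw [pd_len hx]

lemma trS_eq (g K : Field n) {x : E n} (hx : x ≠ 0) : trS g K len x = tauf g K x := by
  unfold trS tauf tr
  rw [← Finset.sum_sub_distrib]
  refine Finset.sum_congr rfl fun i _ => ?_
  rw [← Finset.sum_sub_distrib]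
  refine Finset.sum_congr rfl fun j _ => ?_
  rw [nrm_eq g hx, nrm_eq g hx]
  unfold Pu
  ring

lemma row_eq (g K : Field n) {x : E n} (hx : x ≠ 0) (k : Fin n) :
    sphereRow g K k x = kap g K k x := by
  unfold sphereRow kap
  exact Finset.sum_congr rfl fun i _ => by rw [nrm_eq g hx]

lemma dot_eq (g : Field n) {x : E n} (hx : x ≠ 0) (a b : Fin n → ℝ) :
    sphereDot g a b x = dt g x a b := by
  unfold sphereDot dt Pu
  exact Finset.sum_congr rfl fun i _ => Finset.sum_congr rfl fun j _ => by
    rw [nrm_eq g hx, nrm_eq g hx]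

lemma contr_eq (g : Field n) {x : E n} (hx : x ≠ 0) (A B : Fin n → Fin n → ℝ) :
    leafContr g A B x = ct g x A B := by
  unfold leafContr ct Pu
  exact Finset.sum_congr rfl fun i _ => Finset.sum_congr rfl fun j _ =>
    Finset.sum_congr rfl fun k _ => Finset.sum_congr rfl fun l _ => by
      rw [nrm_eq g hx, nrm_eq g hx, nrm_eq g hx, nrm_eq g hx]

lemma shape_eq (g : Field n) {x : E n} (hx : x ≠ 0) (i j : Fin n) :
    leafShape g x i j = AA g x i j := by
  unfold leafShape AA
  rw [hess_eq g hx, slope_eq g hx]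

lemma dens_eq (g : Field n) {x : E n} (hx : x ≠ 0) : leafDens g x = ad g x := by
  unfold leafDens ad sg
  rw [slope_eq g hx]

lemma trace_eq (g K : Field n) {x : E n} (hx : x ≠ 0) : leafTrace g K x = kF g K x := by
  unfold leafTrace kF
  rw [trS_eq g K hx, slope_eq g hx]

lemma Jn_eq' (g K : Field n) {x : E n} (hx : x ≠ 0) :
    ∑ j, mom g K j x * nrm g len j x = Jn g K x := by
  unfold Jn
  exact Finset.sum_congr rfl fun j _ => by rw [nrm_eq g hx]

namespace Met

variable {g : Field n} {R : ℝ} (h : Met g R)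
include h

lemma mean_eq {x : E n} (hx : R ≤ len x) : sphereMean g x = Hm g x := by
  have hx0 := h.ne_zero hx
  unfold sphereMean
  have h1 := slope_eq g hx0
  unfold slope at h1
  rw [h1, trS_eq g (hess g len) hx0, h.Hm_eq hx]
  unfold tauf AA
  rw [Finset.sum_div]
  refine Finset.sum_congr rfl fun i _ => ?_
  rw [Finset.sum_div]
  refine Finset.sum_congr rfl fun j _ => ?_
  rw [hess_eq g hx0]
  ring

lemma ratio_eq (K : Field n) {x : E n} (hx : R ≤ len x) : sphereRatio g K x = uf g K x := by
  unfold sphereRatio uf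
  rw [h.mean_eq hx, trS_eq g K (h.ne_zero hx)]

lemma rapidity_eq (K : Field n) {x : E n} (hx : R ≤ len x) :
    sphereRapidity g K x = chi g K x := by
  unfold sphereRapidity chi
  rw [h.ratio_eq K hx]

lemma twist_eq (K : Field n) {x : E n} (hx : R < len x) (k : Fin n) :
    sphereTwist g K k x = alp g K k x := by
  unfold sphereTwist alp
  rw [row_eq g K (h.ne_zero hx.le),
    pd_congr' ((near hx).mono fun y hy => h.rapidity_eq K hy) k]

lemma rate_eq {x : E n} (hx : R ≤ len x) : leafRate g x = Fx g x := by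
  unfold leafRate Fx
  rw [h.mean_eq hx, slope_eq g (h.ne_zero hx)]

lemma sq_eq (K : Field n) {x : E n} (hx : R ≤ len x) : leafSq g K x = Qf g K x := by
  unfold leafSq Qf
  rw [h.mean_eq hx, trS_eq g K (h.ne_zero hx)]

lemma scal_eq {x : E n} (hx : R ≤ len x) : leafScal g x = RS g x := by
  have hx0 := h.ne_zero hx
  unfold leafScal RS
  rw [h.mean_eq hx, contr_eq g hx0]
  have e1 : ct g x (leafShape g x) (leafShape g x) = ct g x (AA g x) (AA g x) := by
    have : leafShape g x = AA g x := by
      funext i j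
      exact shape_eq g hx0 i j
    rw [this]
  rw [e1]
  have e2 : ∑ i, ∑ j, ricci g x i j * nrm g len i x * nrm g len j x =
      ∑ i, ∑ j, ric g i j x * nu g i x * nu g j x :=
    Finset.sum_congr rfl fun i _ => Finset.sum_congr rfl fun j _ => by
      rw [nrm_eq g hx0, nrm_eq g hx0]
      rfl
  rw [e2]

lemma int_eq {r : ℝ} (hr : R ≤ r) {f f' : E n → ℝ} (hf : ∀ x, len x = r → f x = f' x) :
    leafInt g r f = leafI g f' r := by
  have hr0 : 0 < r := h.hR.trans_le hr
  unfold leafInt leafI sphInt
  rw [sph_eq_sphI]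
  congr 1
  refine sphI_congr hr0.le fun x hx => ?_
  have hx' : len x = r := hx
  rw [dens_eq g (h.ne_zero (by rw [hx']; exact hr)), hf x hx']

lemma area_eq {r : ℝ} (hr : R ≤ r) : leafArea g r = arA g r := h.int_eq hr fun _ _ => rfl

lemma radius_eq {r : ℝ} (hr : R ≤ r) : leafRadius g r = rhoA g r := by
  unfold leafRadius rhoA
  rw [h.area_eq hr]

lemma slack_eq (K : Field n) {x : E n} (hx : R < len x) : leafSlack g K x = gR g K x := by
  have hx0 := h.ne_zero hx.le
  unfold leafSlack gR
  rw [h.rate_eq hx.le, h.ratio_eq K hx.le, Jn_eq' g K hx0, dot_eq g hx0, dot_eq g hx0]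
  have e1 : (fun k => pd k (fun y => Real.log (sphereMean g y)) x -
      uf g K x * sphereRow g K k x) = fun k => ehk g K k x := by
    funext k
    unfold ehk
    rw [row_eq g K hx0,
      pd_congr' ((near hx).mono fun y hy => by rw [h.mean_eq hy]) k]
  have e2 : (fun k => sphereTwist g K k x) = fun k => alp g K k x := by
    funext k
    exact h.twist_eq K hx k
  rw [e1, e2]

lemma defect_eq (K : Field n) (c F₀ : ℝ) {x : E n} (hx : R < len x) :
    leafDefect g K c F₀ x =
      gL g K x - c * Fx g x - (Fx g x - F₀) * Qf g K x / ((n : ℝ) - 1) := by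
  have hx0 := h.ne_zero hx.le
  unfold leafDefect gL
  rw [h.rate_eq hx.le, h.scal_eq hx.le, h.sq_eq K hx.le, dot_eq g hx0, dot_eq g hx0]
  have e1 : (fun k => pd k (leafRate g) x) = fun k => pd k (Fx g) x := by
    funext k
    exact pd_congr' ((near hx).mono fun y hy => h.rate_eq hy) k
  have e2 : (fun k => pd k (fun y => Real.log (leafSq g K y)) x) =
      fun k => pd k (fun y => Real.log (Qf g K y)) x := by
    funext k
    exact pd_congr' ((near hx).mono fun y hy => by rw [h.sq_eq K hy]) k
  have e3 : (fun k => sphereTwist g K k x) = fun k => alp g K k x := by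
    funext k
    exact h.twist_eq K hx k
  have e4 : (fun k => pd k (leafTrace g K) x) = fun k => pd k (kF g K) x := by
    funext k
    exact pd_congr' ((near hx).mono fun y hy => trace_eq g K (h.ne_zero hy)) k
  rw [e1, e2, e3, e4]
  ring

/-- the integral inequality -/
lemma ineq_iff (K : Field n) {r : ℝ} (hr : R < r) : LeafIneq g K r ↔ GoodR g K r := by
  unfold LeafIneq GoodR
  have hl : ∀ x : E n, len x = r → R < len x := fun x hx => by rw [hx]; exact hr
  rw [h.int_eq hr.le (f' := gR g K) fun x hx => h.slack_eq K (hl x hx), h.radius_eq hr.le,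
    h.area_eq hr.le, h.int_eq hr.le (f' := Fx g) fun x hx => h.rate_eq (hl x hx).le,
    h.int_eq hr.le fun x hx => h.defect_eq K _ _ (hl x hx)]

end Met

end Vale.Agent.H106
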