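import Vale.Agent.P366.R2.H106.Conv
import Vale.Agent.P366.T2.C92d
import Vale.Agent.P366.T2.Assemble

/-! The inequality from the monotonicity. -/

open MeasureTheory Metric Filter Topology Set
open scoped ContDiff ENNReal Matrix MatrixOrder

noncomputable section
namespace Vale.Agent.H106
open Vale.Agent.P366.Stmt Vale.Agent.P366.T2 Vale.Agent.T4 Vale.Agent.H177
open Vale.Agent.P366 (sphI sphM av norm_smul_sph sphI_congr)
open Vale.Agent.C92 (outside_nonneg theta_compare)
open Vale.Agent.P366.T1.A919 (O O_iff O_of_bigO)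

variable {n : ℕ}

namespace Met

variable {g : Field n} {R : ℝ} (h : Met g R)
include h

lemma gquad {x : E n} (hx : R ≤ len x) (v : Fin n → ℝ) :
    0 ≤ ∑ i, ∑ j, g x i j * v i * v j := by
  have h1 := (h.pos x hx).posSemidef.dotProduct_mulVec_nonneg v
  simp only [dotProduct, Matrix.mulVec, Pi.star_apply, star_trivial, Finset.mul_sum] at h1
  refine h1.trans (le_of_eq ?_)
  exact Finset.sum_congr rfl fun k _ => Finset.sum_congr rfl fun l _ => by
    show v k * (g x k l * v l) = _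
    ring

lemma g_Nu {x : E n} (hx : R ≤ len x) (i : Fin n) : ∑ j, g x i j * Nu g j x = nx i x := by
  unfold Nu
  have e : ∑ j, g x i j * ∑ k, up g j k x * nx k x =
      ∑ k, (∑ j, g x i j * up g j k x) * nx k x := by
    simp only [Finset.mul_sum, Finset.sum_mul]
    rw [Finset.sum_comm]
    exact Finset.sum_congr rfl fun k _ => Finset.sum_congr rfl fun j _ => by ring
  rw [e]
  simp only [h.g_up hx]
  simp

/-- Cauchy–Schwarz for the radial component -/
lemma radial_le {x : E n} (hx : R ≤ len x) {v : Fin n → ℝ}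
    (hv : ∑ i, ∑ j, g x i j * v i * v j ≤ 1) : -(∑ i, v i * nx i x) ≤ √(ww g x) := by
  have hs := h.sq_pos hx
  have hsq := h.sq_mul hx
  set s := √(ww g x) with hsd
  have h1 := h.gquad hx fun i => v i + 1 / s * Nu g i x
  have e : ∑ i, ∑ j, g x i j * (v i + 1 / s * Nu g i x) * (v j + 1 / s * Nu g j x) =
      ∑ i, ∑ j, g x i j * v i * v j + 2 / s * (∑ i, v i * nx i x) + (1 / s) ^ 2 * ww g x := by
    have e1 : ∀ i, ∑ j, g x i j * (v i + 1 / s * Nu g i x) * (v j + 1 / s * Nu g j x) =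
        (∑ j, g x i j * v i * v j) + 1 / s * (Nu g i x * ∑ j, g x i j * v j) +
          1 / s * (v i * ∑ j, g x i j * Nu g j x) +
            (1 / s) ^ 2 * (Nu g i x * ∑ j, g x i j * Nu g j x) := by
      intro i
      simp only [Finset.mul_sum, ← Finset.sum_add_distrib]
      exact Finset.sum_congr rfl fun j _ => by ring
    simp only [e1, h.g_Nu hx, Finset.sum_add_distrib, ← Finset.mul_sum]
    have e2 : ∑ i, Nu g i x * ∑ j, g x i j * v j = ∑ i, v i * nx i x := by
      calc ∑ i, Nu g i x * ∑ j, g x i j * v j = ∑ i, ∑ j, v j * (g x j i * Nu g i x) := by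
            refine Finset.sum_congr rfl fun i _ => ?_
            rw [Finset.mul_sum]
            exact Finset.sum_congr rfl fun j _ => by rw [h.symm x i j]; ring
        _ = ∑ j, ∑ i, v j * (g x j i * Nu g i x) := Finset.sum_comm
        _ = _ := by
            refine Finset.sum_congr rfl fun j _ => ?_
            rw [← Finset.mul_sum, h.g_Nu hx]
    rw [e2]
    unfold ww
    ring
  rw [e] at h1
  have h2 : (1 / s) ^ 2 * ww g x = 1 := by
    rw [← hsq]
    field_simp
  rw [h2] at h1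
  have h3 : 0 ≤ 2 + 2 / s * (∑ i, v i * nx i x) := by linarith
  have h4 : 0 ≤ (2 + 2 / s * (∑ i, v i * nx i x)) * (s / 2) := mul_nonneg h3 (by positivity)
  have h5 : (2 + 2 / s * (∑ i, v i * nx i x)) * (s / 2) = s + ∑ i, v i * nx i x := by
    field_simp
  linarith

end Met

/-- the metric of exterior data outside the boundary -/
lemma met_of (hn : 2 ≤ n) {X : Exterior n} {R : ℝ}
    (hR : IsGreatest {r | ∃ x, X.F x = 0 ∧ len x = r} R) : Met X.g R := by
  have hout := outside_nonneg hn X hR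
  exact ⟨(Vale.Agent.P366.Bridge.toRaw X).R1_pos hn (Vale.Agent.P366.Bridge.raw_R1 X hR),
    fun i j => (X.smooth i j).1, fun x i j => (X.symm x i j).1, fun x hx => X.pos x (hout x hx)⟩

/-- the touching argument -/
lemma touch (hn : 2 ≤ n) {X : Exterior n} {R : ℝ} (hT : X.Trapped)
    (hR : IsGreatest {r | ∃ x, X.F x = 0 ∧ len x = r} R) :
    ∃ x, len x = R ∧ 0 ≤ |tauf X.g X.K x| - Hm X.g x := by
  have h := met_of hn hR
  have hout := outside_nonneg hn X hR
  obtain ⟨x0, hF0, hx0⟩ := hR.1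
  have h1 := theta_compare (g := X.g) (K := X.K) X.dom.1 h.hR hx0 (X.pos x0 hF0.ge)
    (X.dom.2.1 x0 hF0) (fun x hx => by rw [hF0]; exact hout x hx)
  have h2 := h1.trans (hT x0 hF0)
  have h3 : thetaPlus X.g X.K len x0 = sphereMean X.g x0 + trS X.g X.K len x0 := rfl
  rw [h3, h.mean_eq hx0.ge, trS_eq X.g X.K (h.ne_zero hx0.ge)] at h2
  refine ⟨x0, hx0, ?_⟩
  have := neg_le_abs (tauf X.g X.K x0)
  linarith

/-- the area of the centred spheres bounds `A_min` -/
lemma amin_le (hn : 2 ≤ n) {X : Exterior n} {R r : ℝ}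
    (hR : IsGreatest {r | ∃ x, X.F x = 0 ∧ len x = r} R) (hr : R ≤ r) :
    X.Amin ≤ ENNReal.ofReal (arA X.g r) := by
  have h := met_of hn hR
  have h1 := Vale.Agent.P366.H106Area.Amin_le_general hn X hR hr (a := fun x => ad X.g x * 1)
    (fun x hx => ((h.cad (x := x) (by
      show R ≤ ‖x‖
      rw [hx]; exact hr)).mul contDiffAt_const).continuousAt)
    (fun x hx v hv => ?_)
  · exact h1
  · have hx' : R ≤ len x := by
      show R ≤ ‖x‖
      rw [hx]; exact hr
    have h2 := h.radial_le hx' (v := v) hv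
    have h3 := mul_le_mul_of_nonneg_left h2 (h.sg_pos hx').le
    rw [mul_one]
    refine le_trans (le_of_eq ?_) h3
    unfold sg nx len
    ring

/-- the class of the leaves -/
def ClassR (g K : Field n) (R : ℝ) : Prop := ∀ r, R ≤ r →
  (∀ x, len x = r → Hm g x ≤ |tauf g K x|) ∨
    ((∀ x, len x = r → |tauf g K x| < Hm g x) ∧ (R < r → DerR g K r))

/-- **The Penrose inequality from the monotonicity.** -/
theorem penroseR (hn : 3 ≤ n) {X : Exterior n} (hAF : X.IsAF) (hT : X.Trapped) {m : ℝ}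
    (hm : X.IsEnergy m) {R : ℝ} (hR : IsGreatest {r | ∃ x, X.F x = 0 ∧ len x = r} R)
    (hc : ClassR X.g X.K R) :
    X.Amin ≠ ⊤ ∧ 0 < m ∧
      (X.Amin.toReal / omega n) ^ (((n : ℝ) - 2) / (n - 1)) / 2 ≤ m := by
  have : Nonempty (Fin n) := ⟨⟨0, by omega⟩⟩
  have : Nontrivial (E n) := inferInstance
  have hn3 : (3 : ℝ) ≤ n := by exact_mod_cast hn
  have hω : 0 < omega n := Met.omega_pos
  have h := met_of (by omega) hR
  have hK := fun i j => (X.smooth i j).2
  have hKs := fun x i j => (X.symm x i j).2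
  obtain ⟨q, hq, hAFq⟩ := hAF
  have hq0 : 0 < q := by linarith
  have i0 : Fin n := ⟨0, by omega⟩
  have D : Dec X.g q := ⟨fun i j => O_of_bigO (hAFq i j i0 i0).1,
    fun i j k => O_of_bigO (hAFq i j k i0).2.1⟩
  have hKO : ∀ i j, O (q + 1) (fun x => X.K x i j) := fun i j =>
    O_of_bigO (hAFq i j i0 i0).2.2.2.1
  have hinf := h.far_lt (by omega) hq0 D hKO
  have hlim := MM_lim hn h hq0 hq D hK hKO hm
  obtain ⟨r0, hr0, hz, hgt⟩ := exists_last (by omega) h.hR
    (f := fun x => |tauf X.g X.K x| - Hm X.g x) (P := fun r => R < r → DerR X.g X.K r)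
    (fun x hx => ((h.ctauf hK hx).continuousAt.abs).sub (h.cHm hx).continuousAt)
    (fun r hr => by
      rcases hc r hr with h1 | h1
      · exact Or.inl fun x hx => sub_nonneg.2 (h1 x hx)
      · exact Or.inr ⟨fun x hx => sub_neg.2 (h1.1 x hx), h1.2⟩)
    (touch (by omega) hT hR)
    (hinf.mono fun r hr x hx => sub_neg.2 (hr x hx))
  have hbd : ∀ r, r0 ≤ r → ((n : ℝ) - 1) ^ 2 * omega n * rhoA X.g r0 ^ ((n : ℝ) - 2) ≤
      MM X.g X.K r := fun r hr => h.mono_le hK hn hr0 (fun x hx => sub_eq_zero.1 (hz x hx))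
    (fun s hs => (hgt s hs).2 (hr0.trans_lt hs)) hr
  have h1 : ((n : ℝ) - 1) ^ 2 * omega n * rhoA X.g r0 ^ ((n : ℝ) - 2) ≤
      2 * ((n : ℝ) - 1) ^ 2 * omega n * m := by
    refine ge_of_tendsto hlim ?_
    filter_upwards [eventually_ge_atTop r0] with r hr
    exact hbd r hr
  have hle : rhoA X.g r0 ^ ((n : ℝ) - 2) ≤ 2 * m := by
    have h2 : 0 < ((n : ℝ) - 1) ^ 2 * omega n := by
      have : 0 < (n : ℝ) - 1 := by linarith
      positivity
    refine le_of_mul_le_mul_left ?_ h2
    linarith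
  have hρ := h.rhoA_pos hr0
  have hAm : X.Amin ≤ ENNReal.ofReal (omega n * rhoA X.g r0 ^ ((n : ℝ) - 1)) := by
    rw [h.rho_pow (by omega) hr0]
    exact amin_le (by omega) hR hr0
  obtain ⟨h1, h2, h3⟩ := Vale.Agent.P366.T2.conclude hn (P := fun _ : Fin n => 0) rfl hρ hAm hle
  simp only [ne_eq, OfNat.ofNat_ne_zero, not_false_eq_true, zero_pow, Finset.sum_const_zero,
    Real.sqrt_zero, sub_zero] at h2 h3
  rw [Real.sqrt_sq h2.le] at h3
  exact ⟨h1, h2, h3⟩

end Vale.Agent.H106
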