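import Vale.Agent.P366.R2.H106.Base

/-! Covariant derivatives of the unit normal of the centred spheres. -/

open MeasureTheory Metric Filter Topology Set
open scoped ContDiff ENNReal Matrix MatrixOrder

noncomputable section
namespace Vale.Agent.H106
open Vale.Agent.P366.Stmt Vale.Agent.P366.T2 Vale.Agent.T4

variable {n : ℕ}

/-- covariant derivative of a vector field -/
def cv (g : Field n) (V : Fin n → E n → ℝ) (i j : Fin n) (x : E n) : ℝ :=
  pd i (V j) x + ∑ k, chr g j i k x * V k x

/-- divergence of a vector field -/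
def dv (g : Field n) (V : Fin n → E n → ℝ) (x : E n) : ℝ := ∑ j, cv g V j j x

/-- Hessian of `r` -/
def hs (g : Field n) (i j : Fin n) (x : E n) : ℝ :=
  pd i (nx j) x - ∑ k, chr g k i j x * nx k x

/-- mean curvature of the centred spheres -/
def Hm (g : Field n) (x : E n) : ℝ := dv g (nu g) x

/-- density of the Riemannian volume -/
def sg (g : Field n) (x : E n) : ℝ := √(mat g x).det

lemma dv_eq (g : Field n) (V : Fin n → E n → ℝ) (x : E n) :
    dv g V x = ∑ i, (pd i (V i) x + (∑ k, chr g k k i x) * V i x) := by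
  unfold dv cv
  rw [Finset.sum_add_distrib, Finset.sum_add_distrib]
  congr 1
  rw [Finset.sum_comm]
  exact Finset.sum_congr rfl fun i _ => by rw [Finset.sum_mul]

namespace Met

variable {g : Field n} {R : ℝ} (h : Met g R)
include h

lemma smooth_reg : SmoothMetric (mat g) {x : E n | (mat g x).det ≠ 0} :=
  smoothMetric_mat (isOpen_ne_fun
    (continuous_iff_continuousAt.2 fun x => (h.cdet x).continuousAt) continuous_const) h.gs
    (fun x _ i j => h.symm x i j) (fun _ hx => hx)

lemma cchr {x : E n} (hx : R ≤ len x) (k i j : Fin n) : ContDiffAt ℝ ∞ (chr g k i j) x := by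
  rw [Vale.Agent.P366.Bridge.chr_eq h.gs]
  exact h.smooth_reg.chrAt (h.det_ne hx) k i j

lemma chr_symm' {x : E n} (hx : (mat g x).det ≠ 0) (k i j : Fin n) :
    chr g k i j x = chr g k j i x := by
  rw [Vale.Agent.P366.Bridge.chr_eq h.gs, Vale.Agent.P366.Bridge.chr_eq h.gs]
  exact h.smooth_reg.chr_symm hx k i j

lemma chr_symm {x : E n} (hx : R ≤ len x) (k i j : Fin n) : chr g k i j x = chr g k j i x :=
  h.chr_symm' (h.det_ne hx) k i j

lemma pd_chr_symm {x : E n} (hx : R ≤ len x) (m k i j : Fin n) :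
    pd m (chr g k i j) x = pd m (chr g k j i) x := by
  refine pd_congr' ?_ m
  filter_upwards [h.reg_nhds hx] with y hy
  exact h.chr_symm' hy k i j

omit h in
lemma HPf {f : E n → ℝ} {x : E n} (hf : ContDiffAt ℝ ∞ f x) (k : Fin n) : HP k f (pd k f x) x :=
  HP.of_diff (hf.differentiableAt (by simp))

/-- the inverse metric is parallel -/
lemma pd_up {x : E n} (hx : R ≤ len x) (k i j : Fin n) :
    pd k (up g i j) x = -∑ l, (chr g i k l x * up g l j x + chr g j k l x * up g l i x) := by
  have h1 := h.smooth_reg.pd_inv_chr (h.det_ne hx) k i j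
  have h2 : pd k (up g i j) x = Vale.Agent.P366.pd k (fun y => (mat g y)⁻¹ i j) x :=
    Vale.Agent.P366.Bridge.pd_eq ((h.cup hx i j).differentiableAt (by simp)) k
  rw [h2, h1]
  simp only [Vale.Agent.P366.Bridge.chr_eq h.gs]
  rfl

/-- `Γᵏₖᵢ` -/
lemma sum_chr {x : E n} (hx : R ≤ len x) (i : Fin n) : ∑ k, chr g k k i x = Lg g i x := by
  have h1 := h.smooth_reg.Lc_eq (h.det_ne hx) i
  have h2 : ∑ k, chr g k k i x = Vale.Agent.P366.T2.Lc (mat g) i x := by
    unfold Vale.Agent.P366.T2.Lc
    refine Finset.sum_congr rfl fun k _ => ?_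
    rw [h.chr_symm hx, Vale.Agent.P366.Bridge.chr_eq h.gs]
  rw [h2, h1]
  unfold Lg
  congr 1
  refine Finset.sum_congr rfl fun k _ => Finset.sum_congr rfl fun l _ => ?_
  have h3 : pd i (fun y => g y k l) x = Vale.Agent.P366.pd i (fun y => mat g y k l) x :=
    Vale.Agent.P366.Bridge.pd_eq ((h.gs k l).differentiable (by simp) x) i
  rw [h3]
  rfl

/-- the logarithmic derivative of the determinant -/
lemma HP_det {x : E n} (hx : R ≤ len x) (i : Fin n) :
    HP i (fun y => (mat g y).det) (2 * (mat g x).det * Lg g i x) x := by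
  have h1 := hasDerivAt_det (A := fun t : ℝ => mat g (x + t • EuclideanSpace.single i 1))
    (A' := Matrix.of fun k l => pd i (fun y => g y k l) x) (t := 0)
    (fun k l => HP.of_diff ((h.gs k l).differentiable (by simp) x))
  have e : (∑ k, ∑ l, (mat g x).adjugate k l * pd i (fun y => g y l k) x) =
      2 * (mat g x).det * Lg g i x := by
    have hd := h.det_ne hx
    have h2 : ∀ k l, (mat g x).adjugate k l = (mat g x).det * up g k l x := by
      intro k l
      have h3 : (mat g x)⁻¹ = ((mat g x).det)⁻¹ • (mat g x).adjugate := by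
        rw [Matrix.inv_def, Ring.inverse_eq_inv']
      unfold up
      rw [h3, Matrix.smul_apply, smul_eq_mul]
      field_simp
    have h5 : ∑ k, ∑ l, (mat g x).adjugate k l * pd i (fun y => g y l k) x =
        ∑ k, ∑ l, (mat g x).det * (up g k l x * pd i (fun y => g y k l) x) := by
      rw [Finset.sum_comm]
      refine Finset.sum_congr rfl fun k _ => Finset.sum_congr rfl fun l _ => ?_
      rw [h2, h.up_symm l k]
      ring
    rw [h5]
    unfold Lg
    simp only [← Finset.mul_sum]
    ring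
  have e0 : (x + (0 : ℝ) • EuclideanSpace.single i (1 : ℝ) : E n) = x := by simp
  simp only [Matrix.of_apply, e0] at h1
  rw [e] at h1
  exact h1

lemma sg_pos {x : E n} (hx : R ≤ len x) : 0 < sg g x := Real.sqrt_pos.2 (h.det_pos hx)

lemma csg {x : E n} (hx : R ≤ len x) : ContDiffAt ℝ ∞ (sg g) x :=
  (h.cdet x).sqrt (h.det_ne hx)

lemma HP_sg {x : E n} (hx : R ≤ len x) (i : Fin n) :
    HP i (sg g) (sg g x * Lg g i x) x := by
  have h1 : HasDerivAt _ _ (0 : ℝ) := h.HP_det hx i
  have h2 := h1.sqrt (by simp only [zero_smul, add_zero]; exact h.det_ne hx)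
  simp only [zero_smul, add_zero] at h2
  have hs := h.sg_pos hx
  have e : 2 * (mat g x).det * Lg g i x / (2 * √(mat g x).det) = sg g x * Lg g i x := by
    have h3 : sg g x * sg g x = (mat g x).det := Real.mul_self_sqrt (h.det_pos hx).le
    rw [div_eq_iff (by change 2 * sg g x ≠ 0; positivity)]
    change 2 * (mat g x).det * Lg g i x = sg g x * Lg g i x * (2 * sg g x)
    linear_combination (-(2 * Lg g i x)) * h3
  rw [e] at h2
  exact h2

/-- the divergence in divergence form -/
lemma div_sg {V : Fin n → E n → ℝ} {x : E n} (hx : R ≤ len x)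
    (hV : ∀ i, ContDiffAt ℝ ∞ (V i) x) :
    ∑ i, pd i (fun y => sg g y * V i y) x = sg g x * dv g V x := by
  have h1 : ∀ i, pd i (fun y => sg g y * V i y) x =
      sg g x * (pd i (V i) x + (∑ k, chr g k k i x) * V i x) := by
    intro i
    rw [((h.HP_sg hx i).mul (HPf (hV i) i)).pd, h.sum_chr hx]
    ring
  simp only [h1, ← Finset.mul_sum]
  rw [dv_eq]

lemma ccv {V : Fin n → E n → ℝ} {x : E n} (hx : R ≤ len x)
    (hV : ∀ i, ContDiffAt ℝ ∞ (V i) x) (i j : Fin n) : ContDiffAt ℝ ∞ (cv g V i j) x := by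
  unfold cv
  exact (contDiffAt_pd (hV j) i).add (ContDiffAt.sum fun k _ => (h.cchr hx j i k).mul (hV k))

lemma cdv {V : Fin n → E n → ℝ} {x : E n} (hx : R ≤ len x)
    (hV : ∀ i, ContDiffAt ℝ ∞ (V i) x) : ContDiffAt ℝ ∞ (dv g V) x := by
  unfold dv
  exact ContDiffAt.sum fun k _ => h.ccv hx hV k k

lemma cHm {x : E n} (hx : R ≤ len x) : ContDiffAt ℝ ∞ (Hm g) x :=
  h.cdv hx fun i => h.cnu hx i

/-- derivative of a covariant derivative -/
lemma pd_cv {V : Fin n → E n → ℝ} {x : E n} (hx : R ≤ len x)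
    (hV : ∀ i, ContDiffAt ℝ ∞ (V i) x) (m i j : Fin n) : pd m (cv g V i j) x =
      pd m (pd i (V j)) x + ∑ k, (pd m (chr g j i k) x * V k x + chr g j i k x * pd m (V k) x) := by
  have h1 : HP m (cv g V i j) _ x := (HPf (contDiffAt_pd (hV j) i) m).add
    (HP.sum Finset.univ fun k _ => (HPf (h.cchr hx j i k) m).mul (HPf (hV k) m))
  exact h1.pd

/-- **Riccati equation** for a vector field -/
theorem riccati {V : Fin n → E n → ℝ} {x : E n} (hx : R ≤ len x)
    (hV : ∀ i, ContDiffAt ℝ ∞ (V i) x) :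
    dv g (fun j y => ∑ i, V i y * cv g V i j y) x - ∑ i, V i x * pd i (dv g V) x =
      ∑ i, ∑ j, cv g V i j x * cv g V j i x + ∑ i, ∑ j, V i x * V j x * ric g i j x := by
  have h1 := riccati_alg (fun i => V i x) (fun i j => pd i (V j) x)
    (fun i j k => pd i (pd j (V k)) x) (fun k i j => chr g k i j x)
    (fun m k i j => pd m (chr g k i j) x) (fun i j k => pd_pd_symm (hV k) i j)
    (fun k i j => h.chr_symm hx k i j) (fun m k i j => h.pd_chr_symm hx m k i j)
  have e1 : dv g (fun j y => ∑ i, V i y * cv g V i j y) x =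
      (∑ j, ∑ i, (pd j (V i) x * (pd i (V j) x + ∑ k, chr g j i k x * V k x) +
        V i x * (pd j (pd i (V j)) x + ∑ k, (pd j (chr g j i k) x * V k x +
          chr g j i k x * pd j (V k) x)))) +
      (∑ j, (∑ k, chr g k k j x) * ∑ i, V i x * (pd i (V j) x + ∑ k, chr g j i k x * V k x)) := by
    rw [dv_eq, Finset.sum_add_distrib]
    congr 1
    refine Finset.sum_congr rfl fun j _ => ?_
    have h2 : HP j (fun y => ∑ i, V i y * cv g V i j y) _ x :=
      HP.sum Finset.univ fun i _ => (HPf (hV i) j).mul (HPf (h.ccv hx hV i j) j)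
    rw [h2.pd]
    refine Finset.sum_congr rfl fun i _ => ?_
    rw [h.pd_cv hx hV j i j]
    rfl
  have e2 : ∀ i, pd i (dv g V) x = ∑ j, (pd i (pd j (V j)) x +
      ∑ k, (pd i (chr g j j k) x * V k x + chr g j j k x * pd i (V k) x)) := by
    intro i
    have h2 : HP i (dv g V) (∑ j, pd i (cv g V j j) x) x :=
      HP.sum Finset.univ fun j _ => HPf (h.ccv hx hV j j) i
    rw [h2.pd]
    exact Finset.sum_congr rfl fun j _ => h.pd_cv hx hV i j j
  rw [e1]
  simp only [e2]
  exact h1

/-! ### the unit normal -/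

lemma hs_symm {x : E n} (hx : R ≤ len x) (i j : Fin n) : hs g i j x = hs g j i x := by
  have hx0 := h.ne_zero hx
  unfold hs
  rw [(HP_nx hx0 i j).pd, (HP_nx hx0 j i).pd]
  congr 1
  · have : (if j = i then (1 : ℝ) else 0) = if i = j then 1 else 0 := by simp [eq_comm]
    rw [this]; ring
  · exact Finset.sum_congr rfl fun k _ => by rw [h.chr_symm hx]

lemma chs {x : E n} (hx : R ≤ len x) (i j : Fin n) : ContDiffAt ℝ ∞ (hs g i j) x := by
  unfold hs
  exact (contDiffAt_pd (h.cnx hx j) i).sub (ContDiffAt.sum fun k _ =>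
    (h.cchr hx k i j).mul (h.cnx hx k))

/-- `∇ᵢ Nʲ` -/
lemma cv_Nu {x : E n} (hx : R ≤ len x) (i j : Fin n) :
    cv g (Nu g) i j x = ∑ l, up g j l x * hs g i l x := by
  have h1 : HP i (Nu g j) _ x := HP.sum Finset.univ fun l _ =>
    (HPf (h.cup hx j l) i).mul (HPf (h.cnx hx l) i)
  unfold cv
  rw [h1.pd]
  simp only [h.pd_up hx]
  have e1 : ∀ l, up g j l x * hs g i l x = up g j l x * pd i (nx l) x -
      up g j l x * ∑ k, chr g k i l x * nx k x := by
    intro l; unfold hs; ring
  simp only [e1, Finset.sum_sub_distrib, Finset.sum_add_distrib, neg_add, add_mul, neg_mul,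
    Finset.sum_neg_distrib]
  have e2 : ∑ l, (∑ m, chr g j i m x * up g m l x) * nx l x =
      ∑ k, chr g j i k x * Nu g k x := by
    unfold Nu
    simp only [Finset.sum_mul, Finset.mul_sum]
    rw [Finset.sum_comm]
    exact Finset.sum_congr rfl fun k _ => Finset.sum_congr rfl fun l _ => by ring
  have e3 : ∑ l, (∑ m, chr g l i m x * up g m j x) * nx l x =
      ∑ l, up g j l x * ∑ k, chr g k i l x * nx k x := by
    simp only [Finset.sum_mul, Finset.mul_sum]
    rw [Finset.sum_comm]
    exact Finset.sum_congr rfl fun k _ => Finset.sum_congr rfl fun l _ => by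
      rw [h.up_symm k j]; ring
  rw [e2, e3]
  ring

/-- `∂ᵢ |∇ r|²` -/
lemma pd_ww {x : E n} (hx : R ≤ len x) (i : Fin n) :
    pd i (ww g) x = 2 * ∑ l, hs g i l x * Nu g l x := by
  have h1 : HP i (ww g) _ x := HP.sum Finset.univ fun j _ =>
    (HPf (h.cNu hx j) i).mul (HPf (h.cnx hx j) i)
  rw [h1.pd]
  have e1 : ∀ j, pd i (Nu g j) x = (∑ l, up g j l x * hs g i l x) -
      ∑ k, chr g j i k x * Nu g k x := by
    intro j
    rw [← h.cv_Nu hx]
    unfold cv
    ring
  have e2 : ∀ j, pd i (nx j) x = hs g i j x + ∑ k, chr g k i j x * nx k x := by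
    intro j; unfold hs; ring
  simp only [e1, e2, Finset.sum_add_distrib, sub_mul, mul_add, Finset.sum_sub_distrib]
  have e3 : ∑ j, (∑ l, up g j l x * hs g i l x) * nx j x = ∑ l, hs g i l x * Nu g l x := by
    unfold Nu
    simp only [Finset.sum_mul, Finset.mul_sum]
    rw [Finset.sum_comm]
    exact Finset.sum_congr rfl fun k _ => Finset.sum_congr rfl fun l _ => by
      rw [h.up_symm l k]; ring
  have e4 : ∑ j, (∑ k, chr g j i k x * Nu g k x) * nx j x =
      ∑ j, Nu g j x * ∑ k, chr g k i j x * nx k x := by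
    simp only [Finset.sum_mul, Finset.mul_sum]
    rw [Finset.sum_comm]
    exact Finset.sum_congr rfl fun k _ => Finset.sum_congr rfl fun l _ => by ring
  have e5 : ∑ j, Nu g j x * hs g i j x = ∑ l, hs g i l x * Nu g l x :=
    Finset.sum_congr rfl fun l _ => by ring
  rw [e3, e4, e5]
  ring

lemma Nu_nu {x : E n} (hx : R ≤ len x) (i : Fin n) : Nu g i x = √(ww g x) * nu g i x := by
  have := (h.sq_pos hx).ne'
  unfold nu
  field_simp

/-- `∇ᵢ νʲ` -/
lemma cv_nu {x : E n} (hx : R ≤ len x) (i j : Fin n) :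
    cv g (nu g) i j x = (∑ l, Pu g j l x * hs g i l x) / √(ww g x) := by
  have hs0 := h.sq_pos hx
  have hw0 := h.ww_pos hx
  have hsq := h.sq_mul hx
  have h1 : HasDerivAt _ _ (0 : ℝ) := HPf (h.cNu hx j) i
  have h2 : HasDerivAt _ _ (0 : ℝ) := HPf (h.cww hx) i
  have h3 := h1.div (h2.sqrt (by simp only [zero_smul, add_zero]; exact hw0.ne'))
    (by simp only [zero_smul, add_zero]; exact hs0.ne')
  simp only [zero_smul, add_zero] at h3
  have h4 : HP i (nu g j) _ x := h3
  unfold cv
  rw [h4.pd, h.pd_ww hx]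
  have e1 : pd i (Nu g j) x = (∑ l, up g j l x * hs g i l x) -
      ∑ k, chr g j i k x * Nu g k x := by
    rw [← h.cv_Nu hx]
    unfold cv
    ring
  rw [e1]
  have e2 : ∑ k, chr g j i k x * nu g k x = (∑ k, chr g j i k x * Nu g k x) / √(ww g x) := by
    rw [Finset.sum_div]
    exact Finset.sum_congr rfl fun k _ => by rw [h.Nu_nu hx k]; field_simp
  have e3 : ∑ l, hs g i l x * Nu g l x = √(ww g x) * ∑ l, hs g i l x * nu g l x := by
    rw [Finset.mul_sum]
    exact Finset.sum_congr rfl fun k _ => by rw [h.Nu_nu hx k]; ring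
  have e4 : ∑ l, Pu g j l x * hs g i l x = (∑ l, up g j l x * hs g i l x) -
      nu g j x * ∑ l, hs g i l x * nu g l x := by
    rw [Finset.mul_sum, ← Finset.sum_sub_distrib]
    exact Finset.sum_congr rfl fun l _ => by unfold Pu; ring
  rw [e2, e3, e4, h.Nu_nu hx j]
  generalize √(ww g x) = s at *
  field_simp
  ring

/-- the acceleration of `ν` -/
lemma acc {x : E n} (hx : R ≤ len x) (l : Fin n) :
    ∑ i, nu g i x * hs g i l x = pd l (ww g) x / (2 * √(ww g x)) := by
  have hs0 := h.sq_pos hx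
  rw [h.pd_ww hx, eq_div_iff (by positivity), Finset.sum_mul, Finset.mul_sum]
  refine Finset.sum_congr rfl fun i _ => ?_
  rw [h.Nu_nu hx i, h.hs_symm hx l i]
  ring

end Met

end Vale.Agent.H106
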