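import Vale.Agent.P366.H177.Defs

/-! Definitions for general leaves: the data induced on the centred spheres by a metric which need
not be adapted to them. -/

open scoped ContDiff

noncomputable section
namespace Vale.Agent.H106
open Vale.Agent.P366.Stmt Vale.Agent.T4 Vale.Agent.H177

variable {n : ℕ}

/-- The Ricci tensor of `g`. -/
def ricci (g : Field n) : Field n := fun x i j =>
  ∑ k, (pd k (chr g k i j) x - pd j (chr g k i k) x +
    ∑ l, (chr g k k l x * chr g l i j x - chr g k j l x * chr g l i k x))

/-- The length `|dr|` of the differential of `r = |x|` in the metric `g`; its inverse is the lapse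
of the family of centred spheres. -/
def slope (g : Field n) (x : E n) : ℝ := covNorm g (fun j => pd j len) x

/-- The density of the area element induced by `g` on the centred spheres with respect to the
Euclidean one. -/
def leafDens (g : Field n) (x : E n) : ℝ := √(mat g x).det * slope g x

/-- The integral of `f` over the centred sphere of radius `r` with the area element induced
by `g`. -/
def leafInt (g : Field n) (r : ℝ) (f : E n → ℝ) : ℝ := sphInt r fun x => leafDens g x * f x

/-- The area of the centred sphere of radius `r`. -/
def leafArea (g : Field n) (r : ℝ) : ℝ := leafInt g r fun _ => 1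

/-- The area radius of the centred sphere of radius `r`. -/
def leafRadius (g : Field n) (r : ℝ) : ℝ := (leafArea g r / omega n) ^ (1 / ((n : ℝ) - 1))

/-- The product `F` of the lapse and the mean curvature of the centred spheres: the logarithmic
rate of expansion of their area element. -/
def leafRate (g : Field n) (x : E n) : ℝ := sphereMean g x / slope g x

/-- The product of the lapse and `tr_S K`. -/
def leafTrace (g K : Field n) (x : E n) : ℝ := trS g K len x / slope g x

/-- `Q = H ^ 2 - (tr_S K) ^ 2`: the squared length of the mean curvature vector. -/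
def leafSq (g K : Field n) (x : E n) : ℝ := sphereMean g x ^ 2 - trS g K len x ^ 2

/-- The product of the restrictions of the tensors `A`, `B` to the centred sphere through `x`. -/
def leafContr (g : Field n) (A B : Fin n → Fin n → ℝ) (x : E n) : ℝ :=
  ∑ i, ∑ j, ∑ k, ∑ l, (up g i k x - nrm g len i x * nrm g len k x) *
    (up g j l x - nrm g len j x * nrm g len l x) * A i j * B k l

/-- A tensor whose restriction to the centred spheres is their second fundamental form. -/
def leafShape (g : Field n) (x : E n) (i j : Fin n) : ℝ := hess g len x i j / slope g x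

/-- The scalar curvature `R_S` at `x` of the centred sphere through `x`, by the Gauss equation. -/
def leafScal (g : Field n) (x : E n) : ℝ :=
  scal g x - 2 * (∑ i, ∑ j, ricci g x i j * nrm g len i x * nrm g len j x) +
    sphereMean g x ^ 2 - leafContr g (leafShape g x) (leafShape g x) x

/-- The torsion `α = K(ν, ·) - d artanh (tr_S K / H)` of the centred sphere of radius `r` is
divergence free on it (in the weak form): the sphere is time flat. -/
def LeafFlat (g K : Field n) (r : ℝ) : Prop :=
  ∀ f : E n → ℝ, (∀ x, len x = r → ContDiffAt ℝ ∞ f x) →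
    leafInt g r (fun x => sphereDot g (fun k => sphereTwist g K k x) (fun l => pd l f x) x) = 0

/-- `f` is constant on the centred sphere of radius `r`. -/
def ConstOn (r : ℝ) (f : E n → ℝ) : Prop := ∃ c : ℝ, ∀ x, len x = r → f x = c

/-- `F (μ - u J(ν) + |d log H - u K(ν, ·)| ^ 2 + (1 - u ^ 2) |α| ^ 2)` with `u = tr_S K / H`. -/
def leafSlack (g K : Field n) (x : E n) : ℝ :=
  leafRate g x * (mu g K x - sphereRatio g K x * (∑ j, mom g K j x * nrm g len j x) +
    sphereDot g
      (fun k => pd k (fun y => Real.log (sphereMean g y)) x -
        sphereRatio g K x * sphereRow g K k x)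
      (fun k => pd k (fun y => Real.log (sphereMean g y)) x -
        sphereRatio g K x * sphereRow g K k x) x +
    (1 - sphereRatio g K x ^ 2) *
      sphereDot g (fun k => sphereTwist g K k x) (fun k => sphereTwist g K k x) x)

/-- `F (R_S - c) - (F - F₀) Q / (n - 1) + ⟨dF, d log Q⟩ - 2 ⟨α, d (φ tr_S K)⟩` at `x`, `φ` the
lapse. -/
def leafDefect (g K : Field n) (c F₀ : ℝ) (x : E n) : ℝ :=
  leafRate g x * (leafScal g x - c) - (leafRate g x - F₀) * leafSq g K x / ((n : ℝ) - 1) +
    sphereDot g (fun k => pd k (leafRate g) x) (fun k => pd k (fun y => Real.log (leafSq g K y)) x)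
      x -
    2 * sphereDot g (fun k => sphereTwist g K k x) (fun k => pd k (leafTrace g K) x) x

/-- The integral inequality on the centred sphere of radius `r`. -/
def LeafIneq (g K : Field n) (r : ℝ) : Prop :=
  leafInt g r (leafDefect g K (((n : ℝ) - 1) * ((n : ℝ) - 2) / leafRadius g r ^ 2)
    (leafInt g r (leafRate g) / leafArea g r)) ≤ 2 * leafInt g r (leafSlack g K)

/-- The mean of `R_S` over the centred sphere of radius `r` is at most `(n - 1) (n - 2) / ρ ^ 2`,
`ρ` the area radius. -/
def LeafMean (g : Field n) (r : ℝ) : Prop :=
  leafInt g r (leafScal g) ≤ ((n : ℝ) - 1) * ((n : ℝ) - 2) / leafRadius g r ^ 2 * leafArea g r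

/-- `V = μ - u J(ν) + (|A| ^ 2 - 2 u ⟨A, K⟩ + |K| ^ 2 + Q - R_S) / 2` at `x`, the contractions being
taken in the tangent space of the centred sphere through `x`, `A` its second fundamental form and
`u = tr_S K / H`: the potential of its stability operator (`V = |A| ^ 2 + Ric(ν, ν)` if
`K = 0`). -/
def leafPot (g K : Field n) (x : E n) : ℝ :=
  mu g K x - sphereRatio g K x * (∑ j, mom g K j x * nrm g len j x) +
    (leafContr g (leafShape g x) (leafShape g x) x -
      2 * sphereRatio g K x * leafContr g (fun i j => K x i j) (leafShape g x) x +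
      leafContr g (fun i j => K x i j) (fun i j => K x i j) x + leafSq g K x - leafScal g x) / 2

/-- The centred sphere of radius `r` is stable with parallel mean curvature vector: `Q` is constant
on the spheres close to it, the torsion `α` vanishes on it, and `∫ V ψ ^ 2 ≤ ∫ |dψ| ^ 2` for the
functions `ψ` of mean value zero. -/
def LeafStable (g K : Field n) (r : ℝ) : Prop :=
  (∀ᶠ s in nhds r, ConstOn s (leafSq g K)) ∧
    (∀ x, len x = r →
      sphereDot g (fun k => sphereTwist g K k x) (fun k => sphereTwist g K k x) x = 0) ∧
    ∀ ψ : E n → ℝ, (∀ x, len x = r → ContDiffAt ℝ ∞ ψ x) → leafInt g r ψ = 0 →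
      leafInt g r (fun x => leafPot g K x * ψ x ^ 2) ≤
        leafInt g r (fun x => sphereDot g (fun k => pd k ψ x) (fun k => pd k ψ x) x)

/-- The integral over the centred sphere of radius `r` of the product of the torsion `α` with the
gradient of `φ tr_S K`, `φ` the lapse, is nonnegative. It vanishes if the sphere is time flat or
`φ tr_S K` is constant on it. -/
def LeafTorsion (g K : Field n) (r : ℝ) : Prop :=
  0 ≤ leafInt g r (fun x =>
    sphereDot g (fun k => sphereTwist g K k x) (fun k => pd k (leafTrace g K) x) x)

/-- The mass aspect `R_S - Q / (n - 1) - Δ log Q`, `Δ` the Laplace operator of the centred sphere of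
radius `r`, is constant on it (in the weak form). -/
def AspectConst (g K : Field n) (r : ℝ) : Prop :=
  ∃ a : ℝ, ∀ f : E n → ℝ, (∀ x, len x = r → ContDiffAt ℝ ∞ f x) →
    leafInt g r (fun x => f x * (leafScal g x - leafSq g K x / ((n : ℝ) - 1) - a) +
      sphereDot g (fun k => pd k f x) (fun k => pd k (fun y => Real.log (leafSq g K y)) x) x) = 0

/-- The condition on an untrapped centred sphere `S` of radius `r`: (i) `F` or the mass aspect is
constant on it, `∫ ⟨α, d(φ tr_S K)⟩` is nonnegative (for example, zero: `S` time flat) and, if
`3 < n`, the mean of `R_S` is at most `(n - 1) (n - 2) / ρ ^ 2`; or (ii) it is stable with parallel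
mean curvature vector and, if `3 < n`, the mean of `R_S` is at most `(n - 1) (n - 2) / ρ ^ 2`; or
(iii) the integral inequality holds on it. -/
def LeafGood (g K : Field n) (r : ℝ) : Prop :=
  ((ConstOn r (leafRate g) ∨ AspectConst g K r) ∧ LeafTorsion g K r ∧ (n = 3 ∨ LeafMean g r)) ∨
  (LeafStable g K r ∧ (n = 3 ∨ LeafMean g r)) ∨ LeafIneq g K r

/-- For `R ≤ |x|` each centred sphere `S` has either no untrapped point, that is `H ≤ |tr_S K|` on
all of `S`, or it is untrapped, `|tr_S K| < H` on all of `S`, and satisfies `LeafGood`. -/
def LeafClass (g K : Field n) (R : ℝ) : Prop := ∀ r, R ≤ r →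
  (∀ x, len x = r → sphereMean g x ≤ |trS g K len x|) ∨
    ((∀ x, len x = r → |trS g K len x| < sphereMean g x) ∧ LeafGood g K r)

end Vale.Agent.H106
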