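import Vale.Agent.P366.R2.H106.Defs
import Vale.Agent.P366.T1.BStmt

/-! Definitions for data with a spherically symmetric, boosted end. -/

open scoped ContDiff
open Filter Topology

noncomputable section
namespace Vale.Agent.H106
open Vale.Agent.P366.Stmt Vale.Agent.T4 Vale.Agent.H177
open Vale.Agent.P366.T1 (Spacetime uv sliceG sliceK pull du)

variable {n : ℕ}

/-- For `R ≤ r < R'` each centred sphere `S` has either no untrapped point, that is `H ≤ |tr_S K|`
on all of `S`, or it is untrapped, `|tr_S K| < H` on all of `S`, and satisfies `LeafGood`; the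
sphere of radius `R'` is untrapped. -/
def LeafClassTo (g K : Field n) (R R' : ℝ) : Prop :=
  (∀ r, R ≤ r → r < R' → (∀ x, len x = r → sphereMean g x ≤ |trS g K len x|) ∨
    ((∀ x, len x = r → |trS g K len x| < sphereMean g x) ∧ LeafGood g K r)) ∧
  ∀ x, len x = R' → |trS g K len x| < sphereMean g x

/-- Near the centred sphere of radius `R'`, in the coordinates `x`, and near infinity, in the
linear coordinates `x = L y`, the exterior data `D` are the slice `t = f(x)` of the spherically
symmetric spacetime `M`; `f` is radial near that sphere, and the orbits through the points of the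
slice with `R' ≤ |x|` are untrapped. -/
structure IsOuterSlice (M : Spacetime) (f : E n → ℝ) (L : E n ≃L[ℝ] E n) (D : Exterior n)
    (R' : ℝ) : Prop where
  smooth : Smooth f
  radial : ∀ x, x ≠ 0 → |∑ i, x i / len x * pd i f x| < 1
  orbits : ∀ x, R' ≤ len x → uv f x ∈ M.Q ∧ du M.r (uv f x) < 0 ∧
    0 < Vale.Agent.P366.T1.dv M.r (uv f x)
  const : ∀ᶠ r in 𝓝 R', ConstOn (n := n) r f
  near : ∀ᶠ r in 𝓝 R', ∀ x, len x = r → ∀ i j, D.g x i j = sliceG M f x i j ∧
    D.K x i j = sliceK M f x i j
  far : ∀ᶠ r in atTop, ∀ y, len y = r → ∀ i j, D.g y i j = pull L (sliceG M f) y i j ∧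
    D.K y i j = pull L (sliceK M f) y i j

end Vale.Agent.H106
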