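import Vale.Agent.P366.R2.H106.DefsB

/-! Definitions for uniformly expanding leaves with an averaged trace. -/

open scoped ContDiff
open Filter Topology

noncomputable section
namespace Vale.Agent.H106
open Vale.Agent.P366.Stmt Vale.Agent.T4 Vale.Agent.H177

variable {n : ℕ}

/-- The mean `t` of `τ = tr_S K` over the centred sphere of radius `r`. -/
def leafMeanTr (g K : Field n) (r : ℝ) : ℝ := leafInt g r (trS g K len) / leafArea g r

/-- `F` times `2 (μ - u J(ν)) + 2 |d log H| ^ 2 + 2 |β| ^ 2 - 2 u ⟨β, d log H⟩ + |Å| ^ 2 -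
2 u ⟨Å, K̊⟩ + |K̊| ^ 2` at `x`, where `u = t / H`, `F = φ H` with the lapse `φ = 1 / |dr|`, `β` is
the tangential part of `K(ν, ·)`, and `Å`, `K̊` are the trace free parts of the second fundamental
form of the centred sphere and of the restriction of `K` to it. -/
def avgGain (g K : Field n) (t : ℝ) (x : E n) : ℝ :=
  leafRate g x * (2 * (mu g K x - t / sphereMean g x * (∑ j, mom g K j x * nrm g len j x)) +
    2 * sphereDot g (fun k => pd k (fun y => Real.log (sphereMean g y)) x)
      (fun k => pd k (fun y => Real.log (sphereMean g y)) x) x +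
    2 * sphereDot g (fun k => sphereRow g K k x) (fun k => sphereRow g K k x) x -
    2 * (t / sphereMean g x) * sphereDot g (fun k => sphereRow g K k x)
      (fun k => pd k (fun y => Real.log (sphereMean g y)) x) x +
    (leafContr g (leafShape g x) (leafShape g x) x - sphereMean g x ^ 2 / ((n : ℝ) - 1)) -
    2 * (t / sphereMean g x) * (leafContr g (fun i j => K x i j) (leafShape g x) x -
      trS g K len x * sphereMean g x / ((n : ℝ) - 1)) +
    (leafContr g (fun i j => K x i j) (fun i j => K x i j) x -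
      trS g K len x ^ 2 / ((n : ℝ) - 1)))

/-- `F (R_S - c) - (F - F₀) (H ^ 2 - 2 t τ + t ^ 2) / (n - 1) +
F (2 (τ - t) tr K - n (τ ^ 2 - t ^ 2) / (n - 1)) + 2 ⟨dF, d log H - (t / H) K(ν, ·)⟩` at `x`. -/
def avgDefect (g K : Field n) (t c F₀ : ℝ) (x : E n) : ℝ :=
  leafRate g x * (leafScal g x - c) -
    (leafRate g x - F₀) * (sphereMean g x ^ 2 - 2 * t * trS g K len x + t ^ 2) / ((n : ℝ) - 1) +
    leafRate g x * (2 * (trS g K len x - t) * tr g K x -
      (n : ℝ) / ((n : ℝ) - 1) * (trS g K len x ^ 2 - t ^ 2)) +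
    2 * sphereDot g (fun k => pd k (leafRate g) x)
      (fun k => pd k (fun y => Real.log (sphereMean g y)) x -
        t / sphereMean g x * sphereRow g K k x) x

/-- The integral inequality on the centred sphere of radius `r`, with `t` the mean of `τ`. -/
def AvgIneq (g K : Field n) (r : ℝ) : Prop :=
  leafInt g r (avgDefect g K (leafMeanTr g K r)
    (((n : ℝ) - 1) * ((n : ℝ) - 2) / leafRadius g r ^ 2)
    (leafInt g r (leafRate g) / leafArea g r)) ≤
  leafInt g r (avgGain g K (leafMeanTr g K r))

/-- The centred sphere `S` of radius `r` is uniformly expanding (`F = φ H` is constant on it),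
`tr K` is constant on it and, if `3 < n`, the mean of `R_S` is at most
`(n - 1) (n - 2) / ρ ^ 2`; or it satisfies `AvgIneq`. -/
def AvgGood (g K : Field n) (r : ℝ) : Prop :=
  (ConstOn r (leafRate g) ∧ ConstOn r (tr g K) ∧ (n = 3 ∨ LeafMean g r)) ∨ AvgIneq g K r

/-- With `t` the mean of `τ = tr_S K` over the centred sphere `S` of radius `r`: either `H ≤ |t|` on
all of `S`, or `|t| < H` on all of `S` and `S` satisfies `AvgGood`. -/
def AvgLeaf (g K : Field n) (r : ℝ) : Prop :=
  (∀ x, len x = r → sphereMean g x ≤ |leafMeanTr g K r|) ∨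
    ((∀ x, len x = r → |leafMeanTr g K r| < sphereMean g x) ∧ AvgGood g K r)

end Vale.Agent.H106
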