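import Vale.Agent.P366.R2.H106.GBe

/-! The Penrose inequality for general leaves. -/

open MeasureTheory Metric Filter Topology Set
open scoped ContDiff ENNReal Matrix MatrixOrder

noncomputable section
namespace Vale.Agent.H106
open Vale.Agent.P366.Stmt Vale.Agent.P366.T2 Vale.Agent.T4 Vale.Agent.H177
open Vale.Agent.P366 (sphI sphM av norm_smul_sph sphI_congr)
open Vale.Agent.C92 (outside_nonneg theta_compare)
open Vale.Agent.P366.T1.A919 (O O_iff O_of_bigO)

variable {n : ℕ}

namespace Met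

variable {g : Field n} {R : ℝ} (h : Met g R)
include h

lemma pot_eq (K : Field n) {x : E n} (hx : R ≤ len x) : leafPot g K x = VV g K x := by
  have hx0 := h.ne_zero hx
  unfold leafPot VV TT
  rw [h.ratio_eq K hx, Jn_eq' g K hx0, h.sq_eq K hx, h.scal_eq hx, contr_eq g hx0, contr_eq g hx0,
    contr_eq g hx0]
  have : leafShape g x = AA g x := by
    funext i j
    exact shape_eq g hx0 i j
  rw [this]

lemma mean_iff {r : ℝ} (hr : R ≤ r) : LeafMean g r ↔ leafI g (RS g) r ≤
    ((n : ℝ) - 1) * ((n : ℝ) - 2) / rhoA g r ^ 2 * arA g r := by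
  unfold LeafMean
  rw [h.int_eq hr (f' := RS g) fun x hx => h.scal_eq (by rw [hx]; exact hr), h.radius_eq hr,
    h.area_eq hr]

/-- the mean scalar curvature of the leaves -/
lemma mean_of {q : ℝ} (hq : 0 < q) (D : Dec g q) {r : ℝ} (hr : R < r)
    (hc : n = 3 ∨ LeafMean g r) : leafI g (RS g) r ≤
      ((n : ℝ) - 1) * ((n : ℝ) - 2) / rhoA g r ^ 2 * arA g r := by
  rcases hc with rfl | hc
  · exact (h.gb_mean hq D hr).le
  · exact (h.mean_iff hr.le).1 hc

lemma const_iff {r : ℝ} {f f' : E n → ℝ} (hf : ∀ x, len x = r → f x = f' x)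
    (hc : ConstOn r f) : ∃ c : ℝ, ∀ x, len x = r → f' x = c := by
  obtain ⟨c, hc⟩ := hc
  exact ⟨c, fun x hx => by rw [← hf x hx, hc x hx]⟩

section

variable {K : Field n} (hK : ∀ i j, Smooth (fun x => K x i j)) (hKs : ∀ x i j, K x i j = K x j i)

lemma torsion_iff {r : ℝ} (hr : R < r) : LeafTorsion g K r ↔
    0 ≤ leafI g (fun x => dt g x (fun k => alp g K k x) (fun k => pd k (kF g K) x)) r := by
  unfold LeafTorsion
  rw [h.int_eq hr.le (f' := fun x => dt g x (fun k => alp g K k x)
    (fun k => pd k (kF g K) x)) fun x hx => ?_]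
  have hx' : R < len x := by rw [hx]; exact hr
  rw [dot_eq g (h.ne_zero hx'.le)]
  have e3 : (fun k => sphereTwist g K k x) = fun k => alp g K k x := by
    funext k
    exact h.twist_eq K hx' k
  have e4 : (fun k => pd k (leafTrace g K) x) = fun k => pd k (kF g K) x := by
    funext k
    exact pd_congr' ((near hx').mono fun y hy => trace_eq g K (h.ne_zero hy)) k
  rw [e3, e4]

include hK hKs in
/-- the conditions on the leaves imply the bound for the derivative -/
theorem der_of_class (hn : 3 ≤ n) {q : ℝ} (hq : 0 < q) (D : Dec g q) {r : ℝ} (hr : R < r)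
    (hlt : ∀ x, len x = r → |tauf g K x| < Hm g x)
    (hD : ∀ x, len x = r → covNorm g (mom g K) x ≤ mu g K x) (hG : LeafGood g K r) :
    DerR g K r := by
  have : Nonempty (Fin n) := ⟨⟨0, by omega⟩⟩
  have : Nontrivial (E n) := inferInstance
  have hxr : ∀ x : E n, len x = r → R ≤ len x := fun x hx => by rw [hx]; exact hr.le
  have cF : ∀ x, len x = r → ContinuousAt (Fx g) x := fun x hx => (h.cFx (hxr x hx)).continuousAt
  rcases hG with ⟨hc | ⟨a, ha⟩, hF, hm⟩ | ⟨⟨hq', hα, hs⟩, hm⟩ | hG
  · obtain ⟨c, hc⟩ := h.const_iff (f' := Fx g) (fun x hx => h.rate_eq (hxr x hx)) hc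
    have hc0 : 0 < c := by
      obtain ⟨y, hy⟩ := exists_len (n := n) (by omega) (r := r) (h.hR.le.trans hr.le)
      rw [← hc y hy]
      exact h.F_pos (hxr y hy) (hlt y hy)
    exact h.der_of_good hK hKs (by omega) hr hlt (h.good_of_rate hK hr hlt hD
      ((h.torsion_iff hr).1 hF) (h.mean_of hq D hr hm) hc0 hc)
  · refine h.der_of_good hK hKs (by omega) hr hlt (h.good_of_aspect hK hr hlt hD
      ((h.torsion_iff hr).1 hF) (h.mean_of hq D hr hm) (a := a) fun f hf => ?_)
    rw [← ha f hf]
    refine (h.int_eq hr.le fun x hx => ?_).symm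
    have hx' : R < len x := by rw [hx]; exact hr
    rw [h.scal_eq hx'.le, h.sq_eq K hx'.le, dot_eq g (h.ne_zero hx'.le)]
    have e : (fun k => pd k (fun y => Real.log (leafSq g K y)) x) =
        fun k => pd k (fun y => Real.log (Qf g K y)) x := by
      funext k
      exact pd_congr' ((near hx').mono fun y hy => by rw [h.sq_eq K hy]) k
    rw [e]
  · refine h.der_of_stable hK hKs (by omega) hr hlt hD ?_ ?_ ?_ (h.mean_of hq D hr hm)
    · filter_upwards [hq', lt_mem_nhds hr] with s hs hs2
      exact h.const_iff (fun x hx => h.sq_eq K (by rw [hx]; exact hs2.le)) hs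
    · intro x hx
      have hx' : R < len x := by rw [hx]; exact hr
      rw [← hα x hx, dot_eq g (h.ne_zero hx'.le)]
      have e : (fun k => sphereTwist g K k x) = fun k => alp g K k x := by
        funext k
        exact h.twist_eq K hx' k
      rw [e]
    · intro ψ hψ hψ0
      have h1 := hs ψ hψ (by
        rw [h.int_eq hr.le (f' := ψ) fun _ _ => rfl]
        exact hψ0)
      rw [h.int_eq hr.le (f' := fun x => VV g K x * ψ x ^ 2) (fun x hx => by
        rw [h.pot_eq K (hxr x hx)]), h.int_eq hr.le (f' := fun x => dt g x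
          (fun k => pd k ψ x) (fun k => pd k ψ x)) fun x hx => by
            rw [dot_eq g (h.ne_zero (hxr x hx))]] at h1
      exact h1
  · exact h.der_of_good hK hKs (by omega) hr hlt ((h.ineq_iff K hr).1 hG)

end

end Met

/-- **The Penrose inequality for general leaves.** -/
theorem final_leaf (hn : 3 ≤ n) {X : Exterior n} (hAF : X.IsAF) (hDEC : X.DEC) (hT : X.Trapped)
    {m : ℝ} (hm : X.IsEnergy m) {P : Fin n → ℝ} (hP : X.IsMomentum P) {R : ℝ}
    (hR : IsGreatest {r | ∃ x, X.F x = 0 ∧ len x = r} R) (hc : LeafClass X.g X.K R) :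
    X.Amin ≠ ⊤ ∧ 0 < m ∧
      (X.Amin.toReal / omega n) ^ (((n : ℝ) - 2) / (n - 1)) / 2 ≤ m ∧
      ((∀ᶠ r in atTop, LeafFlat X.g X.K r) → P = 0) := by
  have h := met_of (by omega) hR
  have hout := outside_nonneg (by omega) X hR
  have hK := fun i j => (X.smooth i j).2
  have hKs := fun x i j => (X.symm x i j).2
  have h1 := penroseR hn hAF hT hm hR (fun r hr => ?_)
  · obtain ⟨a, b, c⟩ := h1
    exact ⟨a, b, c, fun hF => momentum_zero hn h hAF hF hP⟩
  · obtain ⟨q, hq, hAFq⟩ := hAF
    have hn3 : (3 : ℝ) ≤ n := by exact_mod_cast hn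
    have hq0 : 0 < q := by linarith
    have i0 : Fin n := ⟨0, by omega⟩
    have D : Dec X.g q := ⟨fun i j => O_of_bigO (hAFq i j i0 i0).1,
      fun i j k => O_of_bigO (hAFq i j k i0).2.1⟩
    have hxr : ∀ x : E n, len x = r → R ≤ len x := fun x hx => by rw [hx]; exact hr
    rcases hc r hr with h2 | ⟨h2, h3⟩
    · refine Or.inl fun x hx => ?_
      have := h2 x hx
      rwa [h.mean_eq (hxr x hx), trS_eq X.g X.K (h.ne_zero (hxr x hx))] at this
    · have hlt : ∀ x, len x = r → |tauf X.g X.K x| < Hm X.g x := fun x hx => by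
        have := h2 x hx
        rwa [h.mean_eq (hxr x hx), trS_eq X.g X.K (h.ne_zero (hxr x hx))] at this
      exact Or.inr ⟨hlt, fun hr' => h.der_of_class hK hKs hn hq0 D hr' hlt
        (fun x hx => hDEC x (hout x (hxr x hx))) h3⟩

end Vale.Agent.H106
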