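import Vale.Agent.P366.R2.H106.Orb2
import Vale.Agent.P366.R2.H106.DefsB
import Vale.Agent.P366.R2.H106.Final
import Vale.Agent.P366.T1.BoostAsymp

/-! The Penrose inequality for data with a spherically symmetric, boosted end. -/

open MeasureTheory Metric Filter Topology Set Matrix
open scoped ContDiff ENNReal

noncomputable section
namespace Vale.Agent.H106
open Vale.Agent.P366.Stmt Vale.Agent.P366.T1 Vale.Agent.P366.T1.B526 Vale.Agent.P366.T2
open Vale.Agent.T4 Vale.Agent.H177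
open Vale.Agent.P366 (sphI sphM av norm_smul_sph sphI_congr sphI_const)
open Vale.Agent.C92 (outside_nonneg theta_compare)
open Vale.Agent.P366.T1.A919 (O O_iff O_of_bigO)

variable {n : ℕ}

/-! ### The mass along the slice -/

section Mass

variable {M : Spacetime} {f : E n → ℝ}

lemma uv_ray (f : E n → ℝ) {e : E n} (he : len e = 1) {s : ℝ} (hs : 0 < s) :
    uv f (s • e) = (f (s • e) - s, f (s • e) + s) := by
  have : len (s • e) = s := by
    show ‖s • e‖ = s
    rw [norm_smul, Real.norm_of_nonneg hs.le]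
    show s * len e = s
    rw [he, mul_one]
  unfold uv
  rw [this]

/-- The mass does not decrease along the rays in the untrapped region. -/
lemma mass_mono (hn : 3 ≤ n) (hE : M.DEC n) (hf : Smooth f)
    (hrad : ∀ x, x ≠ 0 → |∑ i, x i / len x * pd i f x| < 1) {e : E n} (he : len e = 1)
    {R' : ℝ} (hR' : 0 < R') (ho : ∀ x : E n, R' ≤ len x → uv f x ∈ M.Q ∧ du M.r (uv f x) < 0 ∧
      0 < Vale.Agent.P366.T1.dv M.r (uv f x)) :
    MonotoneOn (fun s : ℝ => M.mass n (uv f (s • e))) (Ici R') := by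
  have hle : ∀ s : ℝ, 0 < s → len (s • e) = s := by
    intro s hs
    show ‖s • e‖ = s
    rw [norm_smul, Real.norm_of_nonneg hs.le]
    show s * len e = s
    rw [he, mul_one]
  have hne : ∀ s : ℝ, 0 < s → s • e ≠ 0 := by
    intro s hs h0
    have := hle s hs
    rw [h0] at this
    have h1 : len (0 : E n) = 0 := norm_zero
    rw [h1] at this
    exact hs.ne this
  have hd : ∀ s : ℝ, R' ≤ s → ∃ d, 0 ≤ d ∧
      HasDerivAt (fun s : ℝ => M.mass n (uv f (s • e))) d s := by
    intro s hs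
    have hs0 : 0 < s := hR'.trans_le hs
    obtain ⟨h1, h2, h3⟩ := ho (s • e) (by rw [hle s hs0]; exact hs)
    set a := ∑ i, (s • e) i / len (s • e) * pd i f (s • e) with ha
    have hra := abs_lt.1 (hrad _ (hne s hs0))
    rw [← ha] at hra
    have hdf := ray_deriv hf he hs0
    rw [← ha] at hdf
    have hdc : HasDerivAt (fun s : ℝ => (f (s • e) - s, f (s • e) + s)) (a - 1, a + 1) s :=
      (hdf.sub (hasDerivAt_id s)).prodMk (hdf.add (hasDerivAt_id s))
    have hG : DifferentiableAt ℝ (M.mass n) (f (s • e) - s, f (s • e) + s) := by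
      rw [← uv_ray f he hs0]
      exact ((Spacetime.smooth_mass (M := M) (n := n)).contDiffAt
        (M.isOpen.mem_nhds h1)).differentiableAt (by simp)
    have h4 := hG.hasFDerivAt.comp_hasDerivAt s hdc
    rw [fderiv_apply_eq hG] at h4
    refine ⟨_, ?_, h4.congr_of_eventuallyEq ?_⟩
    · rw [← uv_ray f he hs0]
      have h5 := Spacetime.du_mass_nonpos hn hE h1 h2.le h3.le
      have h6 := Spacetime.dv_mass_nonneg hn hE h1 h2.le h3.le
      have h7 : 0 ≤ (a - 1) * du (M.mass n) (uv f (s • e)) :=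
        mul_nonneg_of_nonpos_of_nonpos (by linarith [hra.2]) h5
      have h8 : 0 ≤ (a + 1) * Vale.Agent.P366.T1.dv (M.mass n) (uv f (s • e)) :=
        mul_nonneg (by linarith [hra.1]) h6
      linarith
    · filter_upwards [lt_mem_nhds hs0] with t ht
      show M.mass n (uv f (t • e)) = M.mass n (f (t • e) - t, f (t • e) + t)
      rw [uv_ray f he ht]
  refine monotoneOn_of_deriv_nonneg (convex_Ici R') (fun s hs => ?_) (fun s hs => ?_)
    fun s hs => ?_
  · obtain ⟨d, -, h⟩ := hd s hs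
    exact h.continuousAt.continuousWithinAt
  · rw [interior_Ici] at hs
    obtain ⟨d, -, h⟩ := hd s (le_of_lt hs)
    exact h.differentiableAt.differentiableWithinAt
  · rw [interior_Ici] at hs
    obtain ⟨d, h0, h⟩ := hd s (le_of_lt hs)
    rw [h.deriv]
    exact h0

end Mass

/-! ### The exterior of a large ball -/

lemma ball_iff {ρ : ℝ} (hρ : 0 < ρ) (x : E n) : 0 ≤ ‖x‖ ^ 2 - ρ ^ 2 ↔ ρ ≤ len x := by
  show _ ↔ ρ ≤ ‖x‖
  constructor
  · intro h
    have h0 := norm_nonneg x
    nlinarith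
  · intro h
    nlinarith

/-- The data outside the ball of radius `ρ`. -/
def outer (hn : 2 ≤ n) (D : Exterior n) {ρ : ℝ} (hρ : 0 < ρ)
    (hD : ∀ x, ρ ≤ len x → 0 ≤ D.F x) : Exterior n where
  F := fun x => ‖x‖ ^ 2 - ρ ^ 2
  g := D.g
  K := D.K
  dom := Vale.Agent.P366.isExt_round hn hρ
  bdry := by
    obtain ⟨y, hy⟩ := exists_len (n := n) (by omega) (r := ρ) hρ.le
    refine ⟨y, ?_⟩
    have : ‖y‖ = ρ := hy
    rw [this, sub_self]
  smooth := D.smooth
  symm := D.symm
  pos := fun x hx => D.pos x (hD x ((ball_iff hρ x).1 hx))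

/-- **The Hawking mass of an orbit.** -/
theorem orb_mass (hn : 3 ≤ n) {X : Exterior n} {R R' : ℝ}
    (hR : IsGreatest {r | ∃ x, X.F x = 0 ∧ len x = r} R) (hRR : R < R') {M : Spacetime}
    {f : E n → ℝ} {L : E n ≃L[ℝ] E n} (hS : IsOuterSlice M f L X R') {y : E n}
    (hy : len y = R') :
    MM X.g X.K R' ≤ 2 * ((n : ℝ) - 1) ^ 2 * omega n * M.mass n (uv f y) := by
  have : Nonempty (Fin n) := ⟨⟨0, by omega⟩⟩
  have : Nontrivial (E n) := inferInstance
  have hn3 : (3 : ℝ) ≤ n := by exact_mod_cast hn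
  have h := met_of (by omega) hR
  have hR0 := h.hR
  have hR'0 : 0 < R' := hR0.trans hRR
  have hω : 0 < omega n := Met.omega_pos
  have hK := fun i j => (X.smooth i j).2
  obtain ⟨c, hc⟩ := hS.const.self_of_nhds
  have huv : ∀ x : E n, len x = R' → uv f x = uv f y := by
    intro x hx
    unfold uv
    rw [hc x hx, hc y hy, hx, hy]
  obtain ⟨hQ, hu, hv⟩ := hS.orbits y (by rw [hy])
  set F := M.F (uv f y) with hF
  set r := M.r (uv f y) with hr
  set ru := du M.r (uv f y) with hru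
  set rv := Vale.Agent.P366.T1.dv M.r (uv f y) with hrv
  have hF0 : 0 < F := (M.pos _ hQ).1
  have hr0 : 0 < r := (M.pos _ hQ).2
  have hlen : ∀ x : E n, len x = R' → Tendsto (fun z : E n => len z) (𝓝 x) (𝓝 R') := by
    intro x hx
    rw [← hx]
    exact continuous_norm.continuousAt
  have hQb : ∀ x : E n, len x = R' → ((n : ℝ) - 1) ^ 2 * (4 * (-ru) * rv / (r ^ 2 * F)) ≤
      Qf X.g X.K x := by
    intro x hx
    have h1 := h.orb_Q (K := X.K) (M := M) hS.smooth hS.radial (by omega) (x := x)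
      (by rw [hx]; exact hRR.le) (by rw [huv x hx]; exact hQ) (by rw [huv x hx]; exact hu)
      (by rw [huv x hx]; exact hv) (by rw [hx]; exact hS.const)
      (fun i j => by
        filter_upwards [(hlen x hx).eventually hS.near] with z hz
        exact (hz z rfl i j).1)
      (fun i j => (hS.near.self_of_nhds x hx i j).2)
    rw [huv x hx] at h1
    exact h1
  have had : ∀ x : E n, len x = R' → ad X.g x = (r / R') ^ (n - 1) := by
    intro x hx
    have h1 := h.orb_ad (M := M) hS.smooth hS.radial (by omega) (x := x)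
      (by rw [hx]; exact hRR.le) (by rw [huv x hx]; exact hQ) (by rw [hx]; exact hS.const)
      (fun i j => (hS.near.self_of_nhds x hx i j).1)
    rw [huv x hx, hx] at h1
    exact h1
  have hA : arA X.g R' = omega n * r ^ (n - 1) := by
    unfold arA leafI
    have e1 : sphI (fun x => ad X.g x * 1) R' = sphI (fun _ : E n => (r / R') ^ (n - 1)) R' :=
      sphI_congr hR'0.le fun x hx => by
        rw [had x hx, mul_one]
    rw [e1, sphI_const]
    have e2 : omega n = sphI (fun _ : E n => (1 : ℝ)) 1 := by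
      unfold omega sphInt
      rw [sph_eq_sphI, one_pow, one_mul]
    rw [e2, sphI_const]
    rw [div_pow]
    field_simp
  have hρ : rhoA X.g R' = r := by
    unfold rhoA
    rw [hA, mul_div_cancel_left₀ _ hω.ne', ← Real.rpow_natCast r (n - 1), ← Real.rpow_mul hr0.le]
    have : ((n - 1 : ℕ) : ℝ) * (1 / ((n : ℝ) - 1)) = 1 := by
      rw [Nat.cast_sub (by omega), Nat.cast_one]
      have : (n : ℝ) - 1 ≠ 0 := by linarith
      field_simp
    rw [this, Real.rpow_one]
  have hY : ((n : ℝ) - 1) ^ 2 * (4 * (-ru) * rv / (r ^ 2 * F)) * (omega n * r ^ (n - 1)) ≤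
      yyQ X.g X.K R' := by
    rw [← hA, ← Met.leafI_const]
    exact h.leafI_mono hRR.le (fun _ _ => continuousAt_const)
      (fun x hx => (h.cQf hK (by rw [hx]; exact hRR.le)).continuousAt) hQb
  unfold MM
  rw [hρ]
  have hpow : r ^ ((n : ℝ) - 2) = r ^ (n - 2) := by
    rw [← Real.rpow_natCast r (n - 2), Nat.cast_sub (by omega)]
    norm_num
  rw [hpow]
  have hY2 := mul_le_mul_of_nonneg_left hY hr0.le
  have e3 : r * (((n : ℝ) - 1) ^ 2 * (4 * (-ru) * rv / (r ^ 2 * F)) * (omega n * r ^ (n - 1))) =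
      ((n : ℝ) - 1) ^ 2 * omega n * r ^ (n - 2) * (4 * (-ru) * rv / F) := by
    obtain ⟨k, rfl⟩ : ∃ k, n = k + 2 := ⟨n - 2, by omega⟩
    have e4 : k + 2 - 1 = k + 1 := by omega
    rw [e4, Nat.add_sub_cancel, pow_succ]
    have := hF0.ne'
    have := hr0.ne'
    field_simp
    ring
  rw [e3] at hY2
  have e5 : 2 * ((n : ℝ) - 1) ^ 2 * omega n * M.mass n (uv f y) =
      ((n : ℝ) - 1) ^ 2 * omega n * r ^ (n - 2) -
        ((n : ℝ) - 1) ^ 2 * omega n * r ^ (n - 2) * (4 * (-ru) * rv / F) := by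
    unfold Spacetime.mass
    rw [← hF, ← hr, ← hru, ← hrv]
    ring
  rw [e5]
  linarith

/-- **The Penrose inequality for data with a spherically symmetric, boosted end.** -/
theorem final_ends (hn : 3 ≤ n) {X : Exterior n} (hAF : X.IsAF) (hDEC : X.DEC) (hT : X.Trapped)
    {m : ℝ} (hm : X.IsEnergy m) {P : Fin n → ℝ} (hP : X.IsMomentum P) {R R' : ℝ}
    (hR : IsGreatest {r | ∃ x, X.F x = 0 ∧ len x = r} R) (hRR : R < R')
    (hleaf : LeafClassTo X.g X.K R R') {M : Spacetime} {c : ℝ} (hE : M.DEC n)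
    (hM : M.IsAFIn n c) {f : E n → ℝ} {L : E n ≃L[ℝ] E n} (hS : IsOuterSlice M f L X R')
    (hf : ∃ b < c, ∃ ρ, ∀ x, ρ < len x → |f x| ≤ b * len x) :
    X.Amin ≠ ⊤ ∧ √(∑ i, P i ^ 2) < m ∧
    (X.Amin.toReal / omega n) ^ (((n : ℝ) - 2) / (n - 1)) / 2 ≤ √(m ^ 2 - ∑ i, P i ^ 2) := by
  have : Nonempty (Fin n) := ⟨⟨0, by omega⟩⟩
  have : Nontrivial (E n) := inferInstance
  have hn3 : (3 : ℝ) ≤ n := by exact_mod_cast hn
  have h := met_of (by omega) hR
  have hR0 := h.hR
  have hR'0 : 0 < R' := hR0.trans hRR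
  have hout := outside_nonneg (by omega) X hR
  have hK := fun i j => (X.smooth i j).2
  have hKs := fun x i j => (X.symm x i j).2
  -- the asymptotics
  obtain ⟨ρ0, hρ0⟩ := eventually_atTop.1 hS.far
  obtain ⟨κ, hκ0, hκ⟩ : ∃ κ : ℝ, 0 < κ ∧ ∀ y : E n, len y ≤ κ * len (L y) := by
    refine ⟨‖(L.symm : E n →L[ℝ] E n)‖ + 1, by positivity, fun y => ?_⟩
    have h1 := (L.symm : E n →L[ℝ] E n).le_opNorm (L y)
    have h2 : (L.symm : E n →L[ℝ] E n) (L y) = y := L.symm_apply_apply y
    rw [h2] at h1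
    have h3 : 0 ≤ ‖L y‖ := norm_nonneg _
    show ‖y‖ ≤ (‖(L.symm : E n →L[ℝ] E n)‖ + 1) * ‖L y‖
    nlinarith
  set ρ := max (max ρ0 R) (κ * R') with hρd
  have hρ1 : ρ0 ≤ ρ := (le_max_left _ _).trans (le_max_left _ _)
  have hρ2 : R ≤ ρ := (le_max_right _ _).trans (le_max_left _ _)
  have hρ3 : κ * R' ≤ ρ := le_max_right _ _
  have hρpos : 0 < ρ := hR0.trans_le hρ2
  set D2 := outer (by omega) X hρpos (fun x hx => hout x (hρ2.trans hx)) with hD2
  have hS2 : IsSliceIn M f L D2 := by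
    refine ⟨hS.smooth, hS.radial, fun y _ hy => ?_, fun y _ hy i j => ?_, fun y _ hy i j => ?_⟩
    · have h1 : ρ ≤ len y := (ball_iff hρpos y).1 hy
      refine (hS.orbits (L y) ?_).1
      have h2 := hκ y
      have h3 : κ * R' ≤ κ * len (L y) := hρ3.trans (h1.trans h2)
      exact le_of_mul_le_mul_left h3 hκ0
    · exact (hρ0 (len y) (hρ1.trans ((ball_iff hρpos y).1 hy)) y rfl i j).1
    · exact (hρ0 (len y) (hρ1.trans ((ball_iff hρpos y).1 hy)) y rfl i j).2
  obtain ⟨M0, w, hm1, hP1, -, hlim, -⟩ := basympt hn hE hM hS2 hf (D := D2) hAF hm hP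
  -- the mass of the orbit
  obtain ⟨e, he⟩ := exists_len (n := n) (by omega) (r := 1) zero_le_one
  have hy : len (R' • e) = R' := by
    show ‖R' • e‖ = R'
    rw [norm_smul, Real.norm_of_nonneg hR'0.le]
    show R' * len e = R'
    rw [he, mul_one]
  have hene : e ≠ 0 := by
    rintro rfl
    have : len (0 : E n) = 0 := norm_zero
    rw [this] at he
    exact zero_ne_one he
  have hmass : M.mass n (uv f (R' • e)) ≤ M0 := by
    refine ge_of_tendsto (hlim e hene) ?_
    filter_upwards [eventually_ge_atTop R'] with s hs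
    exact mass_mono hn hE hS.smooth hS.radial he hR'0 hS.orbits (mem_Ici.2 le_rfl)
      (mem_Ici.2 hs) hs
  have hω : 0 < omega n := Met.omega_pos
  have hMM := orb_mass hn hR hRR hS hy
  have hMM2 : MM X.g X.K R' ≤ 2 * ((n : ℝ) - 1) ^ 2 * omega n * M0 := by
    refine hMM.trans (mul_le_mul_of_nonneg_left hmass ?_)
    positivity
  -- the leaves
  obtain ⟨q, hq, hAFq⟩ := id hAF
  have hq0 : 0 < q := by linarith
  have i0 : Fin n := ⟨0, by omega⟩
  have D : Dec X.g q := ⟨fun i j => O_of_bigO (hAFq i j i0 i0).1,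
    fun i j k => O_of_bigO (hAFq i j k i0).2.1⟩
  obtain ⟨h1, h2, h3⟩ := penrose_to hn hT hR hRR (fun r hr hr' => by
    have hxr : ∀ x : E n, len x = r → R ≤ len x := fun x hx => by rw [hx]; exact hr
    rcases hleaf.1 r hr hr' with h2 | ⟨h2, h3⟩
    · refine Or.inl fun x hx => ?_
      have := h2 x hx
      rwa [h.mean_eq (hxr x hx), trS_eq X.g X.K (h.ne_zero (hxr x hx))] at this
    · have hlt : ∀ x, len x = r → |tauf X.g X.K x| < Hm X.g x := fun x hx => by
        have := h2 x hx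
        rwa [h.mean_eq (hxr x hx), trS_eq X.g X.K (h.ne_zero (hxr x hx))] at this
      exact Or.inr ⟨hlt, fun hr' => h.der_of_class hK hKs hn hq0 D hr' hlt
        (fun x hx => hDEC x (hout x (hxr x hx))) h3⟩) (fun x hx => by
    have hx' : R ≤ len x := by rw [hx]; exact hRR.le
    have := hleaf.2 x hx
    rwa [h.mean_eq hx', trS_eq X.g X.K (h.ne_zero hx')] at this) hMM2
  -- the conclusion
  have hs : ∑ i, P i ^ 2 = M0 ^ 2 * ∑ i, w i ^ 2 := by
    rw [Finset.mul_sum]
    exact Finset.sum_congr rfl fun i _ => by rw [hP1 i]; ring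
  have hw : 0 ≤ ∑ i, w i ^ 2 := Finset.sum_nonneg fun i _ => sq_nonneg _
  have hmm : m ^ 2 - ∑ i, P i ^ 2 = M0 ^ 2 := by
    rw [hs, hm1, mul_pow, Real.sq_sqrt (by linarith)]
    ring
  refine ⟨h1, ?_, ?_⟩
  · rw [hs, hm1, Real.sqrt_mul (sq_nonneg _), Real.sqrt_sq h2.le, mul_comm]
    exact mul_lt_mul_of_pos_right (Real.sqrt_lt_sqrt hw (by linarith)) h2
  · rw [hmm, Real.sqrt_sq h2.le]
    exact h3

end Vale.Agent.H106
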