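import Vale.Agent.P366.R2.H106.Core

/-! The monotonicity up to a finite radius. -/

open MeasureTheory Metric Filter Topology Set
open scoped ContDiff ENNReal Matrix MatrixOrder

noncomputable section
namespace Vale.Agent.H106
open Vale.Agent.P366.Stmt Vale.Agent.P366.T2 Vale.Agent.T4 Vale.Agent.H177
open Vale.Agent.P366 (sphI sphM av norm_smul_sph sphI_congr)
open Vale.Agent.C92 (outside_nonneg theta_compare)
open Vale.Agent.P366.T1.A919 (O O_iff O_of_bigO)

variable {n : ℕ}

/-- The last radius below `R'` without untrapped points. -/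
theorem exists_last_to (hn : 0 < n) {R R' : ℝ} (hR : 0 < R) (hRR : R < R') {f : E n → ℝ}
    {P : ℝ → Prop} (hf : ∀ x, R ≤ len x → ContinuousAt f x)
    (hd : ∀ r, R ≤ r → r < R' →
      (∀ x, len x = r → 0 ≤ f x) ∨ ((∀ x, len x = r → f x < 0) ∧ P r))
    (h0 : ∃ x, len x = R ∧ 0 ≤ f x)
    (hend : ∀ x, len x = R' → f x < 0) :
    ∃ r0, R ≤ r0 ∧ r0 < R' ∧ (∀ x, len x = r0 → f x = 0) ∧
      ∀ r, r0 < r → r < R' → (∀ x, len x = r → f x < 0) ∧ P r := by
  -- freeze `f` outside the radius `R'`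
  set f' : E n → ℝ := fun x => f ((min (len x) R' / len x) • x) with hf'
  have hR'0 : 0 < R' := hR.trans hRR
  have hlen : ∀ x : E n, 0 < len x → len ((min (len x) R' / len x) • x) = min (len x) R' := by
    intro x hx
    have h1 : 0 ≤ min (len x) R' / len x := div_nonneg (le_min hx.le hR'0.le) hx.le
    show ‖(min (len x) R' / len x) • x‖ = _
    rw [norm_smul, Real.norm_of_nonneg h1]
    show min (len x) R' / len x * len x = _
    field_simp
  have hin : ∀ x : E n, 0 < len x → len x ≤ R' → f' x = f x := by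
    intro x hx hx'
    simp only [hf', min_eq_left hx']
    rw [div_self hx.ne', one_smul]
  have hout : ∀ x : E n, R' ≤ len x → f' x < 0 := by
    intro x hx
    have hx0 : 0 < len x := hR'0.trans_le hx
    refine hend _ ?_
    rw [hlen x hx0, min_eq_right hx]
  have key : ∃ r0, R ≤ r0 ∧ (∀ x, len x = r0 → f' x = 0) ∧
      ∀ r, r0 < r → (∀ x, len x = r → f' x < 0) ∧ (r < R' → P r) := by
    refine exists_last hn hR (f := f') (P := fun r => r < R' → P r)
      (fun x hx => ?_) (fun r hr => ?_) ?_ ?_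
    · have hx0 : 0 < len x := hR.trans_le hx
      have hc : ContinuousAt (fun y : E n => (min (len y) R' / len y) • y) x := by
        have hl : ContinuousAt (fun y : E n => len y) x := continuous_norm.continuousAt
        exact ((hl.min continuousAt_const).div hl hx0.ne').smul continuousAt_id
      refine ContinuousAt.comp (g := f) (f := fun y : E n => (min (len y) R' / len y) • y)
        (hf _ ?_) hc
      rw [hlen x hx0]
      exact le_min hx hRR.le
    · rcases lt_or_ge r R' with hr' | hr'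
      · have hr0 : 0 < r := hR.trans_le hr
        rcases hd r hr hr' with h4 | h4
        · exact Or.inl fun x hx => by
            rw [hin x (by rw [hx]; exact hr0) (by rw [hx]; exact hr'.le)]
            exact h4 x hx
        · exact Or.inr ⟨fun x hx => by
            rw [hin x (by rw [hx]; exact hr0) (by rw [hx]; exact hr'.le)]
            exact h4.1 x hx, fun _ => h4.2⟩
      · exact Or.inr ⟨fun x hx => hout x (by rw [hx]; exact hr'), fun h5 =>
          absurd h5 (not_lt.2 hr')⟩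
    · obtain ⟨x, hx, h4⟩ := h0
      exact ⟨x, hx, by rw [hin x (by rw [hx]; exact hR) (by rw [hx]; exact hRR.le)]; exact h4⟩
    · filter_upwards [eventually_ge_atTop R'] with r hr x hx
      exact hout x (by rw [hx]; exact hr)
  obtain ⟨r0, h1, h2, h3⟩ := key
  have hr0' : r0 < R' := by
    by_contra hcon
    push Not at hcon
    obtain ⟨y, hy⟩ := exists_len (n := n) hn (r := r0) (hR.le.trans h1)
    have := hout y (by rw [hy]; exact hcon)
    rw [h2 y hy] at this
    exact lt_irrefl _ this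
  have hr00 : 0 < r0 := hR.trans_le h1
  refine ⟨r0, h1, hr0', fun x hx => ?_, fun r hr hr' => ⟨fun x hx => ?_, (h3 r hr).2 hr'⟩⟩
  · rw [← hin x (by rw [hx]; exact hr00) (by rw [hx]; exact hr0'.le)]
    exact h2 x hx
  · rw [← hin x (by rw [hx]; exact hr00.trans hr) (by rw [hx]; exact hr'.le)]
    exact (h3 r hr).1 x hx

namespace Met

variable {g : Field n} {R : ℝ} (h : Met g R)
include h

variable {K : Field n} (hK : ∀ i j, Smooth (fun x => K x i j))

include hK in
/-- Monotonicity on an interval. -/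
theorem mono_to [Nontrivial (E n)] (hn : 3 ≤ n) {r0 r1 : ℝ} (hr0 : R ≤ r0)
    (hgt : ∀ r, r0 < r → r < r1 → DerR g K r) :
    MonotoneOn (MM g K) (Icc r0 r1) := by
  have h2 : (3 : ℝ) ≤ n := by exact_mod_cast hn
  have hm : 0 < (n : ℝ) - 1 := by linarith
  have hd : ∀ r, r0 < r → r < r1 → ∃ d, 0 ≤ d ∧ HasDerivAt (MM g K) d r := by
    intro r hr hr1
    have hRr : R < r := hr0.trans_lt hr
    have h3 := hgt r hr hr1
    have hρ := h.rhoA_deriv (by omega) hRr
    have hρ0 := h.rhoA_pos hRr.le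
    have hA := h.arA_pos hRr.le
    have hY := h.leafI_deriv (f := Qf g K) (fun x hx => h.cQf hK hx) hRr
    have h4 := ((hρ.rpow_const (p := (n : ℝ) - 2) (Or.inl hρ0.ne')).const_mul
      (((n : ℝ) - 1) ^ 2 * omega n)).sub (hρ.mul hY)
    refine ⟨_, ?_, h4⟩
    set A' := leafI g (Fx g) r with hA'
    set Y := leafI g (Qf g K) r with hYd
    set Y' := r ^ (n - 1) * sphI (fun x => ∑ i, pd i (fun y => sg g y * (Qf g K y * nu g i y)) x) r
      with hY'
    have h5 : Y' ≤ ((n : ℝ) - 1) * ((n : ℝ) - 2) / rhoA g r ^ 2 * A' -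
        A' / arA g r / ((n : ℝ) - 1) * Y := h3
    have h6 := h.rho_pow (by omega) hRr.le
    have h7 : rhoA g r ^ ((n : ℝ) - 1) = rhoA g r ^ ((n : ℝ) - 2) * rhoA g r := by
      rw [← Real.rpow_add_one hρ0.ne']; congr 1; ring
    rw [h7] at h6
    rw [Real.rpow_sub_one hρ0.ne']
    have h8 : omega n * rhoA g r ^ ((n : ℝ) - 2) = arA g r / rhoA g r := by
      rw [eq_div_iff hρ0.ne']; linarith
    have e : ((n : ℝ) - 1) ^ 2 * omega n *
        (rhoA g r * A' / (((n : ℝ) - 1) * arA g r) * ((n : ℝ) - 2) *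
          (rhoA g r ^ ((n : ℝ) - 2) / rhoA g r)) -
        (rhoA g r * A' / (((n : ℝ) - 1) * arA g r) * Y + rhoA g r * Y') =
        rhoA g r * (((n : ℝ) - 1) * ((n : ℝ) - 2) / rhoA g r ^ 2 * A' -
          A' / arA g r / ((n : ℝ) - 1) * Y - Y') := by
      have e1 : ((n : ℝ) - 1) ^ 2 * omega n *
        (rhoA g r * A' / (((n : ℝ) - 1) * arA g r) * ((n : ℝ) - 2) *
          (rhoA g r ^ ((n : ℝ) - 2) / rhoA g r)) = ((n : ℝ) - 1) * ((n : ℝ) - 2) * A' / arA g r *
            (omega n * rhoA g r ^ ((n : ℝ) - 2)) := by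
        field_simp
      rw [e1, h8]
      field_simp
      ring
    rw [e]
    exact mul_nonneg hρ0.le (by linarith)
  refine monotoneOn_of_deriv_nonneg (convex_Icc r0 r1)
    ((h.MM_contOn hK).mono fun r hr => hr0.trans hr.1) ?_ ?_
  · rw [interior_Icc]
    intro r hr
    obtain ⟨d, -, hd⟩ := hd r hr.1 hr.2
    exact hd.differentiableAt.differentiableWithinAt
  · rw [interior_Icc]
    intro r hr
    obtain ⟨d, hd0, hd⟩ := hd r hr.1 hr.2
    rw [hd.deriv]
    exact hd0

end Met

/-- **The bound for the area by the Hawking mass of a sphere.** -/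
theorem penrose_to (hn : 3 ≤ n) {X : Exterior n} (hT : X.Trapped) {R R' : ℝ}
    (hR : IsGreatest {r | ∃ x, X.F x = 0 ∧ len x = r} R) (hRR : R < R')
    (hc : ∀ r, R ≤ r → r < R' → (∀ x, len x = r → Hm X.g x ≤ |tauf X.g X.K x|) ∨
      ((∀ x, len x = r → |tauf X.g X.K x| < Hm X.g x) ∧ (R < r → DerR X.g X.K r)))
    (hend : ∀ x, len x = R' → |tauf X.g X.K x| < Hm X.g x) {m : ℝ}
    (hm : MM X.g X.K R' ≤ 2 * ((n : ℝ) - 1) ^ 2 * omega n * m) :
    X.Amin ≠ ⊤ ∧ 0 < m ∧
      (X.Amin.toReal / omega n) ^ (((n : ℝ) - 2) / (n - 1)) / 2 ≤ m := by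
  have : Nonempty (Fin n) := ⟨⟨0, by omega⟩⟩
  have : Nontrivial (E n) := inferInstance
  have hn3 : (3 : ℝ) ≤ n := by exact_mod_cast hn
  have hω : 0 < omega n := Met.omega_pos
  have h := met_of (by omega) hR
  have hK := fun i j => (X.smooth i j).2
  obtain ⟨r0, hr0, hr1, hz, hgt⟩ := exists_last_to (by omega) h.hR hRR
    (f := fun x => |tauf X.g X.K x| - Hm X.g x) (P := fun r => R < r → DerR X.g X.K r)
    (fun x hx => ((h.ctauf hK hx).continuousAt.abs).sub (h.cHm hx).continuousAt)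
    (fun r hr hr' => by
      rcases hc r hr hr' with h1 | h1
      · exact Or.inl fun x hx => sub_nonneg.2 (h1 x hx)
      · exact Or.inr ⟨fun x hx => sub_neg.2 (h1.1 x hx), h1.2⟩)
    (touch (by omega) hT hR)
    (fun x hx => sub_neg.2 (hend x hx))
  have h1 : ((n : ℝ) - 1) ^ 2 * omega n * rhoA X.g r0 ^ ((n : ℝ) - 2) ≤ MM X.g X.K R' := by
    have h2 := h.mono_to hK hn hr0 (r1 := R')
      (fun r hr hr' => (hgt r hr hr').2 (hr0.trans_lt hr)) ⟨le_rfl, hr1.le⟩ ⟨hr1.le, le_rfl⟩ hr1.le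
    refine le_trans (le_of_eq ?_) h2
    unfold MM
    rw [h.yyQ_zero (h.hR.le.trans hr0) fun x hx => sub_eq_zero.1 (hz x hx)]
    ring
  have h1' := h1.trans hm
  have hle : rhoA X.g r0 ^ ((n : ℝ) - 2) ≤ 2 * m := by
    have h2 : 0 < ((n : ℝ) - 1) ^ 2 * omega n := by
      have : 0 < (n : ℝ) - 1 := by linarith
      positivity
    refine le_of_mul_le_mul_left ?_ h2
    linarith
  have hρ := h.rhoA_pos hr0
  have hAm : X.Amin ≤ ENNReal.ofReal (omega n * rhoA X.g r0 ^ ((n : ℝ) - 1)) := by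
    rw [h.rho_pow (by omega) hr0]
    exact amin_le (by omega) hR hr0
  obtain ⟨h1, h2, h3⟩ := Vale.Agent.P366.T2.conclude hn (P := fun _ : Fin n => 0) rfl hρ hAm hle
  simp only [ne_eq, OfNat.ofNat_ne_zero, not_false_eq_true, zero_pow, Finset.sum_const_zero,
    Real.sqrt_zero, sub_zero] at h2 h3
  rw [Real.sqrt_sq h2.le] at h3
  exact ⟨h1, h2, h3⟩

end Vale.Agent.H106
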