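import Vale.Agent.P366.H177.GB8

/-! The Gauss-Bonnet theorem for general leaves, `n = 3`: algebra. -/

open MeasureTheory Metric Filter Topology Set
open scoped ContDiff ENNReal Matrix

noncomputable section
namespace Vale.Agent.H106
open Vale.Agent.H177 (M3 Tan cr)

section

variable {P J P' J' P1 J1 P2 J2 G1 G2 Γ : M3}

/-- the form on tangent vectors -/
def FF (J P1 J1 P2 J2 : M3) : ℝ :=
  (J * (J1 * J2 - J2 * J1)).trace - 3 * (J * (P1 * P2 - P2 * P1)).trace

lemma FF_gauge (hP : P * P = P) (hPJ : P * J = J) (hJP : J * P = J) (hJJ : J * J = -P)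
    (T : Tan P J P' J') : FF J P' J' (Γ * P - P * Γ) (Γ * J - J * Γ) = -4 * (J' * Γ).trace := by
  have a0 : P * (P' * P) = 0 := by
    have h1 : P * (P' * P + P * P') = P * P' := by rw [T.a]
    rw [mul_add, ← mul_assoc P P P', hP] at h1
    exact add_eq_right.1 h1
  have a1 : J * (P' * P) = 0 := by
    calc J * (P' * P) = J * P * (P' * P) := by rw [hJP]
      _ = 0 := by rw [mul_assoc, a0, mul_zero]
  have a2 : P * (P' * J) = 0 := by
    calc P * (P' * J) = P * (P' * (P * J)) := by rw [hPJ]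
      _ = P * (P' * P) * J := by simp only [mul_assoc]
      _ = 0 := by rw [a0, zero_mul]
  have e1 : (J * (J' * (Γ * J - J * Γ) - (Γ * J - J * Γ) * J')).trace =
      ((J * J * J' - 2 • (J * J' * J) + J' * (J * J)) * Γ).trace := by
    simp only [mul_sub, sub_mul, add_mul, smul_mul_assoc, Matrix.trace_sub, Matrix.trace_add,
      Matrix.trace_smul]
    have t1 : (J * (J' * (Γ * J))).trace = (J * J * J' * Γ).trace := by
      rw [← mul_assoc J' Γ J, ← mul_assoc J (J' * Γ) J, Matrix.trace_mul_comm]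
      simp only [mul_assoc]
    have t2 : (J * (J' * (J * Γ))).trace = (J * J' * J * Γ).trace := by simp only [mul_assoc]
    have t3 : (J * (Γ * J * J')).trace = (J * J' * J * Γ).trace := by
      have : J * (Γ * J * J') = (J * Γ) * (J * J') := by simp only [mul_assoc]
      rw [this, Matrix.trace_mul_comm]
      simp only [mul_assoc]
    have t4 : (J * (J * Γ * J')).trace = (J' * (J * J) * Γ).trace := by
      have : J * (J * Γ * J') = (J * J * Γ) * J' := by simp only [mul_assoc]
      rw [this, Matrix.trace_mul_comm]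
      simp only [mul_assoc]
    rw [t1, t2, t3, t4, two_nsmul]
    ring
  have e2 : (J * (P' * (Γ * P - P * Γ) - (Γ * P - P * Γ) * P')).trace =
      ((J * P' + P' * J) * Γ).trace := by
    simp only [mul_sub, sub_mul, add_mul, Matrix.trace_sub, Matrix.trace_add]
    have t1 : (J * (P' * (Γ * P))).trace = (J * P' * Γ).trace := by
      have : J * (P' * (Γ * P)) = (J * P' * Γ) * P := by simp only [mul_assoc]
      rw [this, Matrix.trace_mul_comm]
      rw [← mul_assoc, ← mul_assoc, hPJ]
    have t2 : (J * (P' * (P * Γ))).trace = 0 := by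
      have : J * (P' * (P * Γ)) = (J * (P' * P)) * Γ := by simp only [mul_assoc]
      rw [this, a1, zero_mul, Matrix.trace_zero]
    have t3 : (J * (Γ * P * P')).trace = 0 := by
      have : J * (Γ * P * P') = (J * Γ) * (P * P') := by simp only [mul_assoc]
      rw [this, Matrix.trace_mul_comm]
      have : P * P' * (J * Γ) = (P * (P' * J)) * Γ := by simp only [mul_assoc]
      rw [this, a2, zero_mul, Matrix.trace_zero]
    have t4 : (J * (P * Γ * P')).trace = (P' * J * Γ).trace := by
      have : J * (P * Γ * P') = (J * P * Γ) * P' := by simp only [mul_assoc]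
      rw [this, hJP, Matrix.trace_mul_comm]
      simp only [mul_assoc]
    rw [t1, t2, t3, t4]
    ring
  have e3 : J * J * J' - 2 • (J * J' * J) + J' * (J * J) =
      -(4 : ℝ) • J' + (3 : ℝ) • (J * P' + P' * J) := by
    have h1 : J * J' * J = -(P' * J) + J' * P := by
      have h2 : J * J' = -P' - J' * J := by rw [← T.d]; abel
      rw [h2, sub_mul, neg_mul, mul_assoc J' J J, hJJ, mul_neg, sub_neg_eq_add]
    have b : P * J' = J' - P' * J := by
      rw [eq_sub_iff_add_eq, add_comm]
      exact T.b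
    have c : J' * P = J' - J * P' := by
      rw [eq_sub_iff_add_eq]
      exact T.c
    rw [h1, hJJ, neg_mul, mul_neg, b, c]
    module
  unfold FF
  rw [e1, e2, e3, add_mul, Matrix.trace_add, smul_mul_assoc, smul_mul_assoc, Matrix.trace_smul,
    Matrix.trace_smul, smul_eq_mul, smul_eq_mul]
  ring

lemma tan_gauge (hP : P * P = P) (hPJ : P * J = J) (hJP : J * P = J) (hJJ : J * J = -P) :
    Tan P J (Γ * P - P * Γ) (Γ * J - J * Γ) := by
  refine ⟨?_, ?_, ?_, ?_⟩
  · rw [sub_mul, mul_sub, mul_assoc Γ P P, hP, ← mul_assoc P P Γ, hP, mul_assoc P Γ P]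
    abel
  · rw [sub_mul, mul_sub, mul_assoc Γ P J, hPJ, ← mul_assoc P J Γ, hPJ, mul_assoc P Γ J]
    abel
  · rw [sub_mul, mul_sub, mul_assoc Γ J P, hJP, ← mul_assoc J P Γ, hJP, mul_assoc J Γ P]
    abel
  · rw [sub_mul, mul_sub, mul_assoc Γ J J, hJJ, ← mul_assoc J J Γ, hJJ, mul_assoc J Γ J]
    rw [mul_neg, neg_mul]
    abel

lemma FF_add_left (J P1 J1 P1' J1' P2 J2 : M3) :
    FF J (P1 + P1') (J1 + J1') P2 J2 = FF J P1 J1 P2 J2 + FF J P1' J1' P2 J2 := by
  unfold FF
  simp only [add_mul, mul_add, mul_sub, Matrix.trace_add, Matrix.trace_sub]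
  ring

lemma FF_add_right (J P1 J1 P2 J2 P2' J2' : M3) :
    FF J P1 J1 (P2 + P2') (J2 + J2') = FF J P1 J1 P2 J2 + FF J P1 J1 P2' J2' := by
  unfold FF
  simp only [add_mul, mul_add, mul_sub, Matrix.trace_add, Matrix.trace_sub]
  ring

lemma FF_anti (J P1 J1 P2 J2 : M3) : FF J P2 J2 P1 J1 = -FF J P1 J1 P2 J2 := by
  unfold FF
  simp only [mul_sub, Matrix.trace_sub]
  ring

/-- **Change of the connection.** -/
theorem FF_conn (hP : P * P = P) (hPJ : P * J = J) (hJP : J * P = J) (hJJ : J * J = -P)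
    (T1 : Tan P J P1 J1) (T2 : Tan P J P2 J2) :
    FF J (P1 + (G1 * P - P * G1)) (J1 + (G1 * J - J * G1)) (P2 + (G2 * P - P * G2))
      (J2 + (G2 * J - J * G2)) = FF J P1 J1 P2 J2 - 4 * (J1 * G2).trace + 4 * (J2 * G1).trace +
        4 * (J * (G1 * G2 - G2 * G1)).trace := by
  have h1 := FF_gauge (Γ := G2) hP hPJ hJP hJJ T1
  have h2 := FF_gauge (Γ := G1) hP hPJ hJP hJJ T2
  have h3 := FF_gauge (Γ := G2) hP hPJ hJP hJJ (tan_gauge (Γ := G1) hP hPJ hJP hJJ)
  have h4 : FF J (G1 * P - P * G1) (G1 * J - J * G1) P2 J2 = 4 * (J2 * G1).trace := by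
    rw [FF_anti, h2]; ring
  have h6 : ((G1 * J - J * G1) * G2).trace = -(J * (G1 * G2 - G2 * G1)).trace := by
    rw [sub_mul, mul_sub, Matrix.trace_sub, Matrix.trace_sub]
    have t1 : (G1 * J * G2).trace = (J * (G2 * G1)).trace := by
      rw [mul_assoc, Matrix.trace_mul_comm, mul_assoc]
    rw [t1, mul_assoc]
    ring
  rw [FF_add_left, FF_add_right, FF_add_right, h1, h4, h3, h6]
  ring

end

end Vale.Agent.H106
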