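import Vale.Agent.P366.R2.H106.GBa

/-! The Gauss-Bonnet theorem for general leaves, `n = 3`: cross products. -/

open MeasureTheory Metric Filter Topology Set
open scoped ContDiff ENNReal Matrix

noncomputable section
namespace Vale.Agent.H106
open Vale.Agent.H177 (M3 Tan cr)

/-- triple product -/
def tp (a b c : Fin 3 → ℝ) : ℝ :=
  a 0 * (b 1 * c 2 - b 2 * c 1) + a 1 * (b 2 * c 0 - b 0 * c 2) + a 2 * (b 0 * c 1 - b 1 * c 0)

/-- rank one matrices -/
def rk (a b : Fin 3 → ℝ) : M3 := fun i j => a i * b j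

/-- matrix times vector -/
def mv (M : M3) (v : Fin 3 → ℝ) : Fin 3 → ℝ := fun i => ∑ j, M i j * v j

/-- dot product -/
def dp (a b : Fin 3 → ℝ) : ℝ := ∑ i, a i * b i

section

variable {M U G : M3} {v w a b c ν m : Fin 3 → ℝ} {d : ℝ}

lemma cr_M : Mᵀ * cr v + cr v * M + cr (mv M v) = M.trace • cr v := by
  funext i j
  fin_cases i <;> fin_cases j <;>
    simp [cr, mv, Matrix.mul_apply, Fin.sum_univ_three, Matrix.trace_fin_three, Matrix.vecMul,
      dotProduct] <;> ring

lemma cr_cr : cr a * cr b = rk b a - dp a b • 1 := by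
  funext i j
  fin_cases i <;> fin_cases j <;>
    simp [cr, rk, dp, Matrix.mul_apply, Fin.sum_univ_three] <;> ring

lemma mul_rk : M * rk a b = rk (mv M a) b := by
  funext i j
  simp only [Matrix.mul_apply, rk, mv, Finset.sum_mul, mul_assoc]

lemma rk_mul : rk a b * M = rk a (mv Mᵀ b) := by
  funext i j
  simp only [Matrix.mul_apply, rk, mv, Finset.mul_sum, Matrix.transpose_apply]
  exact Finset.sum_congr rfl fun k _ => by ring

lemma rk_rk : rk a b * rk v w = dp b v • rk a w := by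
  funext i j
  simp only [Matrix.mul_apply, rk, dp, Matrix.smul_apply, smul_eq_mul, Finset.sum_mul]
  exact Finset.sum_congr rfl fun k _ => by ring

lemma trace_rk : (rk a b).trace = dp a b := rfl

lemma dp_comm : dp a b = dp b a := Finset.sum_congr rfl fun i _ => mul_comm _ _

lemma dp_mv : dp a (mv M b) = dp (mv Mᵀ a) b := by
  unfold dp mv
  simp only [Finset.mul_sum, Finset.sum_mul, Matrix.transpose_apply]
  rw [Finset.sum_comm]
  exact Finset.sum_congr rfl fun i _ => Finset.sum_congr rfl fun j _ => by ring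

lemma mv_mv {N : M3} : mv M (mv N a) = mv (M * N) a := by
  funext i
  simp only [mv, Matrix.mul_apply, Finset.mul_sum, Finset.sum_mul]
  rw [Finset.sum_comm]
  exact Finset.sum_congr rfl fun i _ => Finset.sum_congr rfl fun j _ => by ring

lemma mv_one : mv 1 a = a := by
  funext i
  simp [mv, Matrix.one_apply]

lemma dp_cr : dp a (mv (cr b) c) = -tp b a c := by
  simp [dp, mv, cr, tp, Fin.sum_univ_three]
  ring

lemma U_cr_U (hs : Uᵀ = U) : U * cr v * U = cr (mv U.adjugate v) := by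
  have s : ∀ i j, U i j = U j i := fun i j => by
    have := congrFun (congrFun hs j) i
    rwa [Matrix.transpose_apply] at this
  rw [Matrix.adjugate_fin_three]
  funext i j
  fin_cases i <;> fin_cases j <;>
    simp [cr, mv, Matrix.mul_apply, Fin.sum_univ_three, s 1 0, s 2 0, s 2 1] <;> ring

/-- the product of cross products -/
lemma LL (hs : Uᵀ = U) (hUG : U * G = 1) (hd : d * d * U.det = 1) :
    (d • (U * cr v)) * (d • (U * cr w)) = rk w (mv G v) - dp (mv G v) w • 1 := by
  have hadj : U.adjugate = U.det • G := by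
    calc U.adjugate = U.adjugate * (U * G) := by rw [hUG, mul_one]
      _ = U.det • G := by rw [← mul_assoc, Matrix.adjugate_mul, Matrix.smul_mul, one_mul]
  have e : (d • (U * cr v)) * (d • (U * cr w)) = (d * d) • ((U * cr v * U) * cr w) := by
    rw [Matrix.smul_mul, Matrix.mul_smul, smul_smul]
    simp only [mul_assoc]
  have e2 : cr (mv U.adjugate v) = U.det • cr (mv G v) := by
    rw [hadj]
    funext i j
    fin_cases i <;> fin_cases j <;> simp [cr, mv, Fin.sum_univ_three] <;> ring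
  rw [e, U_cr_U hs, e2, Matrix.smul_mul, smul_smul, hd, one_smul, cr_cr]

lemma trace_J_rk (hs : Uᵀ = U) (hUG : U * G = 1) (hGs : Gᵀ = G) :
    ((d • (U * cr ν)) * rk a (mv G b)).trace = -(d * tp ν b a) := by
  rw [Matrix.smul_mul, mul_rk, Matrix.trace_smul, trace_rk, smul_eq_mul]
  have e1 : dp (mv (U * cr ν) a) (mv G b) = dp b (mv (cr ν) a) := by
    have hGU : G * U = 1 := mul_eq_one_comm.1 hUG
    rw [dp_comm, dp_comm (a := mv G b), dp_mv, hGs, ← mv_mv, mv_mv (M := G), hGU, mv_one, dp_comm]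
  rw [e1, dp_cr]
  ring

lemma tp_swap : tp ν b a = -tp ν a b := by unfold tp; ring

/-- **The form of the metric connection.** -/
theorem FF_metric (hs : Uᵀ = U) (hUG : U * G = 1) (hGs : Gᵀ = G) (hd : d * d * U.det = 1)
    (hν : dp (mv G ν) ν = 1) (ha : dp (mv G ν) a = 0) (hb : dp (mv G ν) b = 0) :
    FF (d • (U * cr ν)) (-(rk a (mv G ν) + rk ν (mv G a))) (d • (U * cr a))
      (-(rk b (mv G ν) + rk ν (mv G b))) (d • (U * cr b)) = -(8 * (d * tp ν a b)) := by
  have ha' : dp (mv G a) ν = 0 := by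
    rw [dp_comm, dp_mv, hGs]; exact ha
  have hb' : dp (mv G b) ν = 0 := by
    rw [dp_comm, dp_mv, hGs]; exact hb
  have hab : dp (mv G a) b = dp (mv G b) a := by
    rw [dp_comm (a := mv G b), dp_mv, hGs]
  have e1 : (d • (U * cr a)) * (d • (U * cr b)) - (d • (U * cr b)) * (d • (U * cr a)) =
      rk b (mv G a) - rk a (mv G b) := by
    rw [LL hs hUG hd, LL hs hUG hd, hab]
    abel
  have e2 : (-(rk a (mv G ν) + rk ν (mv G a))) * (-(rk b (mv G ν) + rk ν (mv G b))) -
      (-(rk b (mv G ν) + rk ν (mv G b))) * (-(rk a (mv G ν) + rk ν (mv G a))) =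
      rk a (mv G b) - rk b (mv G a) := by
    simp only [neg_mul, mul_neg, add_mul, mul_add, rk_rk, hν, ha, hb, ha', hb', hab,
      zero_smul, one_smul]
    abel
  unfold FF
  rw [e1, e2, mul_sub, mul_sub, Matrix.trace_sub, Matrix.trace_sub, trace_J_rk hs hUG hGs,
    trace_J_rk hs hUG hGs, tp_swap (b := b) (a := a)]
  ring

/-! ### contraction of the curvature -/

/-- the contraction identity -/
lemma contract (X : Fin 3 → Fin 3 → M3) (n : Fin 3 → ℝ)
    (hX : ∀ i j, X i j = -X j i) (hX' : ∀ i j a b, X i j a b = -X i j b a) :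
    n 0 * (cr ν * X 1 2).trace + n 1 * (cr ν * X 2 0).trace + n 2 * (cr ν * X 0 1).trace =
      dp n ν * (∑ i, ∑ j, X i j i j) - 2 * ∑ i, ∑ k, ν i * n k * ∑ j, X i j k j := by
  have h0 : ∀ i a b, X i i a b = 0 := fun i a b => by
    have := congrFun (congrFun (hX i i) a) b
    rw [Matrix.neg_apply] at this
    linarith
  have h1 : ∀ i j a, X i j a a = 0 := fun i j a => by
    have := hX' i j a a
    linarith
  have h2 : ∀ a b, X 2 1 a b = -X 1 2 a b := fun a b => by
    have := congrFun (congrFun (hX 2 1) a) b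
    rwa [Matrix.neg_apply] at this
  have h3 : ∀ a b, X 1 0 a b = -X 0 1 a b := fun a b => by
    have := congrFun (congrFun (hX 1 0) a) b
    rwa [Matrix.neg_apply] at this
  have h4 : ∀ a b, X 0 2 a b = -X 2 0 a b := fun a b => by
    have := congrFun (congrFun (hX 0 2) a) b
    rwa [Matrix.neg_apply] at this
  simp [Matrix.trace_fin_three, Fin.sum_univ_three, cr, dp, h0, h1, h2, h3, h4, Matrix.vecMul,
    dotProduct]
  simp only [hX' 1 2 1 0, hX' 1 2 2 0, hX' 1 2 2 1, hX' 2 0 1 0, hX' 2 0 2 0, hX' 2 0 2 1,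
    hX' 0 1 1 0, hX' 0 1 2 0, hX' 0 1 2 1]
  ring

/-- the cofactor identity -/
lemma cofac (S : Fin 3 → Fin 3 → ℝ) (n : Fin 3 → ℝ) (h : ∀ i, ∑ a, S i a * n a = 0) :
    n 0 * tp ν (S 1) (S 2) + n 1 * tp ν (S 2) (S 0) + n 2 * tp ν (S 0) (S 1) =
      dp n ν * ((∑ i, S i i) ^ 2 - ∑ i, ∑ j, S i j * S j i) / 2 := by
  have h0 := h 0
  have h1 := h 1
  have h2 := h 2
  simp only [Fin.sum_univ_three, tp, dp] at *
  linear_combination
    ((ν 0 * S 0 0 + ν 1 * S 1 0 + ν 2 * S 2 0) - (S 0 0 + S 1 1 + S 2 2) * ν 0) * h0 +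
    ((ν 0 * S 0 1 + ν 1 * S 1 1 + ν 2 * S 2 1) - (S 0 0 + S 1 1 + S 2 2) * ν 1) * h1 +
    ((ν 0 * S 0 2 + ν 1 * S 1 2 + ν 2 * S 2 2) - (S 0 0 + S 1 1 + S 2 2) * ν 2) * h2

end

end Vale.Agent.H106
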