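import Vale.Agent.P366.R2.H106.St
import Vale.Agent.P366.H177.Mom

/-! Time flat centred spheres: the momentum vanishes. -/

open MeasureTheory Metric Filter Topology Set Asymptotics
open scoped ContDiff ENNReal Matrix MatrixOrder

noncomputable section
namespace Vale.Agent.H106
open Vale.Agent.P366.Stmt Vale.Agent.P366.T2 Vale.Agent.T4
open Vale.Agent.P366.T1.A919 (far far_iff far_of far_gt far_nhds O O_iff O_of_bigO O_const O_zero
  O_of_le)
open Vale.Agent.P366 (sphI sphM av norm_smul_sph sphI_congr omega_pos')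
open Vale.Agent.H177 (artanh_bound O_row O_rad)

variable {n : ℕ} {g K : Field n} {R q : ℝ}

/-- the correction in the momentum -/
def Em (g K : Field n) (i : Fin n) (x : E n) : ℝ :=
  (∑ j, momT g K x i j * nx j x) - ad g x * bb g K i x -
    chi g K x * ∑ k, pd k (fun y => ad g y * Pu g k i y) x

namespace Met

variable (h : Met g R)
include h

lemma mono' {R' : ℝ} (hR : R ≤ R') : Met g R' :=
  ⟨h.hR.trans_le hR, h.gs, h.symm, fun x hx => h.pos x (hR.trans hx)⟩

lemma O_hs (hq : 0 < q) (D : Dec g q) (i j : Fin n) :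
    O (q + 1) (fun x => hs g i j x - dnx i j x) := by
  have h1 : O (q + 1) (fun x => -∑ k, chr g k i j x * nx k x) :=
    O.neg (O.sum fun k _ => (h.chr0 hq D k i j).mul' (O_nx k) (by linarith))
  refine h1.congr ?_
  filter_upwards [far_ne (n := n)] with x hx
  unfold hs
  rw [pd_nx hx]
  ring

lemma O_hs1 (hq : 0 < q) (D : Dec g q) (i j : Fin n) : O 1 (hs g i j) := by
  have h1 := ((h.O_hs hq D i j).mono (p := 1) (by linarith)).add (O_dnx i j)
  exact h1.congr (Eventually.of_forall fun x => by ring)

lemma O_pdnu (hq : 0 < q) (D : Dec g q) (k i : Fin n) :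
    O (q + 1) (fun x => pd k (nu g i) x - dnx k i x) := by
  have hti : O 0 (fun x => (√(ww g x))⁻¹) := (h.t0 hq D).bdd hq.le
  have hP0 : ∀ l, O 0 (fun x : E n => (if i = l then 1 else 0) - nx i x * nx l x) := fun l =>
    (O_const _).sub (O_nn i l)
  have h1 : O (q + 1) (fun x => (√(ww g x))⁻¹ *
      (∑ l, ((Pu g i l x - ((if i = l then 1 else 0) - nx i x * nx l x)) * hs g k l x +
        ((if i = l then 1 else 0) - nx i x * nx l x) * (hs g k l x - dnx k l x))) +
      ((√(ww g x))⁻¹ - 1) * dnx k i x - ∑ m, chr g i k m x * nu g m x) := by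
    refine O.sub (O.add (hti.mul' (q := q + 1) (O.sum fun l _ => O.add ?_ ?_) (by linarith)) ?_)
      (O.sum fun m _ => (h.chr0 hq D i k m).mul' (h.nub hq D m) (by linarith))
    · exact (h.Pu0 hq D i l).mul' (h.O_hs1 hq D k l) (by linarith)
    · exact (hP0 l).mul' (h.O_hs hq D k l) (by linarith)
    · exact (h.t0 hq D).mul' (O_dnx k i) (by linarith)
  refine h1.congr ?_
  filter_upwards [far_gt (n := n) R, far_ne (n := n)] with x hx hx0
  have hx' : R ≤ len x := le_of_lt hx
  have h2 := h.cv_nu hx' k i
  unfold cv at h2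
  have e1 : ∑ l, ((Pu g i l x - ((if i = l then 1 else 0) - nx i x * nx l x)) * hs g k l x +
        ((if i = l then 1 else 0) - nx i x * nx l x) * (hs g k l x - dnx k l x)) =
      (∑ l, Pu g i l x * hs g k l x) - dnx k i x := by
    have e2 : ∀ l, (Pu g i l x - ((if i = l then 1 else 0) - nx i x * nx l x)) * hs g k l x +
        ((if i = l then 1 else 0) - nx i x * nx l x) * (hs g k l x - dnx k l x) =
        Pu g i l x * hs g k l x - ((if i = l then 1 else 0) * dnx k l x -
          nx i x * (nx l x * dnx k l x)) := fun l => by ring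
    simp only [e2, Finset.sum_sub_distrib, ← Finset.mul_sum, sum_nx_dnx hx0]
    simp
  rw [e1]
  have e3 : pd k (nu g i) x = (∑ l, Pu g i l x * hs g k l x) / √(ww g x) -
      ∑ m, chr g i k m x * nu g m x := by linarith
  rw [e3]
  ring

lemma O_pdPu (hq : 0 < q) (D : Dec g q) (k j i : Fin n) :
    O (q + 1) (fun x => pd k (Pu g j i) x + (dnx k j x * nx i x + nx j x * dnx k i x)) := by
  have hup : O (q + 1) (pd k (up g j i)) := by
    have h1 : O (q + 1) (fun x => -∑ l, (chr g j k l x * up g l i x +
        chr g i k l x * up g l j x)) :=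
      O.neg (O.sum fun l _ => ((h.chr0 hq D j k l).mul' (h.upb hq D l i) (by linarith)).add
        ((h.chr0 hq D i k l).mul' (h.upb hq D l j) (by linarith)))
    refine h1.congr ?_
    filter_upwards [far_gt (n := n) R] with x hx
    exact (h.pd_up (le_of_lt hx) k j i).symm
  have hA := h.O_pdnu hq D k j
  have hB := h.O_pdnu hq D k i
  have h1 : O (q + 1) (fun x => pd k (up g j i) x -
      ((pd k (nu g j) x - dnx k j x) * nu g i x + dnx k j x * (nu g i x - nx i x) +
        (nu g j x * (pd k (nu g i) x - dnx k i x) + (nu g j x - nx j x) * dnx k i x))) :=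
    hup.sub (((hA.mul' (h.nub hq D i) (by linarith)).add
      ((O_dnx k j).mul' (h.nu0 hq D i) (by linarith))).add
      (((h.nub hq D j).mul' hB (by linarith)).add ((h.nu0 hq D j).mul' (O_dnx k i)
        (by linarith))))
  refine h1.congr ?_
  filter_upwards [far_gt (n := n) R] with x hx
  have hx' : R ≤ len x := le_of_lt hx
  have e : pd k (Pu g j i) x = pd k (up g j i) x - (pd k (nu g j) x * nu g i x +
      nu g j x * pd k (nu g i) x) :=
    ((HPf (h.cup hx' j i) k).sub ((HPf (h.cnu hx' j) k).mul (HPf (h.cnu hx' i) k))).pd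
  rw [e]
  ring

lemma O_pdad (hq : 0 < q) (D : Dec g q) (k : Fin n) : O (q + 1) (pd k (ad g)) := by
  have hL : O (q + 1) (Lg g k) := by
    have h1 : O (q + 1) (fun x => ∑ m, chr g m m k x) := O.sum fun m _ => h.chr0 hq D m m k
    refine h1.congr ?_
    filter_upwards [far_gt (n := n) R] with x hx
    exact h.sum_chr (le_of_lt hx) k
  have hti : O 0 (fun x => (√(ww g x))⁻¹) := (h.t0 hq D).bdd hq.le
  have hNb : ∀ l, O 0 (Nu g l) := fun l => by
    have h1 := ((h.Nu0 hq D l).mono hq.le).add (O_nx l)
    exact h1.congr (Eventually.of_forall fun x => by ring)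
  have hW : O (q + 1) (fun x => ∑ l, hs g k l x * Nu g l x) := by
    have h1 : O (q + 1) (fun x => ∑ l, ((hs g k l x - dnx k l x) * Nu g l x +
        dnx k l x * (Nu g l x - nx l x))) :=
      O.sum fun l _ => ((h.O_hs hq D k l).mul' (hNb l) (by linarith)).add
        ((O_dnx k l).mul' (h.Nu0 hq D l) (by linarith))
    refine h1.congr ?_
    filter_upwards [far_ne (n := n)] with x hx
    have e : ∀ l, (hs g k l x - dnx k l x) * Nu g l x + dnx k l x * (Nu g l x - nx l x) =
        hs g k l x * Nu g l x - nx l x * dnx k l x := fun l => by ring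
    simp only [e, Finset.sum_sub_distrib, sum_nx_dnx hx, sub_zero]
  have hsg : O 0 (sg g) := by
    have h1 : O 0 (fun x => (sg g x - 1 - 1 / 2 * trh g x) + 1 / 2 * trh g x + 1) :=
      (((h.sg1 hq D).mono (by linarith)).add
        (((O_trh D).const_mul (1 / 2)).mono hq.le)).add (O_const 1)
    exact h1.congr (Eventually.of_forall fun x => by ring)
  have hsb : O 0 (fun x => √(ww g x)) := (h.s0 hq D).bdd hq.le
  have h1 : O (q + 1) (fun x => sg g x * (Lg g k x * √(ww g x)) +
      sg g x * ((√(ww g x))⁻¹ * ∑ l, hs g k l x * Nu g l x)) :=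
    (hsg.mul' (q := q + 1) (hL.mul' hsb (by linarith)) (by linarith)).add
      (hsg.mul' (q := q + 1) (hti.mul' hW (by linarith)) (by linarith))
  refine h1.congr ?_
  filter_upwards [far_gt (n := n) R] with x hx
  have hx' : R ≤ len x := le_of_lt hx
  have hs0 := h.sq_pos hx'
  have h2 : HasDerivAt _ _ (0 : ℝ) := HPf (h.cww hx') k
  have h3 := h2.sqrt (by simp only [zero_smul, add_zero]; exact (h.ww_pos hx').ne')
  simp only [zero_smul, add_zero] at h3
  have h4 : HP k (fun y => √(ww g y)) _ x := h3
  have h5 : pd k (ad g) x = _ := ((h.HP_sg hx' k).mul h4).pd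
  rw [h5, h.pd_ww hx']
  field_simp

lemma O_div (hq : 0 < q) (D : Dec g q) (i : Fin n) :
    O (q + 1) (fun x => (∑ k, pd k (fun y => ad g y * Pu g k i y) x) +
      ((n : ℝ) - 1) / len x * nx i x) := by
  have h1 : O (q + 1) (fun x => ∑ k, (pd k (ad g) x * Pu g k i x +
      (ad g x - 1) * pd k (Pu g k i) x +
        (pd k (Pu g k i) x + (dnx k k x * nx i x + nx k x * dnx k i x)))) := by
    refine O.sum fun k _ => O.add (O.add ((h.O_pdad hq D k).mul' (h.Pub hq D k i) (by linarith))
      ?_) (h.O_pdPu hq D k k i)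
    have h2 : O 1 (pd k (Pu g k i)) := by
      have h3 := ((h.O_pdPu hq D k k i).mono (p := 1) (by linarith)).sub
        (((O_dnx k k).mul' (O_nx i) (r := 1) (by linarith)).add
          ((O_nx k).mul' (O_dnx k i) (r := 1) (by linarith)))
      exact h3.congr (Eventually.of_forall fun x => by ring)
    exact (h.ad0 hq D).mul' h2 (by linarith)
  refine h1.congr ?_
  filter_upwards [far_gt (n := n) R, far_ne (n := n)] with x hx hx0
  have hx' : R ≤ len x := le_of_lt hx
  have e1 : ∀ k, pd k (fun y => ad g y * Pu g k i y) x =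
      pd k (ad g) x * Pu g k i x + ad g x * pd k (Pu g k i) x := fun k =>
    ((HPf (h.cad hx') k).mul (HPf (h.cPu hx' k i) k)).pd
  have e2 : ∑ k, dnx k k x * nx i x = ((n : ℝ) - 1) / len x * nx i x := by
    rw [← Finset.sum_mul, sum_dnx hx0]
  have e3 : ∑ k, nx k x * dnx k i x = 0 := nx_dnx hx0 i
  have e4 : ∀ k, pd k (ad g) x * Pu g k i x + (ad g x - 1) * pd k (Pu g k i) x +
        (pd k (Pu g k i) x + (dnx k k x * nx i x + nx k x * dnx k i x)) =
      pd k (fun y => ad g y * Pu g k i y) x + dnx k k x * nx i x + nx k x * dnx k i x := by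
    intro k; rw [e1 k]; ring
  simp only [e4, Finset.sum_add_distrib, e2, e3]
  ring

/-- the ratio -/
lemma O_u (hn : 2 ≤ n) (hq : 0 < q) (D : Dec g q) (hK : ∀ i j, O (q + 1) (fun x => K x i j)) :
    O (q + q + 1) (fun x => ((n : ℝ) - 1) / len x * uf g K x - tauf g K x) ∧ O q (uf g K) := by
  have h2 : (2 : ℝ) ≤ n := by exact_mod_cast hn
  have hn1 : (0 : ℝ) < (n : ℝ) - 1 := by linarith
  have hT := h.tau0 hq D hK
  have hy := h.rH0 hq D
  have hy1 : O q (fun x : E n => len x * Hm g x / ((n : ℝ) - 1) - 1) := by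
    refine (hy.const_mul (1 / ((n : ℝ) - 1))).congr (Eventually.of_forall fun x => ?_)
    field_simp
  have hi : O 0 (fun x : E n => (len x * Hm g x / ((n : ℝ) - 1))⁻¹) := (hy1.inv hq).bdd hq.le
  have hlk : O q (fun x : E n => len x * tauf g K x) := O_len_mul hT (by linarith)
  have hne : ∀ᶠ x in far n, 0 < len x ∧ 0 < Hm g x := by
    filter_upwards [far_gt (n := n) 0,
      hy1.small hq (show (0 : ℝ) < 1 / 2 by norm_num)] with x h1 h3
    have h4 := (abs_le.1 h3).1
    have h5 : 0 < len x * Hm g x / ((n : ℝ) - 1) := by linarith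
    have h6 : 0 < len x * Hm g x := by
      have := mul_pos h5 hn1
      rwa [div_mul_cancel₀ _ hn1.ne'] at this
    exact ⟨h1, pos_of_mul_pos_right h6 (le_of_lt h1)⟩
  have hu : O q (uf g K) := by
    have h1 : O q (fun x : E n => 1 / ((n : ℝ) - 1) * (len x * tauf g K x *
        (len x * Hm g x / ((n : ℝ) - 1))⁻¹)) := (hlk.mul' hi (by linarith)).const_mul _
    refine h1.congr ?_
    filter_upwards [hne] with x hx
    have := hx.1.ne'
    have := hx.2.ne'
    unfold uf
    field_simp
  refine ⟨?_, hu⟩
  have h1 : O (q + q + 1) (fun x : E n => -(1 / len x * (uf g K x *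
      (len x * Hm g x - ((n : ℝ) - 1))))) :=
    O.neg (O_inv_len.mul' (hu.mul' hy (r := q + q) le_rfl) (by linarith))
  refine h1.congr ?_
  filter_upwards [hne] with x hx
  have := hx.1.ne'
  have := hx.2.ne'
  unfold uf
  field_simp
  ring

/-- the correction is of second order -/
theorem O_Em (hn : 2 ≤ n) (hq : 0 < q) (D : Dec g q) (hK : ∀ i j, O (q + 1) (fun x => K x i j))
    (hKs : ∀ x i j, K x i j = K x j i) (i : Fin n) : O (q + q + 1) (Em g K i) := by
  obtain ⟨hu1, hu⟩ := h.O_u hn hq D hK
  have hT := h.tau0 hq D hK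
  -- the rapidity
  have hχ : O (q + q) (fun x => chi g K x - uf g K x) := by
    refine O.of_abs ((hu.mul hu).const_mul 2) ?_
    filter_upwards [hu.small hq (show (0 : ℝ) < 1 / 2 by norm_num)] with x hx
    have h1 := artanh_bound hx
    refine h1.trans (le_of_eq ?_)
    rw [abs_mul, abs_two, abs_mul_self, sq]
  have hχ0 : O q (chi g K) := by
    refine ((hχ.mono (by linarith : q ≤ q + q)).add hu).congr (Eventually.of_forall fun x => ?_)
    ring
  -- the rows of `K`
  have hκ : ∀ k, O (q + q + 1) (fun x => kap g K k x - row K k x) := fun k => by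
    have h1 : O (q + q + 1) (fun x => ∑ j, K x k j * (nu g j x - nx j x)) :=
      O.sum fun j _ => (hK k j).mul' (h.nu0 hq D j) (by linarith)
    refine h1.congr (Eventually.of_forall fun x => ?_)
    unfold kap row
    rw [← Finset.sum_sub_distrib]
    exact Finset.sum_congr rfl fun j _ => by rw [hKs x j k]; ring
  have hκb : ∀ k, O (q + 1) (kap g K k) := fun k => by
    refine (((hκ k).mono (p := q + 1) (by linarith)).add (O_row hK k)).congr
      (Eventually.of_forall fun x => ?_)
    ring
  have hkn : O (q + q + 1) (fun x => kn g K x - rad K x) := by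
    have h1 : O (q + q + 1) (fun x => ∑ k, ((nu g k x - nx k x) * kap g K k x +
        nx k x * (kap g K k x - row K k x))) :=
      O.sum fun k _ => ((h.nu0 hq D k).mul' (hκb k) (by linarith)).add
        ((O_nx k).mul' (hκ k) (by linarith))
    refine h1.congr (Eventually.of_forall fun x => ?_)
    have e : rad K x = ∑ k, nx k x * row K k x := by
      unfold rad row
      refine Finset.sum_congr rfl fun k _ => ?_
      rw [Finset.mul_sum]
      exact Finset.sum_congr rfl fun l _ => by ring
    unfold kn
    rw [e, ← Finset.sum_sub_distrib]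
    exact Finset.sum_congr rfl fun k _ => by ring
  -- the tangential part
  have hb : O (q + q + 1) (fun x => bb g K i x - (row K i x - rad K x * nx i x)) := by
    have h1 : O (q + q + 1) (fun x => (∑ k, (Pu g i k x - ((if i = k then 1 else 0) -
        nx i x * nx k x)) * kap g K k x) + ∑ k, ((if i = k then 1 else 0) - nx i x * nx k x) *
          (kap g K k x - row K k x)) :=
      (O.sum fun k _ => (h.Pu0 hq D i k).mul' (hκb k) (by linarith)).add
        (O.sum fun k _ => ((O_const _).sub (O_nn i k)).mul' (hκ k) (by linarith))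
    refine h1.congr (Eventually.of_forall fun x => ?_)
    have e : rad K x = ∑ k, nx k x * row K k x := by
      unfold rad row
      refine Finset.sum_congr rfl fun k _ => ?_
      rw [Finset.mul_sum]
      exact Finset.sum_congr rfl fun l _ => by ring
    have e2 : row K i x - rad K x * nx i x =
        ∑ k, ((if i = k then 1 else 0) - nx i x * nx k x) * row K k x := by
      rw [e]
      simp only [sub_mul, Finset.sum_sub_distrib, ite_mul, one_mul, zero_mul, Finset.sum_ite_eq,
        Finset.mem_univ, if_true, Finset.sum_mul]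
      congr 1
      exact Finset.sum_congr rfl fun k _ => by ring
    rw [e2]
    unfold bb
    rw [← Finset.sum_add_distrib, ← Finset.sum_sub_distrib]
    exact Finset.sum_congr rfl fun k _ => by ring
  have hbb : O (q + 1) (bb g K i) :=
    O.sum fun k _ => (h.Pub hq D i k).mul' (hκb k) (by linarith)
  -- the momentum tensor
  have hgn : O q (fun x => (∑ j, g x i j * nx j x) - nx i x) := by
    have h1 : O q (fun x => ∑ j, (g x i j - if i = j then 1 else 0) * nx j x) :=
      O.sum fun j _ => (D.g0 i j).mul' (O_nx j) (by linarith)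
    refine h1.congr (Eventually.of_forall fun x => ?_)
    simp only [sub_mul, Finset.sum_sub_distrib, ite_mul, one_mul, zero_mul, Finset.sum_ite_eq,
      Finset.mem_univ, if_true]
  have hknb : O (q + 1) (kn g K) := by
    refine ((hkn.mono (p := q + 1) (by linarith)).add (O_rad hK)).congr
      (Eventually.of_forall fun x => ?_)
    ring
  have hm : O (q + q + 1) (fun x => (∑ j, momT g K x i j * nx j x) -
      (row K i x - (tauf g K x + rad K x) * nx i x)) := by
    have h1 : O (q + q + 1) (fun x => -((kn g K x - rad K x) * nx i x +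
        (tauf g K x + kn g K x) * ((∑ j, g x i j * nx j x) - nx i x))) :=
      O.neg ((hkn.mul' (O_nx i) (by linarith)).add ((hT.add hknb).mul' hgn (by linarith)))
    refine h1.congr (Eventually.of_forall fun x => ?_)
    have e : ∑ j, momT g K x i j * nx j x = row K i x - tr g K x * ∑ j, g x i j * nx j x := by
      unfold row momT
      rw [Finset.mul_sum, ← Finset.sum_sub_distrib]
      exact Finset.sum_congr rfl fun j _ => by ring
    rw [e, h.tr_split hKs]
    ring
  -- assembly
  have hdiv := h.O_div hq D i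
  have h1 : O (q + q + 1) (fun x => ((∑ j, momT g K x i j * nx j x) -
      (row K i x - (tauf g K x + rad K x) * nx i x)) -
      ((ad g x - 1) * bb g K i x + (bb g K i x - (row K i x - rad K x * nx i x))) -
      chi g K x * ((∑ k, pd k (fun y => ad g y * Pu g k i y) x) +
        ((n : ℝ) - 1) / len x * nx i x) +
      nx i x * ((((n : ℝ) - 1) / len x * uf g K x - tauf g K x) +
        ((n : ℝ) - 1) * (1 / len x * (chi g K x - uf g K x)))) := by
    refine O.add (O.sub (O.sub hm (((h.ad0 hq D).mul' hbb (by linarith)).add hb))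
      (hχ0.mul' hdiv (by linarith))) ((O_nx i).mul' (q := q + q + 1)
      (hu1.add ((O_inv_len.mul' hχ (r := q + q + 1) (by linarith)).const_mul _)) (by linarith))
  refine h1.congr (Eventually.of_forall fun x => ?_)
  unfold Em
  ring

/-- On time flat untrapped spheres the momentum flux is the integral of the correction. -/
theorem sphI_mom [Nontrivial (E n)] (hK : ∀ i j, Smooth (fun x => K x i j))
    (hlt : ∀ x, R ≤ len x → |tauf g K x| < Hm g x) {r : ℝ} (hr : R < r) (i : Fin n)
    (hT : leafI g (fun x => dt g x (fun k => alp g K k x)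
      (fun l => if l = i then 1 else 0)) r = 0) :
    sphI (fun x => ∑ j, momT g K x i j * nx j x) r = sphI (Em g K i) r := by
  have hr0 : 0 < r := h.hR.trans hr
  have hP : (r : ℝ) ^ (n - 1) ≠ 0 := by positivity
  have hxr : ∀ x : E n, len x = r → R ≤ len x := fun x hx => by rw [hx]; exact hr.le
  have t1 : sphI (fun x => ∑ k, pd k (fun y => sg g y * ((√(ww g y) * chi g K y) *
      ∑ l, Pu g k l y * (if l = i then 1 else 0))) x) r = 0 :=
    h.sphI_tan (f := fun y => √(ww g y) * chi g K y)
      (a := fun l _ => if l = i then (1 : ℝ) else 0)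
      (fun x hx => (h.csq hx).mul (h.cchi hK hx (hlt x hx))) (fun l x hx => contDiffAt_const) hr
  have t2 : sphI (fun x => ad g x * dt g x (fun k => alp g K k x)
      (fun l => if l = i then 1 else 0)) r = 0 := by
    unfold leafI at hT
    rcases mul_eq_zero.1 hT with h1 | h1
    · exact absurd h1 hP
    · exact h1
  have hpt : ∀ x, len x = r → (∑ j, momT g K x i j * nx j x) = 1 * Em g K i x +
      1 * (ad g x * dt g x (fun k => alp g K k x) (fun l => if l = i then 1 else 0)) +
      1 * (∑ k, pd k (fun y => sg g y * ((√(ww g y) * chi g K y) *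
      ∑ l, Pu g k l y * (if l = i then 1 else 0))) x) := by
    intro x hx
    have hx' := hxr x hx
    have e1 : ∀ k, pd k (fun y => sg g y * ((√(ww g y) * chi g K y) *
        ∑ l, Pu g k l y * (if l = i then 1 else 0))) x =
        pd k (chi g K) x * (ad g x * Pu g k i x) +
          chi g K x * pd k (fun y => ad g y * Pu g k i y) x := by
      intro k
      have e2 : (fun y => sg g y * ((√(ww g y) * chi g K y) *
          ∑ l, Pu g k l y * (if l = i then 1 else 0))) =
          fun y => chi g K y * (ad g y * Pu g k i y) := by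
        funext y
        simp only [mul_ite, mul_one, mul_zero, Finset.sum_ite_eq', Finset.mem_univ, if_true]
        unfold ad
        ring
      rw [e2]
      exact ((HPf (h.cchi hK hx' (hlt x hx')) k).mul
        (HPf ((h.cad hx').mul (h.cPu hx' k i)) k)).pd
    simp only [e1, Finset.sum_add_distrib, ← Finset.mul_sum]
    have e3 : dt g x (fun k => alp g K k x) (fun l => if l = i then 1 else 0) =
        bb g K i x - ∑ k, pd k (chi g K) x * Pu g k i x := by
      unfold dt bb alp
      rw [← Finset.sum_sub_distrib]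
      refine Finset.sum_congr rfl fun k _ => ?_
      simp only [mul_ite, mul_one, mul_zero, Finset.sum_ite_eq', Finset.mem_univ, if_true]
      rw [h.Pu_symm i k]
      ring
    have e4 : ∑ k, pd k (chi g K) x * (ad g x * Pu g k i x) =
        ad g x * ∑ k, pd k (chi g K) x * Pu g k i x := by
      rw [Finset.mul_sum]
      exact Finset.sum_congr rfl fun k _ => by ring
    rw [e3, e4]
    unfold Em
    ring
  have cM : ∀ x, len x = r → ContinuousAt (fun x => ∑ j, momT g K x i j * nx j x) x :=
    fun x hx => (ContDiffAt.sum fun j _ => (h.cmomT hK (hxr x hx) i j).mul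
      (h.cnx (hxr x hx) j)).continuousAt
  have cdiv : ∀ x, len x = r → ContinuousAt (fun x => ∑ k, pd k (fun y => ad g y *
      Pu g k i y) x) x := fun x hx => (ContDiffAt.sum fun k _ => contDiffAt_pd
        ((h.cad (hxr x hx)).mul (h.cPu (hxr x hx) k i)) k).continuousAt
  have cχ : ∀ x, len x = r → ContinuousAt (chi g K) x := fun x hx =>
    (h.cchi hK (hxr x hx) (hlt x (hxr x hx))).continuousAt
  have cE : ∀ x, len x = r → ContinuousAt (Em g K i) x := fun x hx =>
    ((cM x hx).sub ((h.cad (hxr x hx)).continuousAt.mul (h.cbb hK (hxr x hx) i).continuousAt)).sub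
      ((cχ x hx).mul (cdiv x hx))
  have cA : ∀ x, len x = r → ContinuousAt (fun x => ad g x * dt g x (fun k => alp g K k x)
      (fun l => if l = i then 1 else 0)) x := fun x hx =>
    ((h.cad (hxr x hx)).mul (h.cdt (b := fun l _ => if l = i then (1 : ℝ) else 0) (hxr x hx)
      (h.calp hK (hxr x hx) (hlt x (hxr x hx))) (fun _ => contDiffAt_const))).continuousAt
  have cB : ∀ x, len x = r → ContinuousAt (fun x => ∑ k, pd k (fun y => sg g y *
      ((√(ww g y) * chi g K y) * ∑ l, Pu g k l y * (if l = i then 1 else 0))) x) x :=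
    fun x hx => (ContDiffAt.sum fun k _ => contDiffAt_pd ((h.csg (hxr x hx)).mul
      (((h.csq (hxr x hx)).mul (h.cchi hK (hxr x hx) (hlt x (hxr x hx)))).mul
        (ContDiffAt.sum fun l _ => (h.cPu (hxr x hx) k l).mul contDiffAt_const))) k).continuousAt
  have e5 : sphI (fun x => ∑ j, momT g K x i j * nx j x) r = sphI (fun x => 1 * Em g K i x +
      1 * (ad g x * dt g x (fun k => alp g K k x) (fun l => if l = i then 1 else 0)) +
      1 * (∑ k, pd k (fun y => sg g y * ((√(ww g y) * chi g K y) *
      ∑ l, Pu g k l y * (if l = i then 1 else 0))) x)) r :=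
    sphI_congr hr0.le fun x hx => hpt x hx
  rw [e5]
  have e6 := int3 (integrable_at hr0.le cE) (integrable_at hr0.le cA) (integrable_at hr0.le cB)
    1 1 1
  refine e6.trans ?_
  change 1 * sphI (Em g K i) r + 1 * sphI (fun x => ad g x * dt g x (fun k => alp g K k x)
      (fun l => if l = i then 1 else 0)) r + 1 * sphI (fun x => ∑ k, pd k (fun y => sg g y *
      ((√(ww g y) * chi g K y) * ∑ l, Pu g k l y * (if l = i then 1 else 0))) x) r = _
  rw [t1, t2]
  ring

end Met

/-- time flat leaves, for the working definitions -/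
lemma flat_leafI {h : Met g R} {r : ℝ} (hr : R < r) (hT : LeafFlat g K r) {f : E n → ℝ}
    (hf : ∀ x, len x = r → ContDiffAt ℝ ∞ f x) :
    leafI g (fun x => dt g x (fun k => alp g K k x) (fun k => pd k f x)) r = 0 := by
  rw [← hT f hf]
  refine (h.int_eq hr.le fun x hx => ?_).symm
  have hx' : R < len x := by rw [hx]; exact hr
  rw [dot_eq g (h.ne_zero hx'.le)]
  congr 1
  funext k
  exact h.twist_eq K hx' k

/-- **The momentum vanishes** if the centred spheres of large radius are time flat. -/
theorem momentum_zero (hn : 3 ≤ n) {X : Exterior n} {R : ℝ} (h : Met X.g R) (hAF : X.IsAF)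
    (hT : ∀ᶠ r in atTop, LeafFlat X.g X.K r) {P : Fin n → ℝ} (hP : X.IsMomentum P) : P = 0 := by
  have : Nonempty (Fin n) := ⟨⟨0, by omega⟩⟩
  have : Nontrivial (E n) := inferInstance
  have hn3 : (3 : ℝ) ≤ n := by exact_mod_cast hn
  have hω : 0 < Vale.Agent.P366.omega n := omega_pos'
  obtain ⟨q, hq, hAFq⟩ := hAF
  have hq0 : 0 < q := by linarith
  have i0 : Fin n := ⟨0, by omega⟩
  have D : Dec X.g q := ⟨fun i j => O_of_bigO (hAFq i j i0 i0).1,
    fun i j k => O_of_bigO (hAFq i j k i0).2.1⟩
  have hKO : ∀ i j, O (q + 1) (fun x => X.K x i j) := fun i j =>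
    O_of_bigO (hAFq i j i0 i0).2.2.2.1
  have hK := fun i j => (X.smooth i j).2
  have hKs := fun x i j => (X.symm x i j).2
  obtain ⟨R1, hR1⟩ := eventually_atTop.1 ((h.far_lt (by omega) hq0 D hKO).and hT)
  set R' := max R R1 with hR'
  have h' : Met X.g R' := h.mono' (le_max_left _ _)
  have hlt : ∀ x : E n, R' ≤ len x → |tauf X.g X.K x| < Hm X.g x := fun x hx =>
    (hR1 _ ((le_max_right _ _).trans hx)).1 x rfl
  funext i
  refine tendsto_nhds_unique (hP i) ?_
  have h1 := av_O (h.O_Em (by omega) hq0 D hKO hKs i)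
  have h2 : Tendsto (fun r : ℝ => r ^ ((n : ℝ) - 1) * av (Em X.g X.K i) r) atTop (𝓝 0) := by
    have h3 := IsBigO.mul (isBigO_refl (fun r : ℝ => r ^ ((n : ℝ) - 1)) atTop) h1
    refine h3.trans_tendsto ?_
    refine (tendsto_rpow_neg_atTop (show 0 < 2 * q + 2 - n by linarith)).congr' ?_
    filter_upwards [eventually_gt_atTop 0] with r hr
    rw [← Real.rpow_add hr]
    congr 1
    ring
  have h4 := h2.mul_const (1 / ((n : ℝ) - 1))
  rw [zero_mul] at h4
  refine h4.congr' ?_
  filter_upwards [eventually_gt_atTop R', eventually_gt_atTop 0] with r hr hr0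
  have hTr := (hR1 r ((le_max_right _ _).trans hr.le)).2
  have h6 := flat_leafI (h := h') hr hTr (f := fun y : E n => y i) (fun x _ =>
    (EuclideanSpace.proj (𝕜 := ℝ) i).contDiff.contDiffAt)
  have h7 : leafI X.g (fun x => dt X.g x (fun k => alp X.g X.K k x)
      (fun l => if l = i then 1 else 0)) r = 0 := by
    refine (h'.leafI_congr hr.le fun x hx => ?_).trans h6
    congr 1
    funext l
    rw [(HP.coord l i x).pd]
    simp [eq_comm]
  have h5 := h'.sphI_mom hK hlt hr i h7
  unfold flx sphInt
  rw [Vale.Agent.P366.omega_eq, sph_eq_sphI]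
  have e1 : sphI (fun x => ∑ j, momT X.g X.K x i j * (x j / len x)) r =
      sphI (Em X.g X.K i) r := h5
  rw [e1]
  unfold av
  have e2 : r ^ ((n : ℝ) - 1) = r ^ (n - 1) := by
    rw [← Real.rpow_natCast]
    congr 1
    rw [Nat.cast_sub (by omega)]
    push_cast
    ring
  rw [e2]
  have hn1 : (n : ℝ) - 1 ≠ 0 := by linarith
  field_simp

end Vale.Agent.H106
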