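import Vale.Agent.P366.R2.H106.GBb
import Vale.Agent.P366.R2.H106.Mom

/-! The Gauss-Bonnet theorem for general leaves, `n = 3`: the fields. -/

open MeasureTheory Metric Filter Topology Set
open scoped ContDiff ENNReal Matrix

noncomputable section
namespace Vale.Agent.H106
open Vale.Agent.P366.Stmt Vale.Agent.T4
open Vale.Agent.P366.T2 hiding M3
open Vale.Agent.H177 (M3 Tan cr dM HPM SMat beta bv UF)
open Vale.Agent.P366 (sphI sphM av norm_smul_sph sphI_congr)

/-- the connection matrices -/
def Gam (g : Field 3) (i : Fin 3) (x : E 3) : M3 := fun a b => chr g a i b x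

/-- the unit normal as a vector -/
def nv (g : Field 3) (x : E 3) : Fin 3 → ℝ := fun i => nu g i x

/-- the covariant derivative of the unit normal -/
def Sn (g : Field 3) (i : Fin 3) (x : E 3) : Fin 3 → ℝ := fun a => cv g (nu g) i a x

/-- the covector of the normal -/
def ml (g : Field 3) (x : E 3) : Fin 3 → ℝ := fun i => nx i x / √(ww g x)

/-- the tangential projection -/
def PP (g : Field 3) (x : E 3) : M3 := 1 - rk (nv g x) (ml g x)

/-- the complex structure -/
def JJ (g : Field 3) (x : E 3) : M3 := sg g x • (UF g x * cr (nv g x))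

/-- curvature matrices -/
def Rm (g : Field 3) (i j : Fin 3) (x : E 3) : M3 :=
  dM i (Gam g j) x - dM j (Gam g i) x + (Gam g i x * Gam g j x - Gam g j x * Gam g i x)

namespace Met

variable {g : Field 3} {R : ℝ} (h : Met g R)
include h

lemma mat_symm (x : E 3) : (mat g x)ᵀ = mat g x := by
  funext i j
  exact h.symm x j i

lemma UF_symm (x : E 3) : (UF g x)ᵀ = UF g x := by
  funext i j
  rw [Matrix.transpose_apply]
  exact h.up_symm j i

lemma UF_mat {x : E 3} (hx : R ≤ len x) : UF g x * mat g x = 1 :=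
  Matrix.nonsing_inv_mul _ (h.det_ne hx).isUnit

lemma mat_UF {x : E 3} (hx : R ≤ len x) : mat g x * UF g x = 1 :=
  Matrix.mul_nonsing_inv _ (h.det_ne hx).isUnit

lemma sg_det {x : E 3} (hx : R ≤ len x) : sg g x * sg g x * (UF g x).det = 1 := by
  have h1 : sg g x * sg g x = (mat g x).det := Real.mul_self_sqrt (h.det_pos hx).le
  rw [h1, ← Matrix.det_mul, h.mat_UF hx, Matrix.det_one]

lemma mv_nv {x : E 3} (hx : R ≤ len x) : mv (mat g x) (nv g x) = ml g x := by
  funext i
  exact h.g_nu hx i

lemma dp_nv {x : E 3} (hx : R ≤ len x) : dp (ml g x) (nv g x) = 1 := by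
  unfold dp ml nv
  have e : ∀ i, nx i x / √(ww g x) * nu g i x = nu g i x * nx i x / √(ww g x) := fun i => by ring
  simp only [e]
  rw [← Finset.sum_div, h.nu_nx hx, div_self (h.sq_pos hx).ne']

lemma UF_ml {x : E 3} (hx : R ≤ len x) : mv (UF g x) (ml g x) = nv g x := by
  rw [← h.mv_nv hx, mv_mv, h.UF_mat hx, mv_one]

lemma dp_Sn {x : E 3} (hx : R ≤ len x) (i : Fin 3) : dp (ml g x) (Sn g i x) = 0 := by
  unfold dp ml Sn
  have e : ∀ a, nx a x / √(ww g x) * cv g (nu g) i a x =
      ∑ l, nx a x * Pu g a l x * (hs g i l x / √(ww g x) / √(ww g x)) := by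
    intro a
    rw [h.cv_nu hx, Finset.sum_div, Finset.mul_sum]
    exact Finset.sum_congr rfl fun l _ => by ring
  simp only [e]
  rw [Finset.sum_comm]
  refine Finset.sum_eq_zero fun l _ => ?_
  rw [← Finset.sum_mul, h.nx_Pu hx, zero_mul]

lemma PP_PP {x : E 3} (hx : R ≤ len x) : PP g x * PP g x = PP g x := by
  unfold PP
  rw [sub_mul, one_mul, mul_sub, mul_one, rk_rk, h.dp_nv hx, one_smul]
  abel

omit h in
lemma mv_cr_self (v : Fin 3 → ℝ) : mv (cr v) v = 0 := by
  funext i
  fin_cases i <;> simp [mv, cr, Fin.sum_univ_three] <;> ring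

lemma JJ_PP {x : E 3} : JJ g x * PP g x = JJ g x := by
  unfold PP
  rw [mul_sub, mul_one, mul_rk]
  have e : mv (JJ g x) (nv g x) = 0 := by
    unfold JJ
    have e1 : mv (sg g x • (UF g x * cr (nv g x))) (nv g x) =
        fun i => sg g x * mv (UF g x * cr (nv g x)) (nv g x) i := by
      funext i
      simp only [mv, Matrix.smul_apply, smul_eq_mul, Finset.mul_sum, mul_assoc]
    rw [e1, ← mv_mv, mv_cr_self]
    funext i
    simp [mv]
  rw [e]
  have e2 : rk (0 : Fin 3 → ℝ) (ml g x) = 0 := by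
    funext i j
    simp [rk]
  rw [e2, sub_zero]

lemma PP_JJ {x : E 3} (hx : R ≤ len x) : PP g x * JJ g x = JJ g x := by
  unfold PP
  rw [sub_mul, one_mul, rk_mul]
  have e : mv (JJ g x)ᵀ (ml g x) = 0 := by
    unfold JJ
    have e1 : mv (sg g x • (UF g x * cr (nv g x)))ᵀ (ml g x) =
        fun i => sg g x * mv ((cr (nv g x))ᵀ * (UF g x)ᵀ) (ml g x) i := by
      funext i
      rw [← Matrix.transpose_mul]
      simp only [mv, Matrix.transpose_apply, Matrix.smul_apply, smul_eq_mul, Finset.mul_sum,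
        mul_assoc]
    have e2 : (cr (nv g x))ᵀ = -cr (nv g x) := by
      funext i j
      fin_cases i <;> fin_cases j <;> simp [cr]
    rw [e1, h.UF_symm, ← mv_mv, h.UF_ml hx, e2]
    funext i
    have e3 := congrFun (mv_cr_self (nv g x)) i
    have e4 : mv (-cr (nv g x)) (nv g x) i = -mv (cr (nv g x)) (nv g x) i := by
      simp [mv]
    rw [e4, e3]
    simp
  rw [e]
  have e2 : rk (nv g x) (0 : Fin 3 → ℝ) = 0 := by
    funext i j
    simp [rk]
  rw [e2, sub_zero]

lemma JJ_JJ {x : E 3} (hx : R ≤ len x) : JJ g x * JJ g x = -PP g x := by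
  unfold JJ
  rw [LL (h.UF_symm x) (h.UF_mat hx) (h.sg_det hx), h.mv_nv hx, h.dp_nv hx, one_smul]
  unfold PP
  abel

/-! ### smoothness -/

lemma sUF {x : E 3} (hx : R ≤ len x) : SMat (UF g) x := fun i j => h.cup hx i j

lemma snv {x : E 3} (hx : R ≤ len x) (i : Fin 3) : ContDiffAt ℝ ∞ (fun y => nv g y i) x :=
  h.cnu hx i

lemma smat (x : E 3) : SMat (mat g) x := fun i j => (h.gs i j).contDiffAt

lemma sml {x : E 3} (hx : R ≤ len x) (i : Fin 3) : ContDiffAt ℝ ∞ (fun y => ml g y i) x :=
  (h.cnx hx i).div (h.csq hx) (h.sq_pos hx).ne'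

lemma sPP {x : E 3} (hx : R ≤ len x) : SMat (PP g) x := fun i j =>
  contDiffAt_const.sub ((h.snv hx i).mul (h.sml hx j))

lemma scr {x : E 3} (hx : R ≤ len x) : SMat (fun y => cr (nv g y)) x := by
  intro i j
  have e : ∀ k, ContDiffAt ℝ ∞ (fun y => nv g y k) x := fun k => h.snv hx k
  fin_cases i <;> fin_cases j
  · exact contDiffAt_const
  · exact (e 2).neg
  · exact e 1
  · exact e 2
  · exact contDiffAt_const
  · exact (e 0).neg
  · exact (e 1).neg
  · exact e 0
  · exact contDiffAt_const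

lemma sJJ {x : E 3} (hx : R ≤ len x) : SMat (JJ g) x := fun i j =>
  (h.csg hx).mul (((h.sUF hx).mul (h.scr hx)) i j)

lemma sGam {x : E 3} (hx : R ≤ len x) (i : Fin 3) : SMat (Gam g i) x := fun a b =>
  h.cchr hx a i b

/-! ### derivatives -/

lemma dUF {x : E 3} (hx : R ≤ len x) (k : Fin 3) :
    dM k (UF g) x = -(Gam g k x * UF g x + (Gam g k x * UF g x)ᵀ) := by
  funext i j
  have h1 := h.pd_up hx k i j
  show pd k (up g i j) x = _
  rw [h1, Matrix.neg_apply, Matrix.add_apply, Matrix.transpose_apply, Matrix.mul_apply,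
    Matrix.mul_apply, ← Finset.sum_add_distrib]
  rfl

lemma dmat {x : E 3} (hx : R < len x) (k : Fin 3) :
    dM k (mat g) x = (Gam g k x)ᵀ * mat g x + mat g x * Gam g k x := by
  have hx' := hx.le
  have h1 : HPM k (fun y => mat g y * UF g y) (dM k (mat g) x * UF g x +
      mat g x * dM k (UF g) x) x :=
    (HPM.of_smooth (h.smat x)).mul (HPM.of_smooth (h.sUF hx'))
  have h2 : HPM k (fun _ : E 3 => (1 : M3)) 0 x := fun i j => HP.const k _ x
  have h3 := (h1.congr (F1 := fun _ => (1 : M3)) (by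
    filter_upwards [near hx] with y hy
    exact (h.mat_UF hy).symm)).unique h2
  have h4 : dM k (mat g) x = -(mat g x * dM k (UF g) x) * mat g x := by
    calc dM k (mat g) x = dM k (mat g) x * (UF g x * mat g x) := by rw [h.UF_mat hx', mul_one]
      _ = (dM k (mat g) x * UF g x) * mat g x := by rw [mul_assoc]
      _ = _ := by rw [eq_neg_of_add_eq_zero_left h3]
  rw [h4, h.dUF hx', Matrix.transpose_mul, h.UF_symm, mul_neg, neg_neg, mul_add, add_mul]
  have e1 : mat g x * (Gam g k x * UF g x) * mat g x = mat g x * Gam g k x := by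
    calc mat g x * (Gam g k x * UF g x) * mat g x = mat g x * Gam g k x * (UF g x * mat g x) := by
          simp only [mul_assoc]
      _ = _ := by rw [h.UF_mat hx', mul_one]
  have e2 : mat g x * (UF g x * (Gam g k x)ᵀ) * mat g x = (Gam g k x)ᵀ * mat g x := by
    rw [← mul_assoc, h.mat_UF hx', one_mul]
  rw [e1, e2, add_comm]

/-- the covariant derivative of the projection -/
lemma dPP {x : E 3} (hx : R < len x) (k : Fin 3) :
    dM k (PP g) x + (Gam g k x * PP g x - PP g x * Gam g k x) =
      -(rk (Sn g k x) (ml g x) + rk (nv g x) (mv (mat g x) (Sn g k x))) := by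
  have hx' := hx.le
  have e1 : ∀ i, HP k (fun y => nv g y i) (pd k (nu g i) x) x := fun i => HPf (h.cnu hx' i) k
  have e2 : ∀ j, HP k (fun y => ml g y j) (∑ l, (dM k (mat g) x j l * nv g x l +
      mat g x j l * pd k (nu g l) x)) x := by
    intro j
    have h1 : HP k (fun y => ∑ l, mat g y j l * nv g y l) (∑ l, (dM k (mat g) x j l * nv g x l +
      mat g x j l * pd k (nu g l) x)) x := HP.sum Finset.univ fun l _ =>
        (HPM.of_smooth (k := k) (h.smat x) j l).mul (e1 l)
    refine h1.congr ?_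
    filter_upwards [near hx] with y hy
    exact (congrFun (h.mv_nv hy) j).symm
  have e3 : HPM k (PP g) (fun i j => -(pd k (nu g i) x * ml g x j + nv g x i *
      (∑ l, (dM k (mat g) x j l * nv g x l + mat g x j l * pd k (nu g l) x)))) x := by
    intro i j
    have h1 := (HP.const k ((1 : M3) i j) x).sub ((e1 i).mul (e2 j))
    rw [zero_sub] at h1
    exact h1
  rw [e3.eq]
  unfold PP
  rw [mul_sub, sub_mul, mul_one, one_mul, mul_rk, rk_mul]
  funext i j
  have hS : ∀ a, Sn g k x a = pd k (nu g a) x + mv (Gam g k x) (nv g x) a := fun a => rfl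
  have e4 : ∑ l, (dM k (mat g) x j l * nv g x l + mat g x j l * pd k (nu g l) x) =
      mv (Gam g k x)ᵀ (ml g x) j + mv (mat g x) (Sn g k x) j := by
    rw [h.dmat hx]
    have h5 : ∀ l, ((Gam g k x)ᵀ * mat g x + mat g x * Gam g k x) j l * nv g x l +
        mat g x j l * pd k (nu g l) x = ((Gam g k x)ᵀ * mat g x) j l * nv g x l +
          ((mat g x * Gam g k x) j l * nv g x l + mat g x j l * pd k (nu g l) x) := by
      intro l
      rw [Matrix.add_apply]
      ring
    simp only [h5, Finset.sum_add_distrib]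
    have h6 : ∑ l, ((Gam g k x)ᵀ * mat g x) j l * nv g x l = mv (Gam g k x)ᵀ (ml g x) j := by
      rw [← h.mv_nv hx', mv_mv]
      rfl
    have h7 : ∑ l, (mat g x * Gam g k x) j l * nv g x l =
        ∑ l, mat g x j l * mv (Gam g k x) (nv g x) l := by
      have := congrFun (mv_mv (M := mat g x) (N := Gam g k x) (a := nv g x)) j
      exact this.symm
    rw [h6, h7]
    have h8 : mv (mat g x) (Sn g k x) j = ∑ l, mat g x j l * pd k (nu g l) x +
        ∑ l, mat g x j l * mv (Gam g k x) (nv g x) l := by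
      unfold mv at *
      rw [← Finset.sum_add_distrib]
      exact Finset.sum_congr rfl fun l _ => by rw [hS l]; ring
    rw [h8]
    ring
  show (-(pd k (nu g i) x * ml g x j + nv g x i *
      (∑ l, (dM k (mat g) x j l * nv g x l + mat g x j l * pd k (nu g l) x)))) +
    (Gam g k x i j - rk (mv (Gam g k x) (nv g x)) (ml g x) i j -
      (Gam g k x i j - rk (nv g x) (mv (Gam g k x)ᵀ (ml g x)) i j)) =
    -(rk (Sn g k x) (ml g x) i j + rk (nv g x) (mv (mat g x) (Sn g k x)) i j)
  rw [e4]
  simp only [rk, hS]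
  ring

/-- the covariant derivative of the complex structure -/
lemma dJJ {x : E 3} (hx : R < len x) (k : Fin 3) :
    dM k (JJ g) x + (Gam g k x * JJ g x - JJ g x * Gam g k x) =
      sg g x • (UF g x * cr (Sn g k x)) := by
  have hx' := hx.le
  have e1 : ∀ i, HP k (fun y => nv g y i) (pd k (nu g i) x) x := fun i => HPf (h.cnu hx' i) k
  have ecr : HPM k (fun y => cr (nv g y)) (cr (fun i => pd k (nu g i) x)) x := by
    intro i j
    fin_cases i <;> fin_cases j
    · exact HP.const k 0 x
    · exact (e1 2).neg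
    · exact e1 1
    · exact e1 2
    · exact HP.const k 0 x
    · exact (e1 0).neg
    · exact (e1 1).neg
    · exact e1 0
    · exact HP.const k 0 x
  have hL : Lg g k x = (Gam g k x).trace := by
    rw [← h.sum_chr hx']
    unfold Matrix.trace Gam
    exact Finset.sum_congr rfl fun l _ => by
      rw [h.chr_symm hx' l l k]
      rfl
  have h2 := (HPM.of_smooth (k := k) (h.sUF hx')).mul ecr
  have h3 : HPM k (JJ g) ((sg g x * (Gam g k x).trace) • (UF g x * cr (nv g x)) +
      sg g x • (dM k (UF g) x * cr (nv g x) + UF g x * cr (fun i => pd k (nu g i) x))) x := by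
    intro i j
    have h4 := h.HP_sg hx' k
    rw [hL] at h4
    exact h4.mul (h2 i j)
  rw [h3.eq, h.dUF hx']
  have hS : Sn g k x = fun a => pd k (nu g a) x + mv (Gam g k x) (nv g x) a := rfl
  have ecS : cr (Sn g k x) = cr (fun i => pd k (nu g i) x) + cr (mv (Gam g k x) (nv g x)) := by
    rw [hS]
    funext i j
    fin_cases i <;> fin_cases j <;> simp [cr] <;> ring
  have ecM := cr_M (M := Gam g k x) (v := nv g x)
  have ecM' : cr (mv (Gam g k x) (nv g x)) = (Gam g k x).trace • cr (nv g x) -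
      (Gam g k x)ᵀ * cr (nv g x) - cr (nv g x) * Gam g k x := by
    rw [← ecM]; abel
  rw [ecS, ecM']
  unfold JJ
  rw [Matrix.transpose_mul, h.UF_symm]
  simp only [mul_add, mul_sub, add_mul, neg_mul, smul_mul_assoc, mul_smul_comm, smul_add,
    smul_sub, smul_neg, ← mul_assoc, mul_smul]
  abel

end Met

end Vale.Agent.H106
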