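import Vale.Agent.P366.R2.H106.GBc

/-! The Gauss-Bonnet theorem for general leaves, `n = 3`: the pointwise identity. -/

open MeasureTheory Metric Filter Topology Set
open scoped ContDiff ENNReal Matrix

noncomputable section
namespace Vale.Agent.H106
open Vale.Agent.P366.Stmt Vale.Agent.T4
open Vale.Agent.P366.T2 hiding M3
open Vale.Agent.H177 (M3 Tan cr dM HPM SMat beta bv UF nrmC dM_comm div_bv contDiffAt_beta)
open Vale.Agent.P366 (sphI sphM av norm_smul_sph sphI_congr)

lemma HPM_transpose {k : Fin 3} {F : E 3 → M3} {A : M3} {x : E 3} (h : HPM k F A x) :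
    HPM k (fun y => (F y)ᵀ) Aᵀ x := fun i j => h j i

/-- the connection form of the leaves -/
def tht (g : Field 3) (j : Fin 3) (x : E 3) : ℝ := (JJ g x * Gam g j x).trace

/-- the vector field whose divergence is the curl of the connection form -/
def VF (g : Field 3) : Fin 3 → E 3 → ℝ :=
  ![fun x => tht g 1 x * nx 2 x - tht g 2 x * nx 1 x,
    fun x => tht g 2 x * nx 0 x - tht g 0 x * nx 2 x,
    fun x => tht g 0 x * nx 1 x - tht g 1 x * nx 0 x]

namespace Met

variable {g : Field 3} {R : ℝ} (h : Met g R)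
include h

/-- the curvature is skew -/
lemma Rm_skew {x : E 3} (hx : R < len x) (i j : Fin 3) :
    Rm g i j x * UF g x + (Rm g i j x * UF g x)ᵀ = 0 := by
  have hx' := hx.le
  have e : ∀ i j, dM i (dM j (UF g)) x = -((dM i (Gam g j) x * UF g x +
      Gam g j x * dM i (UF g) x) + (dM i (Gam g j) x * UF g x +
      Gam g j x * dM i (UF g) x)ᵀ) := by
    intro i j
    have h1 : HPM i (fun y => Gam g j y * UF g y) (dM i (Gam g j) x * UF g x +
        Gam g j x * dM i (UF g) x) x :=
      (HPM.of_smooth (h.sGam hx' j)).mul (HPM.of_smooth (h.sUF hx'))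
    have h2 : HPM i (fun y => -(Gam g j y * UF g y + (Gam g j y * UF g y)ᵀ))
        (-((dM i (Gam g j) x * UF g x + Gam g j x * dM i (UF g) x) +
          (dM i (Gam g j) x * UF g x + Gam g j x * dM i (UF g) x)ᵀ)) x := by
      intro a b
      exact ((h1 a b).add ((HPM_transpose h1) a b)).neg
    refine (h2.congr ?_).eq
    filter_upwards [near hx] with y hy
    exact h.dUF hy j
  have h3 := dM_comm (h.sUF hx') i j
  rw [e i j, e j i] at h3
  rw [h.dUF hx', h.dUF hx'] at h3
  have h4 := neg_injective h3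
  unfold Rm
  simp only [Matrix.transpose_mul, Matrix.transpose_add, Matrix.transpose_neg,
    Matrix.transpose_sub, h.UF_symm, Matrix.transpose_transpose, mul_add, add_mul, sub_mul,
    mul_sub, mul_neg, neg_mul, mul_assoc] at h4 ⊢
  rw [← sub_eq_zero] at h4
  rw [← neg_eq_zero, ← h4]
  abel

lemma Rm_anti (x : E 3) (i j : Fin 3) : Rm g i j x = -Rm g j i x := by
  unfold Rm; abel

lemma ric_Rm {x : E 3} (hx : R ≤ len x) (i j : Fin 3) :
    ric g i j x = ∑ k, Rm g k j x k i := by
  unfold ric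
  refine Finset.sum_congr rfl fun k _ => ?_
  have e1 : Rm g k j x k i = pd k (chr g k j i) x - pd j (chr g k k i) x +
      ((∑ l, chr g k k l x * chr g l j i x) - ∑ l, chr g k j l x * chr g l k i x) := by
    unfold Rm
    rw [Matrix.add_apply, Matrix.sub_apply, Matrix.sub_apply, Matrix.mul_apply, Matrix.mul_apply]
    rfl
  rw [e1, h.pd_chr_symm hx k k j i, h.pd_chr_symm hx j k k i, ← Finset.sum_sub_distrib]
  congr 1
  exact Finset.sum_congr rfl fun l _ => by rw [h.chr_symm hx l j i, h.chr_symm hx l k i]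

/-- the curvature part -/
lemma curv_part {x : E 3} (hx : R < len x) :
    nx 0 x * (JJ g x * Rm g 1 2 x).trace + nx 1 x * (JJ g x * Rm g 2 0 x).trace +
      nx 2 x * (JJ g x * Rm g 0 1 x).trace =
    ad g x * (scal g x - 2 * ∑ i, ∑ j, ric g i j x * nu g i x * nu g j x) := by
  have hx' := hx.le
  have hX' : ∀ i j a b, (Rm g i j x * UF g x) a b = -(Rm g i j x * UF g x) b a := by
    intro i j a b
    have := congrFun (congrFun (h.Rm_skew hx i j) a) b
    rw [Matrix.add_apply, Matrix.transpose_apply, Matrix.zero_apply] at this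
    linarith
  have hX : ∀ i j, Rm g i j x * UF g x = -(Rm g j i x * UF g x) := by
    intro i j
    rw [h.Rm_anti x i j, neg_mul]
  have h1 := contract (ν := nv g x) (fun i j => Rm g i j x * UF g x) (fun i => nx i x) hX hX'
  have e1 : ∀ i j, (JJ g x * Rm g i j x).trace = sg g x * (cr (nv g x) *
      (Rm g i j x * UF g x)).trace := by
    intro i j
    unfold JJ
    rw [Matrix.smul_mul, Matrix.trace_smul, smul_eq_mul]
    congr 1
    rw [← mul_assoc (cr (nv g x)), Matrix.trace_mul_comm (cr (nv g x) * Rm g i j x), mul_assoc]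
  have e2 : dp (fun i => nx i x) (nv g x) = √(ww g x) := by
    rw [← h.nu_nx hx']
    exact dp_comm
  have e3 : ∑ i, ∑ j, (Rm g i j x * UF g x) i j = scal g x := by
    rw [scal_ric]
    simp only [h.ric_Rm hx', Matrix.mul_apply, Finset.mul_sum]
    calc ∑ i, ∑ j, ∑ b, Rm g i j x i b * UF g x b j
        = ∑ i, ∑ b, ∑ j, Rm g i j x i b * UF g x b j :=
          Finset.sum_congr rfl fun i _ => Finset.sum_comm
      _ = ∑ b, ∑ i, ∑ j, Rm g i j x i b * UF g x b j := Finset.sum_comm
      _ = ∑ b, ∑ j, ∑ i, Rm g i j x i b * UF g x b j :=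
          Finset.sum_congr rfl fun b _ => Finset.sum_comm
      _ = _ := Finset.sum_congr rfl fun b _ => Finset.sum_congr rfl fun j _ =>
          Finset.sum_congr rfl fun i _ => mul_comm _ _
  have e4 : ∑ i, ∑ k, nv g x i * nx k x * ∑ j, (Rm g i j x * UF g x) k j =
      √(ww g x) * ∑ i, ∑ j, ric g i j x * nu g i x * nu g j x := by
    have h5 : ∀ i k, ∑ j, (Rm g i j x * UF g x) k j = ∑ b, ric g b i x * up g b k x := by
      intro i k
      have h6 : ∀ j, (Rm g i j x * UF g x) k j = ∑ b, Rm g j i x j b * up g b k x := by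
        intro j
        rw [hX' i j k j, h.Rm_anti x i j, neg_mul, Matrix.neg_apply, neg_neg, Matrix.mul_apply]
        rfl
      simp only [h6]
      rw [Finset.sum_comm]
      exact Finset.sum_congr rfl fun b _ => by rw [h.ric_Rm hx', Finset.sum_mul]
    simp only [h5]
    calc ∑ i, ∑ k, nv g x i * nx k x * ∑ b, ric g b i x * up g b k x
        = ∑ i, ∑ k, ∑ b, nu g i x * ric g b i x * (up g b k x * nx k x) := by
          refine Finset.sum_congr rfl fun i _ => Finset.sum_congr rfl fun k _ => ?_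
          rw [Finset.mul_sum]
          exact Finset.sum_congr rfl fun b _ => by
            show nu g i x * nx k x * _ = _
            ring
      _ = ∑ i, ∑ b, ∑ k, nu g i x * ric g b i x * (up g b k x * nx k x) :=
          Finset.sum_congr rfl fun i _ => Finset.sum_comm
      _ = ∑ i, ∑ b, nu g i x * ric g b i x * (√(ww g x) * nu g b x) := by
          refine Finset.sum_congr rfl fun i _ => Finset.sum_congr rfl fun b _ => ?_
          rw [← Finset.mul_sum, h.up_nx hx']
      _ = ∑ b, ∑ i, nu g i x * ric g b i x * (√(ww g x) * nu g b x) := Finset.sum_comm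
      _ = _ := by
          rw [Finset.mul_sum]
          refine Finset.sum_congr rfl fun b _ => ?_
          rw [Finset.mul_sum]
          exact Finset.sum_congr rfl fun i _ => by ring
  rw [e2, e3, e4] at h1
  rw [e1, e1, e1]
  unfold ad
  linear_combination sg g x * h1

/-- the second fundamental form part -/
lemma shape_part {x : E 3} (hx : R ≤ len x) :
    nx 0 x * tp (nv g x) (Sn g 1 x) (Sn g 2 x) + nx 1 x * tp (nv g x) (Sn g 2 x) (Sn g 0 x) +
      nx 2 x * tp (nv g x) (Sn g 0 x) (Sn g 1 x) =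
    √(ww g x) * (Hm g x ^ 2 - ct g x (AA g x) (AA g x)) / 2 := by
  have h0 : ∀ i, ∑ a, Sn g i x a * nx a x = 0 := by
    intro i
    have h1 := h.dp_Sn hx i
    unfold dp ml at h1
    have e : ∑ a, Sn g i x a * nx a x = √(ww g x) * ∑ a, nx a x / √(ww g x) * Sn g i x a := by
      rw [Finset.mul_sum]
      have hs := (h.sq_pos hx).ne'
      exact Finset.sum_congr rfl fun a _ => by field_simp
    rw [e, h1, mul_zero]
  have h1 := cofac (ν := nv g x) (fun i => Sn g i x) (fun i => nx i x) h0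
  have e2 : dp (fun i => nx i x) (nv g x) = √(ww g x) := by
    rw [← h.nu_nx hx]
    exact dp_comm
  rw [e2] at h1
  have e3 : ∑ i, Sn g i x i = Hm g x := rfl
  have e4 : ∑ i, ∑ j, Sn g i x j * Sn g j x i = ct g x (AA g x) (AA g x) := h.trace_sq hx
  rw [e3, e4] at h1
  exact h1

lemma tan {x : E 3} (hx : R < len x) (k : Fin 3) :
    Tan (PP g x) (JJ g x) (dM k (PP g) x) (dM k (JJ g) x) := by
  have hx' := hx.le
  have hP := HPM.of_smooth (k := k) (h.sPP hx')
  have hJ := HPM.of_smooth (k := k) (h.sJJ hx')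
  have hev : ∀ᶠ y in 𝓝 x, R ≤ len y := near hx
  refine ⟨?_, ?_, ?_, ?_⟩
  · exact ((hP.mul hP).congr (hev.mono fun y hy => (h.PP_PP hy).symm)).unique hP
  · exact ((hP.mul hJ).congr (hev.mono fun y hy => (h.PP_JJ hy).symm)).unique hJ
  · exact ((hJ.mul hP).congr (hev.mono fun y _ => (h.JJ_PP).symm)).unique hJ
  · have h1 := (hJ.mul hJ).congr (F1 := fun y => -PP g y)
      (hev.mono fun y hy => (h.JJ_JJ hy).symm)
    exact h1.unique hP.neg

/-- the derivative of the connection form -/
lemma pd_tht {x : E 3} (hx : R ≤ len x) (i j : Fin 3) :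
    pd i (tht g j) x = (dM i (JJ g) x * Gam g j x).trace + (JJ g x * dM i (Gam g j) x).trace := by
  have h1 := ((HPM.of_smooth (k := i) (h.sJJ hx)).mul
    (HPM.of_smooth (k := i) (h.sGam hx j))).trace
  rw [Matrix.trace_add] at h1
  exact h1.pd

lemma ctht {x : E 3} (hx : R ≤ len x) (j : Fin 3) : ContDiffAt ℝ ∞ (tht g j) x :=
  ((h.sJJ hx).mul (h.sGam hx j)).trace

lemma beta_eq {x : E 3} (hx : R < len x) (i j : Fin 3) :
    beta (PP g) (JJ g) i j x = -(8 * (sg g x * tp (nv g x) (Sn g i x) (Sn g j x))) -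
      4 * (JJ g x * Rm g i j x).trace + 4 * (pd i (tht g j) x - pd j (tht g i) x) := by
  have hx' := hx.le
  have h1 := FF_conn (G1 := Gam g i x) (G2 := Gam g j x) (h.PP_PP hx') (h.PP_JJ hx') h.JJ_PP
    (h.JJ_JJ hx') (h.tan hx i) (h.tan hx j)
  rw [h.dPP hx, h.dPP hx, h.dJJ hx, h.dJJ hx, ← h.mv_nv hx'] at h1
  have hν : dp (mv (mat g x) (nv g x)) (nv g x) = 1 := by rw [h.mv_nv hx']; exact h.dp_nv hx'
  have ha : ∀ i, dp (mv (mat g x) (nv g x)) (Sn g i x) = 0 := fun i => by
    rw [h.mv_nv hx']; exact h.dp_Sn hx' i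
  have h2 := FF_metric (h.UF_symm x) (h.UF_mat hx') (h.mat_symm x) (h.sg_det hx') hν (ha i) (ha j)
  have h3 : JJ g x = sg g x • (UF g x * cr (nv g x)) := rfl
  rw [← h3] at h2
  rw [h2] at h1
  have h4 : beta (PP g) (JJ g) i j x = FF (JJ g x) (dM i (PP g) x) (dM i (JJ g) x)
      (dM j (PP g) x) (dM j (JJ g) x) := rfl
  rw [h4, h.pd_tht hx', h.pd_tht hx']
  have h5 : (JJ g x * Rm g i j x).trace = (JJ g x * dM i (Gam g j) x).trace -
      (JJ g x * dM j (Gam g i) x).trace +
        (JJ g x * (Gam g i x * Gam g j x - Gam g j x * Gam g i x)).trace := by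
    unfold Rm
    rw [mul_add, mul_sub, Matrix.trace_add, Matrix.trace_sub]
  rw [h5]
  linarith

/-- **The pointwise identity.** -/
theorem gb_pt {x : E 3} (hx : R < len x) :
    nrmC (bv (PP g) (JJ g)) x = -4 * (ad g x * RS g x) + 4 * ∑ k, pd k (VF g k) x := by
  have hx' := hx.le
  have hx0 := h.ne_zero hx'
  have h1 := h.curv_part hx
  have h2 := h.shape_part hx'
  have e1 : nrmC (bv (PP g) (JJ g)) x = nx 0 x * beta (PP g) (JJ g) 1 2 x +
      nx 1 x * beta (PP g) (JJ g) 2 0 x + nx 2 x * beta (PP g) (JJ g) 0 1 x := by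
    unfold nrmC
    rw [Fin.sum_univ_three]
    rfl
  have hn : ∀ a b, HP a (nx (n := 3) b) (dnx a b x) x := fun a b => by
    have := HP_nx hx0 a b
    exact this
  have hsym : ∀ a b, dnx (n := 3) a b x = dnx b a x := by
    intro a b
    unfold dnx
    have : (if b = a then (1 : ℝ) else 0) = if a = b then 1 else 0 := by simp [eq_comm]
    rw [this]; ring
  have hθ : ∀ a b, HP a (tht g b) (pd a (tht g b) x) x := fun a b => HPf (h.ctht hx' b) a
  have e2 : ∑ k, pd k (VF g k) x = nx 0 x * (pd 1 (tht g 2) x - pd 2 (tht g 1) x) +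
      nx 1 x * (pd 2 (tht g 0) x - pd 0 (tht g 2) x) +
        nx 2 x * (pd 0 (tht g 1) x - pd 1 (tht g 0) x) := by
    rw [Fin.sum_univ_three]
    have f0 : pd 0 (VF g 0) x = _ :=
      (((hθ 0 1).mul (hn 0 2)).sub ((hθ 0 2).mul (hn 0 1))).pd
    have f1 : pd 1 (VF g 1) x = _ :=
      (((hθ 1 2).mul (hn 1 0)).sub ((hθ 1 0).mul (hn 1 2))).pd
    have f2 : pd 2 (VF g 2) x = _ :=
      (((hθ 2 0).mul (hn 2 1)).sub ((hθ 2 1).mul (hn 2 0))).pd
    rw [f0, f1, f2, hsym 1 0, hsym 2 0, hsym 2 1]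
    ring
  rw [e1, h.beta_eq hx, h.beta_eq hx, h.beta_eq hx, e2]
  unfold RS ad at *
  linear_combination (-4) * h1 - 8 * sg g x * h2

end Met

end Vale.Agent.H106
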