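import Vale.Agent.P366.R2.H106.GBd

/-! The Gauss-Bonnet theorem for general leaves, `n = 3`. -/

open MeasureTheory Metric Filter Topology Set Asymptotics
open scoped ContDiff ENNReal Matrix

noncomputable section
namespace Vale.Agent.H106
open Vale.Agent.P366.Stmt Vale.Agent.T4
open Vale.Agent.P366.T2 hiding M3
open Vale.Agent.H177 (M3 Tan cr dM HPM SMat beta bv UF nrmC dM_comm div_bv contDiffAt_beta flux_eq)
open Vale.Agent.P366 (sphI sphM av norm_smul_sph sphI_congr omega_pos' sphI_const)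
open Vale.Agent.P366.T1.A919 (far far_iff far_of far_gt far_nhds O O_iff O_of_bigO O_const O_zero
  O_of_le)

/-- `F = O(r⁻ᵖ)` -/
def OM (p : ℝ) (F : E 3 → M3) : Prop := ∀ i j, O p (fun x => F x i j)

section

variable {p q r : ℝ} {F F' : E 3 → M3}

lemma OM.mul (hF : OM p F) (hF' : OM q F') (h : r ≤ p + q) : OM r (fun x => F x * F' x) := by
  intro i j
  simp only [Matrix.mul_apply]
  exact O.sum fun k _ => (hF i k).mul' (hF' k j) h

lemma OM.add (hF : OM p F) (hF' : OM p F') : OM p (fun x => F x + F' x) := fun i j =>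
  (hF i j).add (hF' i j)

lemma OM.sub (hF : OM p F) (hF' : OM p F') : OM p (fun x => F x - F' x) := fun i j =>
  (hF i j).sub (hF' i j)

lemma OM.neg (hF : OM p F) : OM p (fun x => -F x) := fun i j => (hF i j).neg

lemma OM.trace (hF : OM p F) : O p (fun x => (F x).trace) := O.sum fun i _ => hF i i

lemma OM.smul {f : E 3 → ℝ} (hf : O p f) (hF : OM q F) (h : r ≤ p + q) :
    OM r (fun x => f x • F x) := fun i j => hf.mul' (hF i j) h

lemma OM.mono (hF : OM p F) (h : q ≤ p) : OM q F := fun i j => (hF i j).mono h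

lemma OM.congr (hF : OM p F) (h : ∀ᶠ x in far 3, F x = F' x) : OM p F' := fun i j =>
  (hF i j).congr (h.mono fun x hx => by rw [hx])

lemma OM.const (M : M3) : OM 0 (fun _ => M) := fun i j => O_const (M i j)

lemma OM_rk {a b : E 3 → Fin 3 → ℝ} (ha : ∀ i, O p (fun x => a x i)) (hb : ∀ i, O q (fun x => b x i))
    (h : r ≤ p + q) : OM r (fun x => rk (a x) (b x)) := fun i j => (ha i).mul' (hb j) h

lemma OM_cr {a : E 3 → Fin 3 → ℝ} (ha : ∀ i, O p (fun x => a x i)) :
    OM p (fun x => cr (a x)) := by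
  intro i j
  fin_cases i <;> fin_cases j
  · exact O_zero p
  · exact (ha 2).neg
  · exact ha 1
  · exact ha 2
  · exact O_zero p
  · exact (ha 0).neg
  · exact (ha 1).neg
  · exact ha 0
  · exact O_zero p

end

/-! ### the flat fields -/

/-- the radial vector -/
def nv0 (x : E 3) : Fin 3 → ℝ := fun i => nx i x

/-- the derivatives of the radial vector -/
def dv0 (k : Fin 3) (x : E 3) : Fin 3 → ℝ := fun i => dnx k i x

/-- the derivatives of the flat projection -/
def dP0 (k : Fin 3) (x : E 3) : M3 := -(rk (dv0 k x) (nv0 x) + rk (nv0 x) (dv0 k x))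

lemma mv_one' (a : Fin 3 → ℝ) : mv (1 : M3) a = a := mv_one

lemma dp_nv0 {x : E 3} (hx : x ≠ 0) : dp (nv0 x) (nv0 x) = 1 := sum_nx_mul hx

lemma dp_dv0 {x : E 3} (hx : x ≠ 0) (k : Fin 3) : dp (nv0 x) (dv0 k x) = 0 := sum_nx_dnx hx k

/-- the flat form -/
lemma FF0 {x : E 3} (hx : x ≠ 0) (i j : Fin 3) :
    FF (cr (nv0 x)) (dP0 i x) (cr (dv0 i x)) (dP0 j x) (cr (dv0 j x)) =
      -(8 * tp (nv0 x) (dv0 i x) (dv0 j x)) := by
  have h1 := FF_metric (U := 1) (G := 1) (d := 1) (ν := nv0 x) (a := dv0 i x) (b := dv0 j x)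
    Matrix.transpose_one (mul_one _) Matrix.transpose_one (by simp)
    (by rw [mv_one']; exact dp_nv0 hx) (by rw [mv_one']; exact dp_dv0 hx i)
    (by rw [mv_one']; exact dp_dv0 hx j)
  simp only [mv_one', one_mul, one_smul] at h1
  exact h1

lemma flat_sum {x : E 3} (hx : x ≠ 0) :
    nx 0 x * tp (nv0 x) (dv0 1 x) (dv0 2 x) + nx 1 x * tp (nv0 x) (dv0 2 x) (dv0 0 x) +
      nx 2 x * tp (nv0 x) (dv0 0 x) (dv0 1 x) = (1 / len x) ^ 2 := by
  have h0 : ∀ i, ∑ a, dv0 i x a * nx a x = 0 := by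
    intro i
    rw [← sum_nx_dnx hx i]
    exact Finset.sum_congr rfl fun a _ => mul_comm _ _
  have h1 := cofac (ν := nv0 x) (fun i => dv0 i x) (fun i => nx i x) h0
  have hl : len x ≠ 0 := by
    intro h
    exact hx (norm_eq_zero.1 h)
  have e2 : dp (fun i => nx i x) (nv0 x) = 1 := dp_nv0 hx
  have e3 : ∑ i, dv0 i x i = 2 / len x := by
    have := sum_dnx (n := 3) hx
    rw [show ∑ i, dv0 i x i = ∑ k, dnx k k x from rfl, this]
    norm_num
  have e4 : ∑ i, ∑ j, dv0 i x j * dv0 j x i = 2 * (1 / len x) ^ 2 := by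
    have e5 : ∀ i j, dv0 i x j * dv0 j x i = (1 / len x) ^ 2 * ((if i = j then 1 else 0) -
        (if i = j then 1 else 0) * (2 * (nx i x * nx j x)) + (nx i x * nx i x) *
          (nx j x * nx j x)) := by
      intro i j
      unfold dv0 dnx
      have : (if j = i then (1 : ℝ) else 0) = if i = j then 1 else 0 := by simp [eq_comm]
      rw [this]
      split_ifs <;> ring
    simp only [e5, ← Finset.mul_sum, Finset.sum_add_distrib, Finset.sum_sub_distrib,
      sum_nx_mul hx, mul_one]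
    simp only [ite_mul, one_mul, zero_mul, Finset.sum_ite_eq, Finset.mem_univ, if_true,
      ← Finset.mul_sum, sum_nx_mul hx]
    simp
    ring
  rw [e2, e3, e4] at h1
  rw [h1]
  field_simp
  ring

lemma O_nv0 (i : Fin 3) : O 0 (fun x => nv0 x i) := O_nx i

lemma O_dv0 (k i : Fin 3) : O 1 (fun x => dv0 k x i) := O_dnx k i

/-- the form is stable under perturbations -/
lemma O_FF {q : ℝ} (hq : 0 < q) {J J' P1 P1' J1 J1' P2 P2' J2 J2' : E 3 → M3}
    (hJ : OM q (fun x => J x - J' x)) (hP1 : OM (q + 1) (fun x => P1 x - P1' x))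
    (hJ1 : OM (q + 1) (fun x => J1 x - J1' x)) (hP2 : OM (q + 1) (fun x => P2 x - P2' x))
    (hJ2 : OM (q + 1) (fun x => J2 x - J2' x)) (bJ' : OM 0 J') (bP1' : OM 1 P1')
    (bJ1' : OM 1 J1') (bP2' : OM 1 P2') (bJ2' : OM 1 J2') :
    O (q + 2) (fun x => FF (J x) (P1 x) (J1 x) (P2 x) (J2 x) -
      FF (J' x) (P1' x) (J1' x) (P2' x) (J2' x)) := by
  have b : ∀ {F F' : E 3 → M3}, OM (q + 1) (fun x => F x - F' x) → OM 1 F' → OM 1 F := by
    intro F F' h1 h2
    refine ((h1.mono (by linarith)).add h2).congr (Eventually.of_forall fun x => ?_)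
    abel
  have bP1 := b hP1 bP1'
  have bJ1 := b hJ1 bJ1'
  have bP2 := b hP2 bP2'
  have bJ2 := b hJ2 bJ2'
  have c : ∀ {A A' B B' : E 3 → M3}, OM (q + 1) (fun x => A x - A' x) → OM 1 A → OM 1 A' →
      OM (q + 1) (fun x => B x - B' x) → OM 1 B → OM 1 B' →
      O (q + 2) (fun x => (J x * (A x * B x - B x * A x)).trace -
        (J' x * (A' x * B' x - B' x * A' x)).trace) := by
    intro A A' B B' hA bA bA' hB bB bB'
    have h1 : OM (q + 2) (fun x => (J x - J' x) * (A x * B x - B x * A x) +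
        J' x * (((A x - A' x) * B x + A' x * (B x - B' x)) -
          ((B x - B' x) * A x + B' x * (A x - A' x)))) := by
      refine (hJ.mul ((bA.mul bB (r := 2) (by norm_num)).sub (bB.mul bA (r := 2) (by norm_num)))
        (by linarith)).add (bJ'.mul (((hA.mul bB (r := q + 2) (by linarith)).add
        (bA'.mul hB (r := q + 2) (by linarith))).sub ((hB.mul bA (r := q + 2) (by linarith)).add
        (bB'.mul hA (r := q + 2) (by linarith)))) (by linarith))
    refine h1.trace.congr (Eventually.of_forall fun x => ?_)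
    rw [← Matrix.trace_sub]
    congr 1
    noncomm_ring
  have h1 := (c hJ1 bJ1 bJ1' hJ2 bJ2 bJ2').sub ((c hP1 bP1 bP1' hP2 bP2 bP2').const_mul 3)
  refine h1.congr (Eventually.of_forall fun x => ?_)
  unfold FF
  ring

namespace Met

variable {g : Field 3} {R q : ℝ} (h : Met g R) (hq : 0 < q) (D : Dec g q)
include h hq D

lemma OM_UF1 : OM q (fun x => UF g x - 1) := fun i j =>
  (h.up0 hq D i j).congr (Eventually.of_forall fun x => by
    show (up g i j x - if i = j then (1 : ℝ) else 0) = UF g x i j - (1 : M3) i j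
    rw [Matrix.one_apply]
    rfl)

lemma OM_UF : OM 0 (UF g) := fun i j => h.upb hq D i j

lemma OM_Gam (k : Fin 3) : OM (q + 1) (Gam g k) := fun i j => h.chr0 hq D i k j

lemma O_sg1 : O q (fun x => sg g x - 1) := by
  have h1 : O q (fun x => (sg g x - 1 - 1 / 2 * trh g x) + 1 / 2 * trh g x) :=
    ((h.sg1 hq D).mono (by linarith)).add ((O_trh D).const_mul (1 / 2))
  exact h1.congr (Eventually.of_forall fun x => by ring)

lemma O_ml (i : Fin 3) : O q (fun x => ml g x i - nv0 x i) := by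
  have h1 : O q (fun x => nx i x * ((√(ww g x))⁻¹ - 1)) :=
    (O_nx i).mul' (h.t0 hq D) (by linarith)
  exact h1.congr (Eventually.of_forall fun x => by unfold ml nv0; ring)

lemma O_Sn (k a : Fin 3) : O (q + 1) (fun x => Sn g k x a - dv0 k x a) := by
  have h1 : O (q + 1) (fun x => (pd k (nu g a) x - dnx k a x) + ∑ m, chr g a k m x * nu g m x) :=
    (h.O_pdnu hq D k a).add (O.sum fun m _ => (h.chr0 hq D a k m).mul' (h.nub hq D m)
      (by linarith))
  exact h1.congr (Eventually.of_forall fun x => by unfold Sn dv0 cv; ring)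

lemma OM_JJ1 : OM q (fun x => JJ g x - cr (nv0 x)) := by
  have hc : OM q (fun x => cr (nv g x) - cr (nv0 x)) := by
    refine (OM_cr (a := fun x i => nv g x i - nv0 x i) fun i => h.nu0 hq D i).congr
      (Eventually.of_forall fun x => ?_)
    funext i j
    fin_cases i <;> fin_cases j <;> simp [cr] <;> ring
  have hcb : OM 0 (fun x => cr (nv g x)) := OM_cr fun i => h.nub hq D i
  have h1 : OM q (fun x => (sg g x - 1) • (UF g x * cr (nv g x)) +
      ((UF g x - 1) * cr (nv g x) + (cr (nv g x) - cr (nv0 x)))) :=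
    (OM.smul (h.O_sg1 hq D) ((h.OM_UF hq D).mul hcb (r := 0) (by linarith)) (by linarith)).add
      (((h.OM_UF1 hq D).mul hcb (by linarith)).add hc)
  refine h1.congr (Eventually.of_forall fun x => ?_)
  unfold JJ
  rw [sub_smul, one_smul, sub_mul, one_mul]
  abel

lemma OM_JJ : OM 0 (JJ g) := by
  refine (((h.OM_JJ1 hq D).mono hq.le).add (OM_cr (a := nv0) fun i => O_nv0 i)).congr
    (Eventually.of_forall fun x => ?_)
  abel

lemma OM_PP : OM 0 (PP g) := by
  have hm : ∀ i, O 0 (fun x => ml g x i) := fun i =>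
    (((h.O_ml hq D i).mono hq.le).add (O_nv0 i)).congr (Eventually.of_forall fun x => by ring)
  exact (OM.const 1).sub (OM_rk (fun i => h.nub hq D i) hm (r := 0) (by linarith))

lemma OM_dPP (k : Fin 3) : OM (q + 1) (fun x => dM k (PP g) x - dP0 k x) := by
  have hm : ∀ i, O 0 (fun x => ml g x i) := fun i =>
    (((h.O_ml hq D i).mono hq.le).add (O_nv0 i)).congr (Eventually.of_forall fun x => by ring)
  have hS : ∀ i, O 1 (fun x => Sn g k x i) := fun i =>
    (((h.O_Sn hq D k i).mono (p := 1) (by linarith)).add (O_dv0 k i)).congr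
      (Eventually.of_forall fun x => by ring)
  have hmS : ∀ i, O (q + 1) (fun x => mv (mat g x) (Sn g k x) i - dv0 k x i) := by
    intro i
    have h1 : O (q + 1) (fun x => (∑ j, (g x i j - if i = j then 1 else 0) * Sn g k x j) +
        (Sn g k x i - dv0 k x i)) :=
      (O.sum fun j _ => (D.g0 i j).mul' (hS j) (by linarith)).add (h.O_Sn hq D k i)
    refine h1.congr (Eventually.of_forall fun x => ?_)
    simp only [sub_mul, Finset.sum_sub_distrib, ite_mul, one_mul, zero_mul, Finset.sum_ite_eq,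
      Finset.mem_univ, if_true]
    unfold mv
    show (∑ j, g x i j * Sn g k x j) - Sn g k x i + (Sn g k x i - dv0 k x i) =
      (∑ j, mat g x i j * Sn g k x j) - dv0 k x i
    have : ∀ j, mat g x i j = g x i j := fun j => rfl
    simp only [this]
    ring
  have hG := h.OM_Gam hq D k
  have hPb := h.OM_PP hq D
  have h1 : OM (q + 1) (fun x => -((rk (fun a => Sn g k x a - dv0 k x a) (ml g x) +
      rk (dv0 k x) (fun a => ml g x a - nv0 x a)) +
      (rk (fun a => nv g x a - nv0 x a) (mv (mat g x) (Sn g k x)) +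
        rk (nv0 x) (fun a => mv (mat g x) (Sn g k x) a - dv0 k x a))) -
      (Gam g k x * PP g x - PP g x * Gam g k x)) := by
    have hmSb : ∀ i, O 1 (fun x => mv (mat g x) (Sn g k x) i) := fun i =>
      (((hmS i).mono (p := 1) (by linarith)).add (O_dv0 k i)).congr
        (Eventually.of_forall fun x => by ring)
    refine OM.sub (OM.neg (OM.add (OM.add ?_ ?_) (OM.add ?_ ?_))) (OM.sub ?_ ?_)
    · exact OM_rk (fun i => h.O_Sn hq D k i) hm (by linarith)
    · exact OM_rk (fun i => O_dv0 k i) (fun i => h.O_ml hq D i) (by linarith)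
    · exact OM_rk (fun i => h.nu0 hq D i) hmSb (by linarith)
    · exact OM_rk (fun i => O_nv0 i) hmS (by linarith)
    · exact hG.mul hPb (by linarith)
    · exact hPb.mul hG (by linarith)
  refine h1.congr ?_
  filter_upwards [far_gt (n := 3) R] with x hx
  have h2 := h.dPP (x := x) hx k
  have h3 : dM k (PP g) x = -(rk (Sn g k x) (ml g x) + rk (nv g x) (mv (mat g x) (Sn g k x))) -
      (Gam g k x * PP g x - PP g x * Gam g k x) := by
    rw [← h2]; abel
  rw [h3]
  unfold dP0
  funext i j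
  simp only [Matrix.sub_apply, Matrix.neg_apply, Matrix.add_apply, rk]
  ring

lemma OM_dJJ (k : Fin 3) : OM (q + 1) (fun x => dM k (JJ g) x - cr (dv0 k x)) := by
  have hS : ∀ i, O 1 (fun x => Sn g k x i) := fun i =>
    (((h.O_Sn hq D k i).mono (p := 1) (by linarith)).add (O_dv0 k i)).congr
      (Eventually.of_forall fun x => by ring)
  have hc : OM (q + 1) (fun x => cr (Sn g k x) - cr (dv0 k x)) := by
    refine (OM_cr (a := fun x i => Sn g k x i - dv0 k x i) fun i => h.O_Sn hq D k i).congr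
      (Eventually.of_forall fun x => ?_)
    funext i j
    fin_cases i <;> fin_cases j <;> simp [cr] <;> ring
  have hcb : OM 1 (fun x => cr (Sn g k x)) := OM_cr hS
  have hG := h.OM_Gam hq D k
  have hJb := h.OM_JJ hq D
  have h1 : OM (q + 1) (fun x => (sg g x - 1) • (UF g x * cr (Sn g k x)) +
      ((UF g x - 1) * cr (Sn g k x) + (cr (Sn g k x) - cr (dv0 k x))) -
      (Gam g k x * JJ g x - JJ g x * Gam g k x)) := by
    refine OM.sub (OM.add ?_ (OM.add ?_ hc)) (OM.sub ?_ ?_)
    · exact OM.smul (h.O_sg1 hq D) ((h.OM_UF hq D).mul hcb (r := 1) (by linarith)) (by linarith)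
    · exact (h.OM_UF1 hq D).mul hcb (by linarith)
    · exact hG.mul hJb (by linarith)
    · exact hJb.mul hG (by linarith)
  refine h1.congr ?_
  filter_upwards [far_gt (n := 3) R] with x hx
  have h2 := h.dJJ (x := x) hx k
  have h3 : dM k (JJ g) x = sg g x • (UF g x * cr (Sn g k x)) -
      (Gam g k x * JJ g x - JJ g x * Gam g k x) := by
    rw [← h2]; abel
  rw [h3, sub_smul, one_smul, sub_mul, one_mul]
  abel

/-- the decay of the field of the leaves -/
lemma O_field : O (q + 2) (fun x => nrmC (bv (PP g) (JJ g)) x + 8 * (1 / len x) ^ 2) := by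
  have hJ := h.OM_JJ1 hq D
  have bJ : OM 0 (fun x => cr (nv0 x)) := OM_cr fun i => O_nv0 i
  have bP : ∀ k, OM 1 (dP0 k) := fun k => OM.neg (OM.add
    (OM_rk (fun i => O_dv0 k i) (fun i => O_nv0 i) (by linarith))
    (OM_rk (fun i => O_nv0 i) (fun i => O_dv0 k i) (by linarith)))
  have bJ1 : ∀ k, OM 1 (fun x => cr (dv0 k x)) := fun k => OM_cr fun i => O_dv0 k i
  have h1 : ∀ i j, O (q + 2) (fun x => beta (PP g) (JJ g) i j x -
      FF (cr (nv0 x)) (dP0 i x) (cr (dv0 i x)) (dP0 j x) (cr (dv0 j x))) := fun i j =>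
    O_FF hq hJ (h.OM_dPP hq D i) (h.OM_dJJ hq D i) (h.OM_dPP hq D j) (h.OM_dJJ hq D j) bJ (bP i)
      (bJ1 i) (bP j) (bJ1 j)
  have h2 : O (q + 2) (fun x => (nx 0 x * (beta (PP g) (JJ g) 1 2 x -
      FF (cr (nv0 x)) (dP0 1 x) (cr (dv0 1 x)) (dP0 2 x) (cr (dv0 2 x))) +
      nx 1 x * (beta (PP g) (JJ g) 2 0 x -
      FF (cr (nv0 x)) (dP0 2 x) (cr (dv0 2 x)) (dP0 0 x) (cr (dv0 0 x)))) +
      nx 2 x * (beta (PP g) (JJ g) 0 1 x -
      FF (cr (nv0 x)) (dP0 0 x) (cr (dv0 0 x)) (dP0 1 x) (cr (dv0 1 x)))) :=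
    (((O_nx 0).mul' (h1 1 2) (by linarith)).add ((O_nx 1).mul' (h1 2 0) (by linarith))).add
      ((O_nx 2).mul' (h1 0 1) (by linarith))
  refine h2.congr ?_
  filter_upwards [far_ne (n := 3)] with x hx
  have e1 : nrmC (bv (PP g) (JJ g)) x = nx 0 x * beta (PP g) (JJ g) 1 2 x +
      nx 1 x * beta (PP g) (JJ g) 2 0 x + nx 2 x * beta (PP g) (JJ g) 0 1 x := by
    unfold nrmC
    rw [Fin.sum_univ_three]
    rfl
  rw [e1, FF0 hx, FF0 hx, FF0 hx]
  have h3 := flat_sum hx
  linear_combination 8 * h3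

omit hq D in
/-- the field of the leaves and the scalar curvature -/
lemma sphI_field [Nontrivial (E 3)] {r : ℝ} (hr : R < r) :
    sphI (nrmC (bv (PP g) (JJ g))) r = -4 * sphI (fun x => ad g x * RS g x) r := by
  have hr0 : 0 < r := h.hR.trans hr
  have hxr : ∀ x : E 3, len x = r → R ≤ len x := fun x hx => by rw [hx]; exact hr.le
  have hV : ∀ x, R ≤ len x → ∀ k, ContDiffAt ℝ ∞ (VF g k) x := by
    intro x hx k
    have a : ∀ j, ContDiffAt ℝ ∞ (tht g j) x := fun j => h.ctht hx j
    have b : ∀ j, ContDiffAt ℝ ∞ (nx (n := 3) j) x := fun j => h.cnx hx j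
    fin_cases k
    · exact ((a 1).mul (b 2)).sub ((a 2).mul (b 1))
    · exact ((a 2).mul (b 0)).sub ((a 0).mul (b 2))
    · exact ((a 0).mul (b 1)).sub ((a 1).mul (b 0))
  have t : sphI (fun x => ∑ k, pd k (VF g k) x) r = 0 := by
    refine sphI_div_tangential h.hR.le (W := VF g) ?_ ?_ hr
    · intro k x hx
      exact ((hV x (le_of_lt hx) k).of_le (by simp)).contDiffWithinAt
    · intro x _
      rw [Fin.sum_univ_three]
      show (tht g 1 x * nx 2 x - tht g 2 x * nx 1 x) * nx 0 x +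
        (tht g 2 x * nx 0 x - tht g 0 x * nx 2 x) * nx 1 x +
        (tht g 0 x * nx 1 x - tht g 1 x * nx 0 x) * nx 2 x = 0
      ring
  have c1 : ∀ x, len x = r → ContinuousAt (fun x => ad g x * RS g x) x := fun x hx =>
    ((h.cad (hxr x hx)).mul (h.cRS (hxr x hx))).continuousAt
  have c2 : ∀ x, len x = r → ContinuousAt (fun x => ∑ k, pd k (VF g k) x) x := fun x hx =>
    (ContDiffAt.sum fun k _ => contDiffAt_pd (hV x (hxr x hx) k) k).continuousAt
  have e1 : sphI (nrmC (bv (PP g) (JJ g))) r = sphI (fun x => (-4) * (ad g x * RS g x) +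
      4 * (∑ k, pd k (VF g k) x) + 0 * (∑ k, pd k (VF g k) x)) r := by
    refine sphI_congr hr0.le fun x hx => ?_
    have hx' : len x = r := hx
    rw [h.gb_pt (by rw [hx']; exact hr)]
    ring
  rw [e1]
  have e2 := int3 (integrable_at hr0.le c1) (integrable_at hr0.le c2) (integrable_at hr0.le c2)
    (-4) 4 0
  refine e2.trans ?_
  change -4 * sphI (fun x => ad g x * RS g x) r + 4 * sphI (fun x => ∑ k, pd k (VF g k) x) r +
    0 * sphI (fun x => ∑ k, pd k (VF g k) x) r = _
  rw [t]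
  ring

omit hq D in
/-- the integral is constant -/
lemma gb_const [Nontrivial (E 3)] {r s : ℝ} (hr : R < r) (hs : R < s) :
    leafI g (RS g) r = leafI g (RS g) s := by
  have h1 := flux_eq (W := bv (PP g) (JJ g)) h.hR
    (fun x hx k => contDiffAt_beta (h.sPP hx.le) (h.sJJ hx.le) _ _)
    (fun x hx => div_bv (h.sPP hx.le) (h.sJJ hx.le)
      ((near hx).mono fun y hy => h.PP_PP hy) ((near hx).mono fun y hy => h.PP_JJ hy)
      (Eventually.of_forall fun y => h.JJ_PP) ((near hx).mono fun y hy => h.JJ_JJ hy)) hr hs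
  rw [h.sphI_field hr, h.sphI_field hs] at h1
  unfold leafI
  norm_num
  linarith

/-- **The Gauss-Bonnet theorem for the leaves.** -/
theorem gauss_bonnet {r : ℝ} (hr : R < r) : leafI g (RS g) r = 2 * omega 3 := by
  have : Nontrivial (E 3) := inferInstance
  have hω : 0 < Vale.Agent.P366.omega 3 := omega_pos'
  have h1 := av_O (h.O_field hq D)
  have h2 : Tendsto (fun r : ℝ => r ^ (2 : ℝ) *
      av (fun x => nrmC (bv (PP g) (JJ g)) x + 8 * (1 / len x) ^ 2) r) atTop (𝓝 0) := by
    have h3 := IsBigO.mul (isBigO_refl (fun r : ℝ => r ^ (2 : ℝ)) atTop) h1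
    refine h3.trans_tendsto ?_
    have h4 : Tendsto (fun r : ℝ => r ^ (-q)) atTop (𝓝 0) := tendsto_rpow_neg_atTop hq
    refine h4.congr' ?_
    filter_upwards [eventually_gt_atTop 0] with r hr
    rw [← Real.rpow_add hr]
    congr 1
    ring
  have h5 : Tendsto (fun _ : ℝ => leafI g (RS g) r) atTop (𝓝 (2 * omega 3)) := by
    have h6 := (h2.const_mul (-(Vale.Agent.P366.omega 3) / 4)).add_const (2 * omega 3)
    rw [mul_zero, zero_add] at h6
    refine h6.congr' ?_
    filter_upwards [eventually_gt_atTop R] with s hs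
    have hs0 : 0 < s := h.hR.trans hs
    rw [h.gb_const hr hs]
    have c1 : ∀ x, len x = s → ContinuousAt (nrmC (bv (PP g) (JJ g))) x := fun x hx =>
      (ContDiffAt.sum fun k _ => (h.cnx (by rw [hx]; exact hs.le) k).mul
        (contDiffAt_beta (h.sPP (by rw [hx]; exact hs.le)) (h.sJJ (by rw [hx]; exact hs.le))
          _ _)).continuousAt
    have c2 : ∀ x : E 3, len x = s → ContinuousAt (fun _ : E 3 => (1 : ℝ)) x := fun _ _ =>
      continuousAt_const
    have e1 : sphI (fun x => nrmC (bv (PP g) (JJ g)) x + 8 * (1 / len x) ^ 2) s =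
        sphI (fun x => 1 * nrmC (bv (PP g) (JJ g)) x + 8 * (1 / s) ^ 2 * 1 + 0 * 1) s :=
      sphI_congr hs0.le fun x hx => by
        have : len x = s := hx
        rw [this]
        ring
    have e2 : sphI (fun x => nrmC (bv (PP g) (JJ g)) x + 8 * (1 / len x) ^ 2) s =
        -4 * sphI (fun x => ad g x * RS g x) s + 8 * (1 / s) ^ 2 * Vale.Agent.P366.omega 3 := by
      rw [e1]
      have e3 := int3 (integrable_at hs0.le c1) (integrable_at hs0.le c2) (integrable_at hs0.le c2)
        1 (8 * (1 / s) ^ 2) 0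
      refine e3.trans ?_
      change 1 * sphI (nrmC (bv (PP g) (JJ g))) s + 8 * (1 / s) ^ 2 * sphI (fun _ => 1) s +
        0 * sphI (fun _ => 1) s = _
      rw [h.sphI_field hs, sphI_const]
      ring
    unfold av
    rw [e2, Real.rpow_two]
    have e4 : omega 3 = Vale.Agent.P366.omega 3 := Vale.Agent.P366.omega_eq 3
    rw [e4]
    unfold leafI
    norm_num
    field_simp
    ring
  exact tendsto_nhds_unique tendsto_const_nhds h5

/-- the mean scalar curvature of the leaves -/
theorem gb_mean {r : ℝ} (hr : R < r) : leafI g (RS g) r =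
    ((3 : ℕ) - 1 : ℝ) * ((3 : ℕ) - 2) / rhoA g r ^ 2 * arA g r := by
  have : Nontrivial (E 3) := inferInstance
  have h1 := h.rho_pow (by norm_num) hr.le
  have hρ := h.rhoA_pos hr.le
  have e : rhoA g r ^ (((3 : ℕ) : ℝ) - 1) = rhoA g r ^ 2 := by
    rw [← Real.rpow_natCast]
    norm_num
  rw [e] at h1
  rw [h.gauss_bonnet hq D hr, ← h1]
  push_cast
  field_simp
  ring

end Met

end Vale.Agent.H106
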