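import Vale.Agent.P366.R2.H106.Cov
import Vale.Agent.P366.T4.B4

/-! The equations of Gauss, Codazzi and Riccati for the centred spheres. -/

open MeasureTheory Metric Filter Topology Set
open scoped ContDiff ENNReal Matrix MatrixOrder

noncomputable section
namespace Vale.Agent.H106
open Vale.Agent.P366.Stmt Vale.Agent.P366.T2 Vale.Agent.T4

variable {n : ℕ}

/-- contraction of covectors in the tangent spaces of the centred spheres -/
def dt (g : Field n) (x : E n) (a b : Fin n → ℝ) : ℝ := ∑ k, ∑ l, Pu g k l x * a k * b l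

/-- contraction of tensors in the tangent spaces of the centred spheres -/
def ct (g : Field n) (x : E n) (A B : Fin n → Fin n → ℝ) : ℝ :=
  ∑ i, ∑ j, ∑ k, ∑ l, Pu g i k x * Pu g j l x * A i j * B k l

/-- trace of `K` over the tangent spaces of the centred spheres -/
def tauf (g K : Field n) (x : E n) : ℝ := ∑ i, ∑ j, Pu g i j x * K x i j

/-- the covector `K(ν, ·)` -/
def kap (g K : Field n) (k : Fin n) (x : E n) : ℝ := ∑ i, K x i k * nu g i x

/-- `K(ν, ν)` -/
def kn (g K : Field n) (x : E n) : ℝ := ∑ k, nu g k x * kap g K k x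

/-- the tangential part of `K(ν, ·)`, as a vector -/
def bb (g K : Field n) (i : Fin n) (x : E n) : ℝ := ∑ k, Pu g i k x * kap g K k x

/-- second fundamental form -/
def AA (g : Field n) (x : E n) (i j : Fin n) : ℝ := hs g i j x / √(ww g x)

/-- logarithm of the lapse -/
def lam (g : Field n) (x : E n) : ℝ := -(Real.log (ww g x) / 2)

/-- tangential gradient of the logarithm of the lapse -/
def ZZ (g : Field n) (j : Fin n) (x : E n) : ℝ := ∑ l, Pu g j l x * pd l (lam g) x

/-- scalar curvature of the centred spheres (Gauss equation) -/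
def RS (g : Field n) (x : E n) : ℝ :=
  scal g x - 2 * (∑ i, ∑ j, ric g i j x * nu g i x * nu g j x) + Hm g x ^ 2 -
    ct g x (AA g x) (AA g x)

/-- the momentum density in the direction `ν` -/
def Jn (g K : Field n) (x : E n) : ℝ := ∑ j, mom g K j x * nu g j x

lemma dv_congr {g : Field n} {V W : Fin n → E n → ℝ} {x : E n} (hVW : ∀ i, V i =ᶠ[𝓝 x] W i) :
    dv g V x = dv g W x := by
  unfold dv cv
  refine Finset.sum_congr rfl fun j _ => ?_
  rw [pd_congr' (hVW j)]
  congr 1
  exact Finset.sum_congr rfl fun k _ => by rw [(hVW k).self_of_nhds]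

lemma near {R : ℝ} {x : E n} (hx : R < len x) : ∀ᶠ y in 𝓝 x, R ≤ len y := by
  filter_upwards [(isOpen_out R).mem_nhds hx] with y hy
  exact le_of_lt hy

namespace Met

variable {g : Field n} {R : ℝ} (h : Met g R)
include h

lemma dt_symm {x : E n} (a b : Fin n → ℝ) : dt g x a b = dt g x b a := by
  unfold dt
  rw [Finset.sum_comm]
  exact Finset.sum_congr rfl fun k _ => Finset.sum_congr rfl fun l _ => by
    rw [h.Pu_symm l k]; ring

lemma dt_nonneg {x : E n} (hx : R ≤ len x) (a : Fin n → ℝ) : 0 ≤ dt g x a a := h.Pu_nonneg hx a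

lemma cAA {x : E n} (hx : R ≤ len x) (i j : Fin n) : ContDiffAt ℝ ∞ (fun y => AA g y i j) x :=
  (h.chs hx i j).div (h.csq hx) (h.sq_pos hx).ne'

lemma clam {x : E n} (hx : R ≤ len x) : ContDiffAt ℝ ∞ (lam g) x :=
  (((h.cww hx).log (h.ww_pos hx).ne').div_const 2).neg

lemma cZZ {x : E n} (hx : R ≤ len x) (j : Fin n) : ContDiffAt ℝ ∞ (ZZ g j) x := by
  unfold ZZ
  exact ContDiffAt.sum fun l _ => (h.cPu hx j l).mul (contDiffAt_pd (h.clam hx) l)

lemma pd_lam {x : E n} (hx : R ≤ len x) (l : Fin n) :
    pd l (lam g) x = -(pd l (ww g) x / (2 * ww g x)) := by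
  have h2 : HasDerivAt _ _ (0 : ℝ) := HPf (h.cww hx) l
  have h3 := ((h2.log (by simp only [zero_smul, add_zero]; exact (h.ww_pos hx).ne')).div_const
    2).neg
  simp only [zero_smul, add_zero] at h3
  have h4 : HP l (lam g) _ x := h3
  rw [h4.pd]
  have := (h.ww_pos hx).ne'
  field_simp

/-- trace of the second fundamental form -/
lemma Hm_eq {x : E n} (hx : R ≤ len x) : Hm g x = ∑ i, ∑ j, Pu g i j x * AA g x i j := by
  unfold Hm dv AA
  refine Finset.sum_congr rfl fun j _ => ?_
  rw [h.cv_nu hx, Finset.sum_div]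
  exact Finset.sum_congr rfl fun l _ => by ring

lemma trace_sq {x : E n} (hx : R ≤ len x) :
    ∑ i, ∑ j, cv g (nu g) i j x * cv g (nu g) j i x = ct g x (AA g x) (AA g x) := by
  unfold ct
  have e1 : ∀ i j, cv g (nu g) i j x = ∑ l, Pu g j l x * AA g x i l := by
    intro i j
    rw [h.cv_nu hx, Finset.sum_div]
    exact Finset.sum_congr rfl fun l _ => by unfold AA; ring
  have e2 : ∀ i j, AA g x i j = AA g x j i := fun i j => by unfold AA; rw [h.hs_symm hx]
  calc ∑ i, ∑ j, cv g (nu g) i j x * cv g (nu g) j i x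
      = ∑ i, ∑ j, ∑ l, ∑ m, Pu g i m x * Pu g l j x * AA g x i l * AA g x m j := by
        refine Finset.sum_congr rfl fun i _ => Finset.sum_congr rfl fun j _ => ?_
        rw [e1 i j, e1 j i, Finset.sum_mul_sum]
        refine Finset.sum_congr rfl fun l _ => Finset.sum_congr rfl fun m _ => ?_
        rw [h.Pu_symm j l, e2 j m]
        ring
    _ = ∑ i, ∑ l, ∑ j, ∑ m, Pu g i m x * Pu g l j x * AA g x i l * AA g x m j :=
        Finset.sum_congr rfl fun i _ => Finset.sum_comm
    _ = _ := Finset.sum_congr rfl fun i _ => Finset.sum_congr rfl fun l _ => Finset.sum_comm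

/-- `∇_ν ν = - ∇ log φ` -/
lemma acc_ZZ {x : E n} (hx : R ≤ len x) (j : Fin n) :
    ∑ i, nu g i x * cv g (nu g) i j x = -ZZ g j x := by
  have hs0 := h.sq_pos hx
  have hw0 := h.ww_pos hx
  have hsq := h.sq_mul hx
  calc ∑ i, nu g i x * cv g (nu g) i j x
      = ∑ i, ∑ l, Pu g j l x * (nu g i x * hs g i l x) / √(ww g x) := by
        refine Finset.sum_congr rfl fun i _ => ?_
        rw [h.cv_nu hx, mul_div_assoc', Finset.mul_sum, Finset.sum_div]
        exact Finset.sum_congr rfl fun l _ => by ring
    _ = ∑ l, ∑ i, Pu g j l x * (nu g i x * hs g i l x) / √(ww g x) := Finset.sum_comm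
    _ = ∑ l, Pu g j l x * (pd l (ww g) x / (2 * ww g x)) := by
        refine Finset.sum_congr rfl fun l _ => ?_
        rw [← Finset.sum_div, ← Finset.mul_sum, h.acc hx]
        nth_rewrite 3 [← hsq]
        field_simp
    _ = _ := by
        unfold ZZ
        rw [← Finset.sum_neg_distrib]
        exact Finset.sum_congr rfl fun l _ => by rw [h.pd_lam hx]; ring

/-- **Riccati equation.** -/
theorem nu_Hm {x : E n} (hx : R < len x) : ∑ i, nu g i x * pd i (Hm g) x =
    -dv g (ZZ g) x - ct g x (AA g x) (AA g x) - ∑ i, ∑ j, ric g i j x * nu g i x * nu g j x := by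
  have h1 := h.riccati hx.le (fun i => h.cnu hx.le i)
  rw [h.trace_sq hx.le] at h1
  have h2 : dv g (fun j y => ∑ i, nu g i y * cv g (nu g) i j y) x = -dv g (ZZ g) x := by
    rw [dv_congr (W := fun j y => -ZZ g j y) fun j => by
      filter_upwards [near hx] with y hy
      exact h.acc_ZZ hy j]
    unfold dv cv
    rw [← Finset.sum_neg_distrib]
    refine Finset.sum_congr rfl fun j _ => ?_
    have h3 : HP j (fun y => -ZZ g j y) _ x := (HPf (h.cZZ hx.le j) j).neg
    rw [h3.pd, neg_add, ← Finset.sum_neg_distrib]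
    congr 1
    exact Finset.sum_congr rfl fun k _ => by ring
  rw [h2] at h1
  have h3 : ∑ i, ∑ j, nu g i x * nu g j x * ric g i j x =
      ∑ i, ∑ j, ric g i j x * nu g i x * nu g j x :=
    Finset.sum_congr rfl fun i _ => Finset.sum_congr rfl fun j _ => by ring
  rw [h3] at h1
  change -dv g (ZZ g) x - ∑ i, nu g i x * pd i (Hm g) x = _ at h1
  linarith

/-! ### the momentum density -/

section

variable {K : Field n} (hK : ∀ i j, Smooth (fun x => K x i j)) (hKs : ∀ x i j, K x i j = K x j i)

include hK in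
lemma ctauf {x : E n} (hx : R ≤ len x) : ContDiffAt ℝ ∞ (tauf g K) x := by
  unfold tauf
  exact ContDiffAt.sum fun i _ => ContDiffAt.sum fun j _ => (h.cPu hx i j).mul
    (hK i j).contDiffAt

include hK in
lemma ckap {x : E n} (hx : R ≤ len x) (k : Fin n) : ContDiffAt ℝ ∞ (kap g K k) x := by
  unfold kap
  exact ContDiffAt.sum fun i _ => (hK i k).contDiffAt.mul (h.cnu hx i)

include hK in
lemma cbb {x : E n} (hx : R ≤ len x) (k : Fin n) : ContDiffAt ℝ ∞ (bb g K k) x := by
  unfold bb
  exact ContDiffAt.sum fun i _ => (h.cPu hx k i).mul (h.ckap hK hx i)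

include hK in
lemma ctr {x : E n} (hx : R ≤ len x) : ContDiffAt ℝ ∞ (tr g K) x := by
  unfold tr
  exact ContDiffAt.sum fun i _ => ContDiffAt.sum fun j _ => (h.cup hx i j).mul
    (hK i j).contDiffAt

include hK in
lemma cmomT {x : E n} (hx : R ≤ len x) (i j : Fin n) :
    ContDiffAt ℝ ∞ (fun y => momT g K y i j) x := by
  unfold momT
  exact (hK i j).contDiffAt.sub ((h.ctr hK hx).mul (h.gs i j).contDiffAt)

omit h in
lemma up_split {x : E n} (i j : Fin n) : up g i j x = Pu g i j x + nu g i x * nu g j x := by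
  unfold Pu; ring

include hKs in
lemma kap_eq {x : E n} (k : Fin n) : kap g K k x = ∑ i, K x k i * nu g i x := by
  unfold kap
  exact Finset.sum_congr rfl fun i _ => by rw [hKs x i k]

include hKs in
lemma kn_eq {x : E n} : kn g K x = ∑ i, ∑ j, K x i j * nu g i x * nu g j x := by
  unfold kn
  refine Finset.sum_congr rfl fun i _ => ?_
  rw [h.kap_eq hKs, Finset.mul_sum]
  exact Finset.sum_congr rfl fun j _ => by ring

include hKs in
lemma tr_split {x : E n} : tr g K x = tauf g K x + kn g K x := by
  rw [h.kn_eq hKs]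
  unfold tr tauf
  rw [← Finset.sum_add_distrib]
  refine Finset.sum_congr rfl fun i _ => ?_
  rw [← Finset.sum_add_distrib]
  refine Finset.sum_congr rfl fun j _ => ?_
  rw [up_split i j]
  ring

include hKs in
lemma normSq_split {x : E n} : normSq g K x =
    ct g x (fun i j => K x i j) (fun i j => K x i j) +
      2 * dt g x (fun k => kap g K k x) (fun k => kap g K k x) + kn g K x ^ 2 := by
  have h1 := quad_split (fun i j => Pu g i j x) (fun i => nu g i x) 1
    (fun i j => K x i j) (fun i j => K x i j)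
  have h2 : ∀ i j k l, up g i k x * up g j l x * K x i j * K x k l =
      (Pu g i k x + 1 * (nu g i x * nu g k x)) *
        (Pu g j l x + 1 * (nu g j x * nu g l x)) * K x i j * K x k l := by
    intro i j k l
    rw [up_split i k, up_split j l]
    ring
  unfold normSq
  simp only [h2]
  rw [h1]
  have h3 : ∑ j, ∑ l, Pu g j l x * (∑ i, nu g i x * K x i j) * (∑ k, nu g k x * K x k l) =
      dt g x (fun k => kap g K k x) (fun k => kap g K k x) := by
    unfold dt kap
    refine Finset.sum_congr rfl fun j _ => Finset.sum_congr rfl fun l _ => ?_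
    congr 1
    · congr 1
      exact Finset.sum_congr rfl fun i _ => by ring
    · exact Finset.sum_congr rfl fun i _ => by ring
  have h4 : ∑ i, ∑ k, Pu g i k x * (∑ j, K x i j * nu g j x) * (∑ l, K x k l * nu g l x) =
      dt g x (fun k => kap g K k x) (fun k => kap g K k x) := by
    unfold dt
    simp only [h.kap_eq hKs]
  have h5 : ∑ i, ∑ j, K x i j * nu g i x * nu g j x = kn g K x := (h.kn_eq hKs).symm
  rw [h3, h4, h5]
  unfold ct
  ring

include hKs in
/-- `π(ν, ·)` as a vector -/
lemma pi_nu {x : E n} (hx : R ≤ len x) (i : Fin n) :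
    ∑ k, ∑ j, up g i k x * momT g K x k j * nu g j x = bb g K i x - tauf g K x * nu g i x := by
  have e1 : ∑ k, ∑ j, up g i k x * momT g K x k j * nu g j x =
      (∑ k, up g i k x * kap g K k x) - tr g K x * nu g i x := by
    have e2 : ∀ k, ∑ j, up g i k x * momT g K x k j * nu g j x =
        up g i k x * kap g K k x - tr g K x * ∑ j, up g i k x * g x k j * nu g j x := by
      intro k
      rw [h.kap_eq hKs, Finset.mul_sum, Finset.mul_sum, ← Finset.sum_sub_distrib]
      refine Finset.sum_congr rfl fun j _ => ?_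
      unfold momT
      ring
    simp only [e2, Finset.sum_sub_distrib, ← Finset.mul_sum]
    congr 2
    rw [Finset.sum_comm]
    simp only [← Finset.sum_mul, h.up_g hx]
    simp
  have e3 : ∑ k, up g i k x * kap g K k x = bb g K i x + nu g i x * kn g K x := by
    unfold bb kn
    rw [Finset.mul_sum, ← Finset.sum_add_distrib]
    refine Finset.sum_congr rfl fun k _ => ?_
    rw [up_split i k]
    ring
  rw [e1, e3, h.tr_split hKs]
  ring

include hKs in
lemma bb_lam {x : E n} : ∑ j, ZZ g j x * kap g K j x = ∑ j, bb g K j x * pd j (lam g) x := by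
  unfold ZZ bb
  simp only [Finset.sum_mul]
  rw [Finset.sum_comm]
  refine Finset.sum_congr rfl fun k _ => Finset.sum_congr rfl fun l _ => ?_
  rw [h.Pu_symm l k]
  ring

include hKs in
/-- contraction of `π` with the covariant derivative of the normal -/
lemma pi_cv {x : E n} (hx : R ≤ len x) :
    ∑ i, ∑ k, ∑ j, up g i k x * momT g K x k j * cv g (nu g) i j x =
      ct g x (fun i j => K x i j) (AA g x) - (∑ j, bb g K j x * pd j (lam g) x) -
        tr g K x * Hm g x := by
  have e1 : ∀ i k, ∑ j, up g i k x * momT g K x k j * cv g (nu g) i j x =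
      (∑ j, up g i k x * K x k j * cv g (nu g) i j x) -
        tr g K x * ∑ j, up g i k x * g x k j * cv g (nu g) i j x := by
    intro i k
    rw [Finset.mul_sum, ← Finset.sum_sub_distrib]
    refine Finset.sum_congr rfl fun j _ => ?_
    unfold momT
    ring
  simp only [e1, Finset.sum_sub_distrib, ← Finset.mul_sum]
  have e2 : ∑ i, ∑ k, ∑ j, up g i k x * g x k j * cv g (nu g) i j x = Hm g x := by
    unfold Hm dv
    refine Finset.sum_congr rfl fun i _ => ?_
    rw [Finset.sum_comm]
    simp only [← Finset.sum_mul, h.up_g hx]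
    simp
  rw [e2]
  congr 1
  have e3 : ∀ i k, ∑ j, up g i k x * K x k j * cv g (nu g) i j x =
      (∑ j, Pu g i k x * K x k j * cv g (nu g) i j x) +
        nu g k x * ∑ j, K x k j * (nu g i x * cv g (nu g) i j x) := by
    intro i k
    rw [Finset.mul_sum, ← Finset.sum_add_distrib]
    refine Finset.sum_congr rfl fun j _ => ?_
    rw [up_split i k]
    ring
  simp only [e3, Finset.sum_add_distrib]
  have e4 : ∑ i, ∑ k, nu g k x * ∑ j, K x k j * (nu g i x * cv g (nu g) i j x) =
      -∑ j, bb g K j x * pd j (lam g) x := by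
    rw [← h.bb_lam hKs]
    calc ∑ i, ∑ k, nu g k x * ∑ j, K x k j * (nu g i x * cv g (nu g) i j x)
        = ∑ k, ∑ i, ∑ j, nu g k x * K x k j * (nu g i x * cv g (nu g) i j x) := by
          rw [Finset.sum_comm]
          refine Finset.sum_congr rfl fun k _ => Finset.sum_congr rfl fun i _ => ?_
          rw [Finset.mul_sum]
          exact Finset.sum_congr rfl fun j _ => by ring
      _ = ∑ k, ∑ j, ∑ i, nu g k x * K x k j * (nu g i x * cv g (nu g) i j x) :=
          Finset.sum_congr rfl fun k _ => Finset.sum_comm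
      _ = ∑ k, ∑ j, -(ZZ g j x * (K x k j * nu g k x)) := by
          refine Finset.sum_congr rfl fun k _ => Finset.sum_congr rfl fun j _ => ?_
          rw [← Finset.mul_sum, h.acc_ZZ hx]
          ring
      _ = ∑ j, ∑ k, -(ZZ g j x * (K x k j * nu g k x)) := Finset.sum_comm
      _ = _ := by
          rw [← Finset.sum_neg_distrib]
          refine Finset.sum_congr rfl fun j _ => ?_
          unfold kap
          rw [Finset.mul_sum, ← Finset.sum_neg_distrib]
  have e5 : ∑ i, ∑ k, ∑ j, Pu g i k x * K x k j * cv g (nu g) i j x =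
      ct g x (fun i j => K x i j) (AA g x) := by
    unfold ct
    calc ∑ i, ∑ k, ∑ j, Pu g i k x * K x k j * cv g (nu g) i j x
        = ∑ k, ∑ i, ∑ j, ∑ l, Pu g k i x * Pu g j l x * K x k j * AA g x i l := by
          rw [Finset.sum_comm]
          refine Finset.sum_congr rfl fun k _ => Finset.sum_congr rfl fun i _ =>
            Finset.sum_congr rfl fun j _ => ?_
          rw [h.cv_nu hx, Finset.sum_div, Finset.mul_sum]
          refine Finset.sum_congr rfl fun l _ => ?_
          rw [h.Pu_symm i k]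
          unfold AA
          ring
      _ = _ := Finset.sum_congr rfl fun k _ => Finset.sum_comm
  rw [e4, e5]
  ring

include hK hKs in
/-- **Codazzi equation.** -/
theorem Jn_eq {x : E n} (hx : R < len x) : Jn g K x =
    dv g (bb g K) x - (∑ i, nu g i x * pd i (tauf g K) x) + kn g K x * Hm g x -
      ct g x (fun i j => K x i j) (AA g x) + ∑ j, bb g K j x * pd j (lam g) x := by
  have hx' := hx.le
  have h1 := div_alg (fun i => nu g i x) (fun i j => pd i (nu g j) x) (fun i j => up g i j x)
    (fun i j => momT g K x i j) (fun k i j => pd k (fun y => momT g K y i j) x)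
    (fun k i j => pd k (up g i j) x) (fun k i j => chr g k i j x) (fun i j => h.up_symm i j)
    (fun k i j => h.chr_symm hx' k i j) (fun i j k => h.pd_up hx' i j k)
  have e1 : Jn g K x = ∑ j, nu g j x * ∑ i, ∑ k, up g i k x * (pd k (fun y => momT g K y i j) x -
      ∑ l, (chr g l k i x * momT g K x l j + chr g l k j x * momT g K x i l)) := by
    unfold Jn mom
    exact Finset.sum_congr rfl fun j _ => mul_comm _ _
  have e2 : dv g (fun i y => ∑ k, ∑ j, up g i k y * momT g K y k j * nu g j y) x =
      (∑ i, ∑ k, ∑ j, (pd i (up g i k) x * momT g K x k j * nu g j x +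
        up g i k x * pd i (fun y => momT g K y k j) x * nu g j x +
        up g i k x * momT g K x k j * pd i (nu g j) x)) +
      (∑ i, (∑ m, chr g m m i x) * ∑ k, ∑ j, up g i k x * momT g K x k j * nu g j x) := by
    rw [dv_eq, Finset.sum_add_distrib]
    congr 1
    refine Finset.sum_congr rfl fun i _ => ?_
    have h2 : HP i (fun y => ∑ k, ∑ j, up g i k y * momT g K y k j * nu g j y) _ x :=
      HP.sum Finset.univ fun k _ => HP.sum Finset.univ fun j _ =>
        ((HPf (h.cup hx' i k) i).mul (HPf (h.cmomT hK hx' k j) i)).mul (HPf (h.cnu hx' j) i)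
    rw [h2.pd]
    exact Finset.sum_congr rfl fun k _ => Finset.sum_congr rfl fun j _ => by ring
  have e3 : dv g (fun i y => ∑ k, ∑ j, up g i k y * momT g K y k j * nu g j y) x =
      dv g (bb g K) x - (∑ i, nu g i x * pd i (tauf g K) x) - tauf g K x * Hm g x := by
    rw [dv_congr (W := fun i y => bb g K i y - tauf g K y * nu g i y) fun i => by
      filter_upwards [near hx] with y hy
      exact h.pi_nu hKs hy i]
    unfold Hm
    rw [dv_eq, dv_eq, dv_eq, Finset.mul_sum, ← Finset.sum_sub_distrib, ← Finset.sum_sub_distrib]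
    refine Finset.sum_congr rfl fun i _ => ?_
    have h2 : HP i (fun y => bb g K i y - tauf g K y * nu g i y) _ x :=
      (HPf (h.cbb hK hx' i) i).sub ((HPf (h.ctauf hK hx') i).mul (HPf (h.cnu hx' i) i))
    rw [h2.pd]
    ring
  rw [e1, h1, ← e2, e3]
  have e4 := h.pi_cv hKs hx'
  unfold cv at e4
  rw [e4, h.tr_split hKs]
  ring

include hKs in
lemma mu_split {x : E n} : scal g x = 2 * mu g K x - tauf g K x ^ 2 -
    2 * tauf g K x * kn g K x + ct g x (fun i j => K x i j) (fun i j => K x i j) +
      2 * dt g x (fun k => kap g K k x) (fun k => kap g K k x) := by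
  unfold mu
  rw [h.normSq_split hKs, h.tr_split hKs]
  ring

/-- `H² - τ²` -/
def _root_.Vale.Agent.H106.Qf (g K : Field n) (x : E n) : ℝ := Hm g x ^ 2 - tauf g K x ^ 2

include hK in
lemma cQf {x : E n} (hx : R ≤ len x) : ContDiffAt ℝ ∞ (Qf g K) x :=
  ((h.cHm hx).pow 2).sub ((h.ctauf hK hx).pow 2)

include hK in
lemma pd_Qf {x : E n} (hx : R ≤ len x) (i : Fin n) : pd i (Qf g K) x =
    2 * Hm g x * pd i (Hm g) x - 2 * tauf g K x * pd i (tauf g K) x := by
  have h1 : HP i (fun y => Hm g y * Hm g y - tauf g K y * tauf g K y) _ x :=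
    ((HPf (h.cHm hx) i).mul (HPf (h.cHm hx) i)).sub
      ((HPf (h.ctauf hK hx) i).mul (HPf (h.ctauf hK hx) i))
  have e : Qf g K = fun y => Hm g y * Hm g y - tauf g K y * tauf g K y := by
    funext y; unfold Qf; ring
  rw [e, h1.pd]
  ring

include hK hKs in
/-- **The variation of `H² - τ²`.** -/
theorem nu_Qf {x : E n} (hx : R < len x) :
    (∑ i, nu g i x * pd i (Qf g K) x) + Hm g x * Qf g K x =
      Hm g x * RS g x - 2 * (Hm g x * mu g K x - tauf g K x * Jn g K x) -
      (Hm g x * ct g x (AA g x) (AA g x) - 2 * tauf g K x * ct g x (fun i j => K x i j) (AA g x) +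
        Hm g x * ct g x (fun i j => K x i j) (fun i j => K x i j)) -
      2 * Hm g x * dt g x (fun k => kap g K k x) (fun k => kap g K k x) -
      2 * tauf g K x * (∑ j, bb g K j x * pd j (lam g) x) -
      2 * Hm g x * dv g (ZZ g) x - 2 * tauf g K x * dv g (bb g K) x := by
  have h1 := h.nu_Hm hx
  have h2 := h.Jn_eq hK hKs hx
  have h3 := h.mu_split hKs (x := x)
  have e1 : ∑ i, nu g i x * pd i (Qf g K) x = 2 * Hm g x * (∑ i, nu g i x * pd i (Hm g) x) -
      2 * tauf g K x * ∑ i, nu g i x * pd i (tauf g K) x := by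
    simp only [Finset.mul_sum, ← Finset.sum_sub_distrib]
    exact Finset.sum_congr rfl fun i _ => by rw [h.pd_Qf hK hx.le i]; ring
  rw [e1, h1]
  unfold RS Qf
  rw [h3]
  linear_combination (-(2 * tauf g K x)) * h2
end

end Met

end Vale.Agent.H106
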