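import Vale.Agent.P366.R2.H106.Geo

/-! The pointwise inequality. -/

open MeasureTheory Metric Filter Topology Set
open scoped ContDiff ENNReal Matrix MatrixOrder

noncomputable section
namespace Vale.Agent.H106
open Vale.Agent.P366.Stmt Vale.Agent.P366.T2 Vale.Agent.T4

variable {n : ℕ}

/-- area density of the centred spheres relative to the round measure -/
def ad (g : Field n) (x : E n) : ℝ := sg g x * √(ww g x)

/-- lapse times mean curvature: the logarithmic rate of change of the area element -/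
def Fx (g : Field n) (x : E n) : ℝ := Hm g x / √(ww g x)

/-- lapse times trace of `K` -/
def kF (g K : Field n) (x : E n) : ℝ := tauf g K x / √(ww g x)

/-- `τ / H` -/
def uf (g K : Field n) (x : E n) : ℝ := tauf g K x / Hm g x

/-- rapidity -/
def chi (g K : Field n) (x : E n) : ℝ := Real.log ((1 + uf g K x) / (1 - uf g K x)) / 2

/-- torsion -/
def alp (g K : Field n) (k : Fin n) (x : E n) : ℝ := kap g K k x - pd k (chi g K) x

/-- `d log H - u K(ν, ·)` -/
def ehk (g K : Field n) (k : Fin n) (x : E n) : ℝ :=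
  pd k (fun y => Real.log (Hm g y)) x - uf g K x * kap g K k x

/-- right-hand side of the integral inequality -/
def gR (g K : Field n) (x : E n) : ℝ := Fx g x * (mu g K x - uf g K x * Jn g K x +
  dt g x (fun k => ehk g K k x) (fun k => ehk g K k x) +
  (1 - uf g K x ^ 2) * dt g x (fun k => alp g K k x) (fun k => alp g K k x))

/-- the part of the left-hand side of the integral inequality without the averages -/
def gL (g K : Field n) (x : E n) : ℝ := Fx g x * RS g x +
  dt g x (fun k => pd k (Fx g) x) (fun k => pd k (fun y => Real.log (Qf g K y)) x) -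
  2 * dt g x (fun k => alp g K k x) (fun k => pd k (kF g K) x)

lemma dt_lin (g : Field n) (x : E n) (p q r s : Fin n → ℝ) (a b c d a' b' c' d' : ℝ) :
    dt g x (fun k => a * p k + b * q k + c * r k + d * s k)
      (fun k => a' * p k + b' * q k + c' * r k + d' * s k) =
    a * a' * dt g x p p + b * b' * dt g x q q + c * c' * dt g x r r + d * d' * dt g x s s +
    a * b' * dt g x p q + b * a' * dt g x q p + a * c' * dt g x p r + c * a' * dt g x r p +
    a * d' * dt g x p s + d * a' * dt g x s p + b * c' * dt g x q r + c * b' * dt g x r q +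
    b * d' * dt g x q s + d * b' * dt g x s q + c * d' * dt g x r s + d * c' * dt g x s r := by
  unfold dt
  simp only [Finset.mul_sum, ← Finset.sum_add_distrib]
  exact Finset.sum_congr rfl fun k _ => Finset.sum_congr rfl fun l _ => by ring

namespace Met

variable {g : Field n} {R : ℝ} (h : Met g R)
include h

/-! ### tensors -/

lemma Pu_posSemidef {x : E n} (hx : R ≤ len x) :
    (Matrix.of fun i j => Pu g i j x).PosSemidef := by
  refine Matrix.PosSemidef.of_dotProduct_mulVec_nonneg ?_ fun a => ?_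
  · ext i j
    simp only [Matrix.conjTranspose_apply, Matrix.of_apply, star_trivial]
    exact h.Pu_symm j i
  · refine (h.Pu_nonneg hx a).trans (le_of_eq ?_)
    simp only [dotProduct, Matrix.mulVec, Pi.star_apply, star_trivial, Matrix.of_apply,
      Finset.mul_sum]
    exact Finset.sum_congr rfl fun k _ => Finset.sum_congr rfl fun l _ => by ring

lemma ct_comb {x : E n} (hx : R ≤ len x) (A C : Fin n → Fin n → ℝ) (s t : ℝ) :
    0 ≤ s ^ 2 * ct g x A A - 2 * s * t * ct g x A C + t ^ 2 * ct g x C C := by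
  obtain ⟨M, hM⟩ : ∃ M : Matrix (Fin n) (Fin n) ℝ, (Matrix.of fun i j => Pu g i j x) = Mᴴ * M := by
    have h0 := h.Pu_posSemidef hx
    exact CStarAlgebra.nonneg_iff_eq_star_mul_self.mp h0.nonneg
  have hS : ∀ i k, Pu g i k x = ∑ a, M a i * M a k := by
    intro i k
    have := congrFun (congrFun hM i) k
    rw [Matrix.mul_apply] at this
    simpa using this
  -- general bilinear formula
  have key : ∀ A C : Fin n → Fin n → ℝ, ct g x A C =
      ∑ a, ∑ b, (∑ i, ∑ j, M a i * M b j * A i j) * (∑ k, ∑ l, M a k * M b l * C k l) := by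
    intro A C
    unfold ct
    have e1 : ∀ i j k l, Pu g i k x * Pu g j l x * A i j * C k l =
        ∑ a, ∑ b, (M a i * M b j * A i j) * (M a k * M b l * C k l) := by
      intro i j k l
      rw [hS i k, hS j l, Finset.sum_mul_sum, Finset.sum_mul, Finset.sum_mul]
      refine Finset.sum_congr rfl fun a _ => ?_
      rw [Finset.sum_mul, Finset.sum_mul]
      exact Finset.sum_congr rfl fun b _ => by ring
    simp only [e1]
    have e2 : ∀ a b, (∑ i, ∑ j, M a i * M b j * A i j) * (∑ k, ∑ l, M a k * M b l * C k l) =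
        ∑ i, ∑ j, ∑ k, ∑ l, (M a i * M b j * A i j) * (M a k * M b l * C k l) := by
      intro a b
      rw [Finset.sum_mul]
      refine Finset.sum_congr rfl fun i _ => ?_
      rw [Finset.sum_mul]
      refine Finset.sum_congr rfl fun j _ => ?_
      rw [Finset.mul_sum]
      refine Finset.sum_congr rfl fun k _ => ?_
      rw [Finset.mul_sum]
    simp only [e2]
    -- move the sums over `a, b` outside
    have e3 : ∀ F : Fin n → Fin n → Fin n → Fin n → Fin n → Fin n → ℝ,
        ∑ i, ∑ j, ∑ k, ∑ l, ∑ a, ∑ b, F i j k l a b =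
        ∑ a, ∑ b, ∑ i, ∑ j, ∑ k, ∑ l, F i j k l a b := by
      intro F
      calc ∑ i, ∑ j, ∑ k, ∑ l, ∑ a, ∑ b, F i j k l a b
          = ∑ i, ∑ j, ∑ k, ∑ a, ∑ b, ∑ l, F i j k l a b := by
            refine Finset.sum_congr rfl fun i _ => Finset.sum_congr rfl fun j _ =>
              Finset.sum_congr rfl fun k _ => ?_
            rw [Finset.sum_comm]
            exact Finset.sum_congr rfl fun a _ => Finset.sum_comm
        _ = ∑ i, ∑ j, ∑ a, ∑ b, ∑ k, ∑ l, F i j k l a b := by
            refine Finset.sum_congr rfl fun i _ => Finset.sum_congr rfl fun j _ => ?_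
            rw [Finset.sum_comm]
            exact Finset.sum_congr rfl fun a _ => Finset.sum_comm
        _ = ∑ i, ∑ a, ∑ b, ∑ j, ∑ k, ∑ l, F i j k l a b := by
            refine Finset.sum_congr rfl fun i _ => ?_
            rw [Finset.sum_comm]
            exact Finset.sum_congr rfl fun a _ => Finset.sum_comm
        _ = ∑ a, ∑ b, ∑ i, ∑ j, ∑ k, ∑ l, F i j k l a b := by
            rw [Finset.sum_comm]
            exact Finset.sum_congr rfl fun a _ => Finset.sum_comm
    exact e3 _
  rw [key A A, key A C, key C C]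
  have e5 : ∀ α γ : Fin n → Fin n → ℝ, s ^ 2 * ∑ a, ∑ b, α a b * α a b -
      2 * s * t * ∑ a, ∑ b, α a b * γ a b + t ^ 2 * ∑ a, ∑ b, γ a b * γ a b =
      ∑ a, ∑ b, (s * α a b - t * γ a b) ^ 2 := by
    intro α γ
    simp only [Finset.mul_sum, ← Finset.sum_add_distrib, ← Finset.sum_sub_distrib]
    exact Finset.sum_congr rfl fun a _ => Finset.sum_congr rfl fun b _ => by ring
  rw [e5 (fun a b => ∑ i, ∑ j, M a i * M b j * A i j)
    (fun a b => ∑ i, ∑ j, M a i * M b j * C i j)]
  exact Finset.sum_nonneg fun a _ => Finset.sum_nonneg fun b _ => sq_nonneg _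

/-- `P g P = P` -/
lemma Pu_g {x : E n} (hx : R ≤ len x) (i k : Fin n) :
    ∑ j, Pu g i j x * g x j k = (if i = k then 1 else 0) - nu g i x * (nx k x / √(ww g x)) := by
  unfold Pu
  simp only [sub_mul, Finset.sum_sub_distrib, h.up_g hx, mul_assoc, ← Finset.mul_sum]
  congr 2
  rw [← h.g_nu hx]
  exact Finset.sum_congr rfl fun j _ => by rw [h.symm x j k]; ring

lemma ct_g {x : E n} (hx : R ≤ len x) (A : Fin n → Fin n → ℝ) :
    ct g x A (fun i j => g x i j) = ∑ i, ∑ j, Pu g i j x * A i j := by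
  unfold ct
  refine Finset.sum_congr rfl fun i _ => Finset.sum_congr rfl fun j _ => ?_
  have e1 : ∀ k, ∑ l, Pu g i k x * Pu g j l x * A i j * g x k l =
      A i j * (Pu g i k x * (if j = k then 1 else 0)) -
        A i j * nu g j x / √(ww g x) * (Pu g i k x * nx k x) := by
    intro k
    have e2 : ∀ l, Pu g i k x * Pu g j l x * A i j * g x k l =
        A i j * Pu g i k x * (Pu g j l x * g x l k) := by
      intro l; rw [h.symm x k l]; ring
    simp only [e2, ← Finset.mul_sum, h.Pu_g hx]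
    ring
  simp only [e1, Finset.sum_sub_distrib, ← Finset.mul_sum, h.Pu_nx hx]
  simp
  ring

lemma trace_g {x : E n} (hx : R ≤ len x) :
    ∑ i, ∑ j, Pu g i j x * g x i j = (n : ℝ) - 1 := by
  have e : ∀ i, ∑ j, Pu g i j x * g x i j = 1 - nu g i x * nx i x / √(ww g x) := by
    intro i
    have e1 : ∀ j, Pu g i j x * g x i j = Pu g i j x * g x j i := fun j => by rw [h.symm x i j]
    simp only [e1, h.Pu_g hx]
    simp
    ring
  simp only [e, Finset.sum_sub_distrib, ← Finset.sum_div, h.nu_nx hx]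
  rw [div_self (h.sq_pos hx).ne']
  simp

/-- `H² / (n - 1) ≤ |A|²` -/
lemma Hm_sq_le (hn : 2 ≤ n) {x : E n} (hx : R ≤ len x) :
    Hm g x ^ 2 / ((n : ℝ) - 1) ≤ ct g x (AA g x) (AA g x) := by
  have h2 : (2 : ℝ) ≤ n := by exact_mod_cast hn
  have h3 : 0 < (n : ℝ) - 1 := by linarith
  have h1 := h.ct_comb hx (AA g x) (fun i j => g x i j) 1 (Hm g x / ((n : ℝ) - 1))
  rw [h.ct_g hx, h.ct_g hx, h.trace_g hx, ← h.Hm_eq hx] at h1
  have e : (1 : ℝ) ^ 2 * ct g x (AA g x) (AA g x) - 2 * 1 * (Hm g x / ((n : ℝ) - 1)) * Hm g x +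
      (Hm g x / ((n : ℝ) - 1)) ^ 2 * ((n : ℝ) - 1) =
      ct g x (AA g x) (AA g x) - Hm g x ^ 2 / ((n : ℝ) - 1) := by
    field_simp
    ring
  rw [e] at h1
  linarith

/-- the tensor terms -/
lemma tensor_le (hn : 2 ≤ n) {x : E n} (hx : R ≤ len x) (C : Fin n → Fin n → ℝ) {t : ℝ}
    (ht : |t| < Hm g x) : (Hm g x ^ 2 - t ^ 2) * Hm g x / ((n : ℝ) - 1) ≤
      Hm g x * ct g x (AA g x) (AA g x) - 2 * t * ct g x C (AA g x) + Hm g x * ct g x C C := by
  have hH : 0 < Hm g x := (abs_nonneg t).trans_lt ht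
  have hQ : 0 ≤ Hm g x ^ 2 - t ^ 2 := by
    have := sq_lt_sq' (by linarith [(abs_lt.1 ht).1]) (abs_lt.1 ht).2
    linarith
  have h1 := h.ct_comb hx C (AA g x) (Hm g x) t
  have h2 := mul_le_mul_of_nonneg_left (h.Hm_sq_le hn hx) hQ
  have h3 : Hm g x * ((Hm g x ^ 2 - t ^ 2) * Hm g x / ((n : ℝ) - 1)) ≤
      Hm g x * (Hm g x * ct g x (AA g x) (AA g x) - 2 * t * ct g x C (AA g x) +
        Hm g x * ct g x C C) := by
    have e1 : Hm g x * ((Hm g x ^ 2 - t ^ 2) * Hm g x / ((n : ℝ) - 1)) =
        (Hm g x ^ 2 - t ^ 2) * (Hm g x ^ 2 / ((n : ℝ) - 1)) := by ring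
    rw [e1]
    nlinarith
  exact le_of_mul_le_mul_left h3 hH

/-- Cauchy–Schwarz for the normal component -/
lemma Jn_le {K : Field n} {x : E n} (hx : R ≤ len x) : |Jn g K x| ≤ covNorm g (mom g K) x := by
  unfold covNorm
  refine Real.abs_le_sqrt ?_
  have e : ∑ i, ∑ j, up g i j x * mom g K i x * mom g K j x =
      (∑ i, ∑ j, Pu g i j x * mom g K i x * mom g K j x) + Jn g K x ^ 2 := by
    unfold Jn
    rw [sq, Finset.sum_mul_sum, ← Finset.sum_add_distrib]
    refine Finset.sum_congr rfl fun i _ => ?_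
    rw [← Finset.sum_add_distrib]
    refine Finset.sum_congr rfl fun j _ => ?_
    rw [up_split i j]
    ring
  rw [e]
  have := h.Pu_nonneg hx (fun i => mom g K i x)
  linarith

/-! ### product rules -/

omit h in
lemma dv_mul {f : E n → ℝ} {V : Fin n → E n → ℝ} {x : E n}
    (hf : ContDiffAt ℝ ∞ f x) (hV : ∀ i, ContDiffAt ℝ ∞ (V i) x) :
    dv g (fun i y => f y * V i y) x = f x * dv g V x + ∑ i, V i x * pd i f x := by
  rw [dv_eq, dv_eq, Finset.mul_sum, ← Finset.sum_add_distrib]
  refine Finset.sum_congr rfl fun i _ => ?_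
  rw [((HPf hf i).mul (HPf (hV i) i)).pd]
  ring

lemma pd_Fx {x : E n} (hx : R ≤ len x) {f : E n → ℝ} (hf : ContDiffAt ℝ ∞ f x) (k : Fin n) :
    pd k (fun y => f y / √(ww g y)) x =
      (pd k f x + f x * pd k (lam g) x) / √(ww g x) := by
  have hs0 := h.sq_pos hx
  have hw0 := h.ww_pos hx
  have hsq := h.sq_mul hx
  have h1 : HasDerivAt _ _ (0 : ℝ) := HPf hf k
  have h2 : HasDerivAt _ _ (0 : ℝ) := HPf (h.cww hx) k
  have h3 := h1.div (h2.sqrt (by simp only [zero_smul, add_zero]; exact hw0.ne'))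
    (by simp only [zero_smul, add_zero]; exact hs0.ne')
  simp only [zero_smul, add_zero] at h3
  have h4 : HP k (fun y => f y / √(ww g y)) _ x := h3
  rw [h4.pd, h.pd_lam hx]
  obtain ⟨s, hs⟩ : ∃ s, s = √(ww g x) := ⟨_, rfl⟩
  rw [← hs] at hs0 hsq ⊢
  rw [← hsq]
  field_simp
  ring

section

variable {K : Field n} (hK : ∀ i j, Smooth (fun x => K x i j)) (hKs : ∀ x i j, K x i j = K x j i)

omit h in
lemma Q_pos {x : E n} (hlt : |tauf g K x| < Hm g x) : 0 < Qf g K x := by
  have := sq_lt_sq' (by linarith [(abs_lt.1 hlt).1]) (abs_lt.1 hlt).2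
  unfold Qf
  linarith

omit h in
lemma H_pos {x : E n} (hlt : |tauf g K x| < Hm g x) : 0 < Hm g x := (abs_nonneg _).trans_lt hlt

include hK in
lemma pd_uf {x : E n} (hx : R ≤ len x) (hlt : |tauf g K x| < Hm g x) (k : Fin n) :
    pd k (uf g K) x = (Hm g x * pd k (tauf g K) x - tauf g K x * pd k (Hm g) x) / Hm g x ^ 2 := by
  have h1 : HasDerivAt _ _ (0 : ℝ) := HPf (h.ctauf hK hx) k
  have h2 : HasDerivAt _ _ (0 : ℝ) := HPf (h.cHm hx) k
  have h3 := h1.div h2 (by simp only [zero_smul, add_zero]; exact (H_pos hlt).ne')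
  simp only [zero_smul, add_zero] at h3
  have h4 : HP k (uf g K) _ x := h3
  rw [h4.pd]
  ring

include hK in
lemma cuf {x : E n} (hx : R ≤ len x) (hlt : |tauf g K x| < Hm g x) :
    ContDiffAt ℝ ∞ (uf g K) x := (h.ctauf hK hx).div (h.cHm hx) (H_pos hlt).ne'

omit h in
lemma u_lt {x : E n} (hlt : |tauf g K x| < Hm g x) : |uf g K x| < 1 := by
  have hH := H_pos hlt
  unfold uf
  rw [abs_div, abs_of_pos hH, div_lt_one hH]
  exact hlt

omit h in
lemma u_ne {x : E n} (hlt : |tauf g K x| < Hm g x) :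
    1 - uf g K x ≠ 0 ∧ (1 + uf g K x) / (1 - uf g K x) ≠ 0 ∧ 0 < 1 - uf g K x ^ 2 := by
  have hu := abs_lt.1 (u_lt hlt)
  have h1 : 0 < 1 - uf g K x := by linarith
  have h2 : 0 < 1 + uf g K x := by linarith
  exact ⟨h1.ne', (div_pos h2 h1).ne', by nlinarith⟩

include hK in
lemma cchi {x : E n} (hx : R ≤ len x) (hlt : |tauf g K x| < Hm g x) :
    ContDiffAt ℝ ∞ (chi g K) x := by
  obtain ⟨a1, a2, -⟩ := u_ne hlt
  have h1 := h.cuf hK hx hlt
  unfold chi
  exact (((contDiffAt_const.add h1).div (contDiffAt_const.sub h1) a1).log a2).div_const 2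

include hK in
lemma pd_chi {x : E n} (hx : R ≤ len x) (hlt : |tauf g K x| < Hm g x) (k : Fin n) :
    pd k (chi g K) x =
      (Hm g x * pd k (tauf g K) x - tauf g K x * pd k (Hm g) x) / Qf g K x := by
  obtain ⟨a1, a2, a3⟩ := u_ne hlt
  have h1 : HasDerivAt _ _ (0 : ℝ) := HPf (h.cuf hK hx hlt) k
  have h2 := (((h1.const_add 1).div (h1.const_sub 1)
    (by simp only [zero_smul, add_zero]; exact a1)).log
    (by simp only [Pi.div_apply, zero_smul, add_zero]; exact a2)).div_const 2
  simp only [Pi.div_apply, zero_smul, add_zero] at h2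
  have h4 : HP k (chi g K) _ x := h2
  rw [h4.pd, h.pd_uf hK hx hlt]
  have hH := H_pos hlt
  have hQ := Q_pos hlt
  have e1 : 1 - uf g K x ^ 2 = Qf g K x / Hm g x ^ 2 := by
    unfold uf Qf; field_simp
  have e2 : (1 + uf g K x) ≠ 0 := by
    have hu := abs_lt.1 (u_lt hlt)
    have : 0 < 1 + uf g K x := by linarith
    exact this.ne'
  set U' := (Hm g x * pd k (tauf g K) x - tauf g K x * pd k (Hm g) x) with hU'
  have e3 : (U' / Hm g x ^ 2 * (1 - uf g K x) - (1 + uf g K x) * -(U' / Hm g x ^ 2)) /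
      (1 - uf g K x) ^ 2 / ((1 + uf g K x) / (1 - uf g K x)) / 2 =
      U' / Hm g x ^ 2 / (1 - uf g K x ^ 2) := by
    have e4 : 1 - uf g K x ^ 2 = (1 - uf g K x) * (1 + uf g K x) := by ring
    rw [e4]
    field_simp
    ring
  rw [e3, e1]
  field_simp

include hK in
/-- **The completed squares.** -/
lemma squares {x : E n} (hx : R ≤ len x) (hlt : |tauf g K x| < Hm g x) :
    -(2 * Hm g x * dt g x (fun k => kap g K k x) (fun k => kap g K k x)) -
      2 * tauf g K x * dt g x (fun k => kap g K k x) (fun k => pd k (lam g) x) +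
      2 * dt g x (fun k => pd k (lam g) x) (fun k => pd k (Hm g) x) +
      2 * dt g x (fun k => kap g K k x) (fun k => pd k (tauf g K) x) =
    √(ww g x) * (dt g x (fun k => pd k (Fx g) x)
        (fun k => pd k (fun y => Real.log (Qf g K y)) x) -
      2 * dt g x (fun k => alp g K k x) (fun k => pd k (kF g K) x)) -
      2 * Hm g x * (dt g x (fun k => ehk g K k x) (fun k => ehk g K k x) +
        (1 - uf g K x ^ 2) * dt g x (fun k => alp g K k x) (fun k => alp g K k x)) := by
  have hs0 := h.sq_pos hx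
  have hH := H_pos hlt
  have hQ := Q_pos hlt
  have e1 : (fun k => pd k (Fx g) x) = fun k => 0 * kap g K k x + (1 / √(ww g x)) *
      pd k (Hm g) x + 0 * pd k (tauf g K) x + (Hm g x / √(ww g x)) * pd k (lam g) x := by
    funext k
    have := h.pd_Fx hx (h.cHm hx) k
    unfold Fx
    rw [this]; ring
  have e2 : (fun k => pd k (kF g K) x) = fun k => 0 * kap g K k x + 0 *
      pd k (Hm g) x + (1 / √(ww g x)) * pd k (tauf g K) x +
        (tauf g K x / √(ww g x)) * pd k (lam g) x := by
    funext k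
    have := h.pd_Fx hx (h.ctauf hK hx) k
    unfold kF
    rw [this]; ring
  have e3 : (fun k => pd k (fun y => Real.log (Qf g K y)) x) = fun k => 0 * kap g K k x +
      (2 * Hm g x / Qf g K x) * pd k (Hm g) x +
        (-(2 * tauf g K x / Qf g K x)) * pd k (tauf g K) x + 0 * pd k (lam g) x := by
    funext k
    have h1 : HasDerivAt _ _ (0 : ℝ) := HPf (h.cQf hK hx) k
    have h2 := h1.log (by simp only [zero_smul, add_zero]; exact hQ.ne')
    simp only [zero_smul, add_zero] at h2
    have h4 : HP k (fun y => Real.log (Qf g K y)) _ x := h2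
    rw [h4.pd, h.pd_Qf hK hx]
    ring
  have e4 : (fun k => alp g K k x) = fun k => 1 * kap g K k x +
      (tauf g K x / Qf g K x) * pd k (Hm g) x +
        (-(Hm g x / Qf g K x)) * pd k (tauf g K) x + 0 * pd k (lam g) x := by
    funext k
    unfold alp
    rw [h.pd_chi hK hx hlt]
    ring
  have e5 : (fun k => ehk g K k x) = fun k => (-(tauf g K x / Hm g x)) * kap g K k x +
      (1 / Hm g x) * pd k (Hm g) x + 0 * pd k (tauf g K) x + 0 * pd k (lam g) x := by
    funext k
    unfold ehk uf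
    have h1 : HasDerivAt _ _ (0 : ℝ) := HPf (h.cHm hx) k
    have h2 := h1.log (by simp only [zero_smul, add_zero]; exact hH.ne')
    simp only [zero_smul, add_zero] at h2
    have h4 : HP k (fun y => Real.log (Hm g y)) _ x := h2
    rw [h4.pd]
    ring
  rw [e1, e2, e3, e4, e5]
  simp only [dt_lin]
  have s1 := h.dt_symm (x := x) (fun k => pd k (Hm g) x) (fun k => kap g K k x)
  have s2 := h.dt_symm (x := x) (fun k => pd k (tauf g K) x) (fun k => kap g K k x)
  have s3 := h.dt_symm (x := x) (fun k => pd k (lam g) x) (fun k => kap g K k x)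
  have s4 := h.dt_symm (x := x) (fun k => pd k (tauf g K) x) (fun k => pd k (Hm g) x)
  have s5 := h.dt_symm (x := x) (fun k => pd k (lam g) x) (fun k => pd k (Hm g) x)
  have s6 := h.dt_symm (x := x) (fun k => pd k (lam g) x) (fun k => pd k (tauf g K) x)
  rw [s1, s2, s3, s4, s5, s6]
  generalize dt g x (fun k => kap g K k x) (fun k => kap g K k x) = x1
  generalize dt g x (fun k => kap g K k x) (fun k => pd k (Hm g) x) = x2
  generalize dt g x (fun k => kap g K k x) (fun k => pd k (tauf g K) x) = x3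
  generalize dt g x (fun k => kap g K k x) (fun k => pd k (lam g) x) = x4
  generalize dt g x (fun k => pd k (Hm g) x) (fun k => pd k (Hm g) x) = x5
  generalize dt g x (fun k => pd k (Hm g) x) (fun k => pd k (tauf g K) x) = x6
  generalize dt g x (fun k => pd k (Hm g) x) (fun k => pd k (lam g) x) = x7
  generalize dt g x (fun k => pd k (tauf g K) x) (fun k => pd k (tauf g K) x) = x8
  generalize dt g x (fun k => pd k (tauf g K) x) (fun k => pd k (lam g) x) = x9
  generalize dt g x (fun k => pd k (lam g) x) (fun k => pd k (lam g) x) = x10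
  have hQe : Qf g K x = Hm g x ^ 2 - tauf g K x ^ 2 := rfl
  have hue : 1 - uf g K x ^ 2 = Qf g K x / Hm g x ^ 2 := by
    unfold uf Qf; field_simp
  rw [hue]
  generalize √(ww g x) = s at *
  generalize Hm g x = H at *
  generalize tauf g K x = t at *
  generalize Qf g K x = Q at *
  field_simp
  rw [hQe]
  ring

end

end Met

end Vale.Agent.H106
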