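import Vale.Agent.P366.R2.H106.Asym

/-! The limit of the monotone quantity. -/

open MeasureTheory Metric Filter Topology Set Asymptotics
open scoped ContDiff ENNReal Matrix MatrixOrder

noncomputable section
namespace Vale.Agent.H106
open Vale.Agent.P366.Stmt Vale.Agent.P366.T2 Vale.Agent.T4
open Vale.Agent.P366.T1.A919 (far far_iff far_of far_gt far_nhds O O_iff O_of_bigO O_const O_zero
  O_of_le O_inv_mat tail_bound)
open Vale.Agent.P366 (norm_smul_sph sphI sphM av sphI_congr sphI_const omega_pos')
open Vale.Agent.P366.T2.E68 (O1 O2 O0 taylor2)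

variable {n : ℕ} {g K : Field n} {R q : ℝ}

/-- tangential part of the deviation in the radial direction -/
def Zh (g : Field n) (i : Fin n) (x : E n) : ℝ := ∑ j, hh g i j x * nx j x - hnn g x * nx i x

lemma rpow_taylor (p : ℝ) : (fun x : ℝ => (1 + x) ^ p - 1 - p * x) =O[𝓝 0] fun x => x * x := by
  have hev : ∀ᶠ x : ℝ in 𝓝 0, 0 < 1 + x := by
    have : Tendsto (fun x : ℝ => 1 + x) (𝓝 0) (𝓝 (1 + 0)) :=
      (continuous_const.add continuous_id).tendsto 0
    exact this.eventually (lt_mem_nhds (by norm_num))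
  have h1 : ∀ᶠ x : ℝ in 𝓝 0, HasDerivAt (fun x : ℝ => (1 + x) ^ p) (p * (1 + x) ^ (p - 1)) x := by
    filter_upwards [hev] with x hx
    have := ((hasDerivAt_id x).const_add 1).rpow_const (p := p) (Or.inl hx.ne')
    refine this.congr_deriv ?_
    simp
  have h2 : DifferentiableAt ℝ (fun x : ℝ => p * (1 + x) ^ (p - 1)) 0 := by
    have h3 : DifferentiableAt ℝ (fun x : ℝ => 1 + x) 0 := by fun_prop
    exact (h3.rpow_const (Or.inl (by norm_num))).const_mul p
  have h3 := taylor2 h1 h2
  simpa using h3

lemma cont_hh (h : Met g R) (i j : Fin n) (x : E n) : ContDiffAt ℝ ∞ (hh g i j) x :=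
  (h.gs i j).contDiffAt.sub contDiffAt_const

lemma smooth_hnn (h : Met g R) {x : E n} (hx : x ≠ 0) : ContDiffAt ℝ ∞ (hnn g) x := by
  unfold hnn
  exact ContDiffAt.sum fun i _ => ContDiffAt.sum fun j _ => (cont_hh h i j x).mul
    ((contDiffAt_nx i hx).mul (contDiffAt_nx j hx))

lemma smooth_Zh (h : Met g R) {x : E n} (hx : x ≠ 0) (i : Fin n) : ContDiffAt ℝ ∞ (Zh g i) x := by
  unfold Zh
  exact (ContDiffAt.sum fun j _ => (cont_hh h i j x).mul (contDiffAt_nx j hx)).sub
    ((smooth_hnn h hx).mul (contDiffAt_nx i hx))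

/-- **the divergence identity** -/
lemma alin_ylin (h : Met g R) {x : E n} (hx : x ≠ 0) :
    alin g x + ylin g x = -(len x * (∑ i, pd i (Zh g i) x)) / 2 - len x * eden g x := by
  have hl := len_ne hx
  have hpd : ∀ i j k, HP k (hh g i j) (pd k (fun y => g y i j) x) x := by
    intro i j k
    have := (Met.HPf ((h.gs i j).contDiffAt (x := x)) k).sub (HP.const k (if i = j then 1 else 0) x)
    rw [sub_zero] at this
    exact this
  -- derivative of `hnn`
  have hd : ∀ k, pd k (hnn g) x = ∑ i, ∑ j, (pd k (fun y => g y i j) x * (nx i x * nx j x) +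
      hh g i j x * (dnx k i x * nx j x + nx i x * dnx k j x)) := by
    intro k
    have h1 : HP k (hnn g) _ x := HP.sum Finset.univ fun i _ => HP.sum Finset.univ fun j _ =>
      (hpd i j k).mul ((HP_nx hx k i).mul (HP_nx hx k j))
    exact h1.pd
  have hZ : ∀ i, pd i (Zh g i) x = (∑ j, (pd i (fun y => g y i j) x * nx j x +
      hh g i j x * dnx i j x)) - (pd i (hnn g) x * nx i x + hnn g x * dnx i i x) := by
    intro i
    have h1 : HP i (Zh g i) _ x := (HP.sum Finset.univ fun j _ => (hpd i j i).mul
      (HP_nx hx i j)).sub ((Met.HPf (smooth_hnn h hx) i).mul (HP_nx hx i i))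
    exact h1.pd
  -- contractions
  have c1 : ∑ i, nx i x * pd i (hnn g) x = dnnh g x := by
    simp only [hd]
    have e1 : ∀ k, nx k x * ∑ i, ∑ j, (pd k (fun y => g y i j) x * (nx i x * nx j x) +
        hh g i j x * (dnx k i x * nx j x + nx i x * dnx k j x)) =
        (∑ i, ∑ j, pd k (fun y => g y i j) x * (nx k x * nx i x * nx j x)) +
        (∑ i, ∑ j, hh g i j x * (nx k x * dnx k i x * nx j x + nx i x * (nx k x * dnx k j x))) := by
      intro k
      simp only [Finset.mul_sum, ← Finset.sum_add_distrib]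
      exact Finset.sum_congr rfl fun i _ => Finset.sum_congr rfl fun j _ => by ring
    rw [Finset.sum_congr rfl fun k _ => e1 k, Finset.sum_add_distrib]
    have e2 : ∑ k, ∑ i, ∑ j, hh g i j x * (nx k x * dnx k i x * nx j x +
        nx i x * (nx k x * dnx k j x)) = 0 := by
      calc ∑ k, ∑ i, ∑ j, hh g i j x * (nx k x * dnx k i x * nx j x +
            nx i x * (nx k x * dnx k j x))
          = ∑ i, ∑ k, ∑ j, hh g i j x * (nx k x * dnx k i x * nx j x +
            nx i x * (nx k x * dnx k j x)) := Finset.sum_comm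
        _ = ∑ i, ∑ j, ∑ k, hh g i j x * (nx k x * dnx k i x * nx j x +
            nx i x * (nx k x * dnx k j x)) :=
            Finset.sum_congr rfl fun i _ => Finset.sum_comm
        _ = ∑ i, ∑ j, hh g i j x * ((∑ k, nx k x * dnx k i x) * nx j x +
            nx i x * ∑ k, nx k x * dnx k j x) := by
            refine Finset.sum_congr rfl fun i _ => Finset.sum_congr rfl fun j _ => ?_
            rw [← Finset.mul_sum, Finset.sum_add_distrib, Finset.sum_mul, Finset.mul_sum]
        _ = 0 := by
            refine Finset.sum_eq_zero fun i _ => Finset.sum_eq_zero fun j _ => ?_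
            rw [Met.nx_dnx hx, Met.nx_dnx hx]
            ring
    rw [e2, add_zero]
    unfold dnnh
    rfl
  have c2 : ∑ i, ∑ j, hh g i j x * dnx i j x = (trh g x - hnn g x) / len x := by
    unfold trh hnn
    rw [← Finset.sum_sub_distrib, Finset.sum_div]
    refine Finset.sum_congr rfl fun i _ => ?_
    have : ∀ j, hh g i j x * dnx i j x =
        ((if i = j then hh g i j x else 0) - hh g i j x * (nx i x * nx j x)) / len x := by
      intro j
      unfold dnx
      have : (if j = i then (1 : ℝ) else 0) = if i = j then 1 else 0 := by simp [eq_comm]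
      rw [this]
      split_ifs <;> ring
    simp only [this, ← Finset.sum_div, Finset.sum_sub_distrib]
    simp
  have c3 : ∑ i, pd i (Zh g i) x = dnh g x + (trh g x - hnn g x) / len x - dnnh g x -
      ((n : ℝ) - 1) * hnn g x / len x := by
    simp only [hZ, Finset.sum_add_distrib, Finset.sum_sub_distrib, ← Finset.mul_sum]
    rw [c2, sum_dnx hx]
    have e1 : ∑ i, pd i (hnn g) x * nx i x = dnnh g x := by
      rw [← c1]
      exact Finset.sum_congr rfl fun i _ => by ring
    rw [e1]
    unfold dnh
    ring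
  have c4 : eden g x = (dnh g x - tnh g x) / 2 := by
    unfold eden
    have e1 : ∀ i, (∑ j, (pd j (fun y => g y i j) x - pd i (fun y => g y j j) x)) / 2 *
        (x i / len x) = ((∑ j, pd j (fun y => g y i j) x * nx i x) -
          ∑ j, nx i x * pd i (fun y => g y j j) x) / 2 := by
      intro i
      rw [← Finset.sum_mul, ← Finset.mul_sum, Finset.sum_sub_distrib]
      unfold nx
      ring
    rw [Finset.sum_congr rfl fun i _ => e1 i, ← Finset.sum_div, Finset.sum_sub_distrib]
    congr 2
    unfold dnh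
    rw [Finset.sum_comm]
    refine Finset.sum_congr rfl fun j _ => Finset.sum_congr rfl fun i _ => ?_
    have : (fun y : E n => g y i j) = fun y => g y j i := funext fun y => h.symm y i j
    rw [this]
  rw [c3, c4]
  unfold alin ylin Blin
  field_simp
  ring

lemma Zh_tan {x : E n} (hx : x ≠ 0) : ∑ i, Zh g i x * nx i x = 0 := by
  unfold Zh
  have e : ∀ i, (∑ j, hh g i j x * nx j x - hnn g x * nx i x) * nx i x =
      (∑ j, hh g i j x * (nx i x * nx j x)) - hnn g x * (nx i x * nx i x) := by
    intro i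
    rw [sub_mul, Finset.sum_mul]
    congr 1
    · exact Finset.sum_congr rfl fun j _ => by ring
    · ring
  simp only [e, Finset.sum_sub_distrib, ← Finset.mul_sum, sum_nx_mul hx]
  unfold hnn
  ring

/-- averages of the first variations -/
lemma av_lin [Nontrivial (E n)] (h : Met g R) {r : ℝ} (hr : R < r) :
    av (fun x => alin g x + ylin g x) r = -(r * av (eden g) r) := by
  have hr0 : 0 < r := h.hR.trans hr
  have h0 : ∀ x : E n, R < ‖x‖ → x ≠ 0 := fun x hx => h.ne_zero (le_of_lt hx)
  have h1 : sphI (fun x => ∑ i, pd i (Zh g i) x) r = 0 := by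
    refine sphI_div_tangential h.hR.le (W := fun i y => Zh g i y) ?_ ?_ hr
    · intro i x hx
      exact ((smooth_Zh h (h0 x hx) i).of_le (by simp)).contDiffWithinAt
    · intro x hx
      exact Zh_tan (h0 x hx)
  have c1 : ContinuousOn (fun x => ∑ i, pd i (Zh g i) x) {x : E n | R < ‖x‖} := by
    intro x hx
    have : ContDiffAt ℝ ∞ (fun x => ∑ i, pd i (Zh g i) x) x :=
      ContDiffAt.sum fun i _ => contDiffAt_pd (smooth_Zh h (h0 x hx) i) i
    exact this.continuousAt.continuousWithinAt
  have c2 : ContinuousOn (eden g) {x : E n | R < ‖x‖} := cont_eden h.gs h.hR.le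
  have e : sphI (fun x => alin g x + ylin g x) r =
      sphI (fun x => (-(r / 2)) * (∑ i, pd i (Zh g i) x) + (-r) * eden g x) r := by
    refine sphI_congr hr0.le fun x hx => ?_
    have hx' : R < ‖x‖ := by rw [hx]; exact hr
    have hl : len x = r := hx
    rw [alin_ylin h (h0 x hx'), hl]
    ring
  unfold av
  rw [e, Vale.Agent.P366.sphI_add (u := fun x => (-(r / 2)) * (∑ i, pd i (Zh g i) x))
    (v := fun x => (-r) * eden g x) h.hR.le hr (continuousOn_const.mul c1)
    (continuousOn_const.mul c2), Vale.Agent.P366.sphI_const_mul,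
    Vale.Agent.P366.sphI_const_mul, h1]
  ring

/-- splitting averages of continuous functions -/
lemma av_lin4 [Nontrivial (E n)] {r : ℝ} (hr : 0 ≤ r) {a b c : E n → ℝ}
    (ha : ∀ x, len x = r → ContinuousAt a x) (hb : ∀ x, len x = r → ContinuousAt b x)
    (hc : ∀ x, len x = r → ContinuousAt c x) (x y z : ℝ) :
    av (fun t => a t - x * b t - y * c t - z) r = av a r - x * av b r - y * av c r - z := by
  have hω : 0 < Vale.Agent.P366.omega n := omega_pos'
  have i1 := integrable_at hr ha
  have i2 := integrable_at hr hb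
  have i3 := integrable_at hr hc
  have i4 : Integrable (fun _ : sphere (0 : E n) 1 => (1 : ℝ)) (sphM n) := integrable_const _
  have h1 := (int4 i1 i2 i3 i4 x y z).2
  simp only [mul_one] at h1
  have h2 : ∫ _ : sphere (0 : E n) 1, (1 : ℝ) ∂(sphM n) = Vale.Agent.P366.omega n := by
    have := sphI_const (n := n) (R := r) 1
    rw [one_mul] at this
    exact this
  rw [h2] at h1
  unfold av
  have h3 : sphI (fun t => a t - x * b t - y * c t - z) r =
      sphI a r - x * sphI b r - y * sphI c r - z * Vale.Agent.P366.omega n := h1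
  rw [h3]
  field_simp

/-- **The limit of the monotone quantity.** -/
theorem MM_lim (hn : 3 ≤ n) (h : Met g R) (hq0 : 0 < q) (hq : (n : ℝ) / 2 - 1 < q)
    (D : Dec g q) (hKs : ∀ i j, Smooth (fun x => K x i j))
    (hK : ∀ i j, O (q + 1) (fun x => K x i j)) {m : ℝ}
    (hm : Tendsto (flx fun i x => (∑ j, (pd j (fun y => g y i j) x -
      pd i (fun y => g y j j) x)) / 2) atTop (𝓝 m)) :
    Tendsto (MM g K) atTop (𝓝 (2 * ((n : ℝ) - 1) ^ 2 * omega n * m)) := by
  have hn3 : (3 : ℝ) ≤ n := by exact_mod_cast hn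
  have : Nonempty (Fin n) := ⟨⟨0, by omega⟩⟩
  have : Nontrivial (E n) := inferInstance
  have hω : 0 < omega n := Met.omega_pos
  have hω' : Vale.Agent.P366.omega n = omega n := (Vale.Agent.P366.omega_eq n).symm
  set N : ℝ := (n : ℝ) - 1 with hN
  have hN0 : 0 < N := by linarith
  set W : ℝ → ℝ := fun r => av (ad g) r with hW
  set Z : ℝ → ℝ := fun r => r ^ 2 * av (fun x => ad g x * Qf g K x) r with hZ
  set a : ℝ → ℝ := fun r => W r - 1 with ha
  set e : ℝ → ℝ := fun r => r * av (eden g) r with he
  -- `W`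
  have hca : ∀ r, R < r → ∀ x : E n, len x = r → ContinuousAt (ad g) x := fun r hr x hx =>
    (h.cad (by rw [hx]; exact hr.le)).continuousAt
  have hx0 : ∀ r, R < r → ∀ x : E n, len x = r → x ≠ 0 := fun r hr x hx =>
    h.ne_zero (by rw [hx]; exact hr.le)
  have hcal : ∀ r, R < r → ∀ x : E n, len x = r → ContinuousAt (alin g) x := by
    intro r hr x hx
    unfold alin trh
    have h1 : ContDiffAt ℝ ∞ (fun x => ((∑ i, hh g i i x) - hnn g x) / 2) x :=
      ((ContDiffAt.sum fun i _ => cont_hh h i i x).sub (smooth_hnn h (hx0 r hr x hx))).div_const 2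
    exact h1.continuousAt
  have hcyl : ∀ r, R < r → ∀ x : E n, len x = r → ContinuousAt (fun x => alin g x + ylin g x) x := by
    intro r hr x hx
    have hxx := hx0 r hr x hx
    have h1 : ContinuousAt (fun x => -(len x * (∑ i, pd i (Zh g i) x)) / 2 - len x * eden g x) x := by
      have a1 : ContDiffAt ℝ ∞ (fun x => ∑ i, pd i (Zh g i) x) x :=
        ContDiffAt.sum fun i _ => contDiffAt_pd (smooth_Zh h hxx i) i
      have a2 : ContinuousAt (eden g) x := (cont_eden h.gs h.hR.le).continuousAt
        ((Vale.Agent.P366.isOpen_outside R).mem_nhds (by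
          show R < ‖x‖
          have : ‖x‖ = r := hx
          rw [this]; exact hr))
      have a3 : ContinuousAt (len : E n → ℝ) x := (contDiffAt_len (m := 0) hxx).continuousAt
      exact (((a3.mul a1.continuousAt).neg).div_const 2).sub (a3.mul a2)
    refine h1.congr ?_
    filter_upwards [isOpen_ne.mem_nhds hxx] with y hy
    exact (alin_ylin h hy).symm
  have haW : O2 q fun r => a r - av (alin g) r := by
    rw [O2_iff]
    refine (av_O (h.ad1 hq0 D)).congr' ?_ EventuallyEq.rfl
    filter_upwards [eventually_gt_atTop R] with r hr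
    have h1 := av_lin4 (h.hR.le.trans hr.le) (hca r hr) (hcal r hr) (hcal r hr) 1 0 1
    have e1 : (fun t => ad g t - 1 * alin g t - 0 * alin g t - 1) =
        fun x => ad g x - 1 - alin g x := by funext x; ring
    rw [e1] at h1
    rw [h1, ha, hW]
    ring
  have hal : O1 q fun r => av (alin g) r := av_O (O_alin D)
  have ha1 : O1 q a := by
    have := (haW.o1 hq0).add hal
    exact this.congr' (Eventually.of_forall fun r => by ring)
  have ha0 := ha1.tendsto hq0
  -- `e`
  have he1 : O1 q e := by
    have h1 : O1 q fun r => av (fun x => alin g x + ylin g x) r := av_O ((O_alin D).add (O_ylin D))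
    refine (h1.cmul (-1)).congr' ?_
    filter_upwards [eventually_gt_atTop R] with r hr
    rw [av_lin h hr]
    ring
  -- `Z`
  have hZ1 : O2 q fun r => Z r - N ^ 2 - (N ^ 2 - 2 * N) * av (alin g) r + 2 * N * e r := by
    rw [O2_iff]
    refine (av_O (h.Q1 hq0 D hK)).congr' ?_ EventuallyEq.rfl
    filter_upwards [eventually_gt_atTop R] with r hr
    have hr0 : 0 ≤ r := h.hR.le.trans hr.le
    have hcQ : ∀ x : E n, len x = r → ContinuousAt (fun x => r ^ 2 * (ad g x * Qf g K x)) x :=
      fun x hx => continuousAt_const.mul ((hca r hr x hx).mul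
        (h.cQf hKs (by rw [hx]; exact hr.le)).continuousAt)
    have h1 := av_lin4 hr0 hcQ (hcal r hr) (hcyl r hr) (N ^ 2 - 2 * N) (2 * N) (N ^ 2)
    have e1 : av (fun t => r ^ 2 * (ad g t * Qf g K t) - (N ^ 2 - 2 * N) * alin g t -
        2 * N * (alin g t + ylin g t) - N ^ 2) r = av (fun x => len x ^ 2 * (ad g x * Qf g K x) -
          ((n : ℝ) - 1) ^ 2 - ((n : ℝ) - 1) ^ 2 * alin g x - 2 * ((n : ℝ) - 1) * ylin g x) r := by
      unfold av
      congr 1
      refine sphI_congr hr0 fun x hx => ?_
      have hl : len x = r := hx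
      rw [hl, ← hN]
      ring
    rw [← e1, h1, av_lin h hr]
    have e2 : av (fun x => r ^ 2 * (ad g x * Qf g K x)) r =
        r ^ 2 * av (fun x => ad g x * Qf g K x) r := by
      unfold av
      rw [Vale.Agent.P366.sphI_const_mul, mul_div_assoc]
    rw [e2, hZ, he]
    ring
  have hZ2 : O2 q fun r => Z r - N ^ 2 - (N ^ 2 - 2 * N) * a r + 2 * N * e r := by
    refine (hZ1.sub (haW.cmul (N ^ 2 - 2 * N))).congr' (Eventually.of_forall fun r => ?_)
    ring
  -- powers of `W`
  have hpow : ∀ p : ℝ, O2 q fun r => W r ^ p - 1 - p * a r := by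
    intro p
    have h1 := (rpow_taylor p).comp_tendsto ha0
    refine (h1.trans (ha1.mul ha1)).congr' (Eventually.of_forall fun r => ?_) EventuallyEq.rfl
    simp only [Function.comp_apply, ha]
    rw [add_sub_cancel]
  have hpb : ∀ p : ℝ, O0 fun r => W r ^ p := by
    intro p
    have h1 : O1 q fun r => W r ^ p - 1 := by
      refine ((hpow p).o1 hq0 |>.add (ha1.cmul p)).congr' (Eventually.of_forall fun r => ?_)
      ring
    refine ((h1.o0 hq0).add (O0.const 1)).congr' (Eventually.of_forall fun r => ?_)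
    ring
  -- the combination
  have hT : O2 q fun r => N ^ 2 * W r ^ ((N - 1) / N) - W r ^ (1 / N) * Z r - 2 * N * e r := by
    have t1 := (hpow ((N - 1) / N)).cmul (N ^ 2)
    have t2 := (hpb (1 / N)).mul2 hZ2
    have t3 : O2 q fun r => (N ^ 2) * (W r ^ (1 / N) - 1 - 1 / N * a r) :=
      (hpow (1 / N)).cmul _
    have t4 : O1 q fun r => W r ^ (1 / N) - 1 := by
      refine ((hpow (1 / N)).o1 hq0 |>.add (ha1.cmul (1 / N))).congr'
        (Eventually.of_forall fun r => ?_)
      ring
    have t5 : O1 q fun r => (N ^ 2 - 2 * N) * a r - 2 * N * e r :=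
      (ha1.cmul _).sub (he1.cmul _)
    have t6 := t4.mul t5
    refine (((t1.sub t2).sub t3).sub t6).congr' (Eventually.of_forall fun r => ?_)
    field_simp
    ring
  have hlim0 : Tendsto (fun r : ℝ => r ^ (N - 1) *
      (N ^ 2 * W r ^ ((N - 1) / N) - W r ^ (1 / N) * Z r - 2 * N * e r)) atTop (𝓝 0) := by
    have h1 := IsBigO.mul (isBigO_refl (fun r : ℝ => r ^ (N - 1)) atTop) hT
    refine h1.trans_tendsto ?_
    have h2 : Tendsto (fun r : ℝ => r ^ (-(2 * q - (N - 1)))) atTop (𝓝 0) :=
      tendsto_rpow_neg_atTop (by linarith)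
    refine h2.congr' ?_
    filter_upwards [eventually_gt_atTop 0] with r hr
    rw [← Real.rpow_add hr, ← Real.rpow_add hr]
    congr 1
    ring
  have hflx : Tendsto (fun r : ℝ => r ^ (N - 1) * (2 * N * e r)) atTop
      (𝓝 (2 * N ^ 2 * m)) := by
    refine (hm.const_mul (2 * N ^ 2)).congr' ?_
    filter_upwards [eventually_gt_atTop 0] with r hr
    rw [Vale.Agent.P366.flx_eq]
    have e1 : Vale.Agent.P366.sphInt r (fun x => ∑ i, (∑ j, (pd j (fun y => g y i j) x -
        pd i (fun y => g y j j) x)) / 2 * (x i / ‖x‖)) = r ^ (n - 1) * sphI (eden g) r := rfl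
    rw [e1, he]
    unfold av
    have e2 : r ^ (n - 1) = r ^ (N - 1) * r := by
      rw [← Real.rpow_natCast, ← Real.rpow_add_one hr.ne']
      congr 1
      rw [Nat.cast_sub (by omega), hN]
      push_cast
      ring
    rw [e2, ← hN, hω']
    field_simp
  have hall := (hlim0.add hflx).const_mul (omega n)
  have e0 : omega n * (0 + 2 * N ^ 2 * m) = 2 * N ^ 2 * omega n * m := by ring
  rw [e0] at hall
  refine hall.congr' ?_
  filter_upwards [eventually_gt_atTop R, eventually_gt_atTop 0] with r hr hr0
  have hWp : 0 < W r := by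
    have h1 := h.arA_pos hr.le
    unfold arA leafI at h1
    simp only [mul_one] at h1
    have h2 : 0 < sphI (fun x => ad g x) r := (pos_iff_pos_of_mul_pos h1).1 (by positivity)
    exact div_pos h2 omega_pos'
  have e1 : rhoA g r = r * W r ^ (1 / N) := by
    unfold rhoA
    have e2 : arA g r / omega n = r ^ (n - 1) * W r := by
      unfold arA leafI
      simp only [mul_one]
      rw [hW]
      unfold av
      rw [hω']
      ring
    rw [e2, Real.mul_rpow (by positivity) hWp.le]
    congr 1
    rw [← Real.rpow_natCast, ← Real.rpow_mul hr0.le, Nat.cast_sub (by omega)]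
    push_cast
    rw [← hN, mul_one_div_cancel hN0.ne', Real.rpow_one]
  have e3 : yyQ g K r = omega n * r ^ (N - 2) * Z r := by
    unfold yyQ leafI
    rw [hZ]
    have e4 : r ^ (n - 1) = r ^ (N - 2) * r ^ 2 := by
      rw [← Real.rpow_natCast, ← Real.rpow_natCast, ← Real.rpow_add hr0]
      congr 1
      rw [Nat.cast_sub (by omega), hN]
      push_cast
      ring
    rw [e4]
    unfold av
    rw [hω']
    field_simp
  unfold MM
  rw [e3, e1, ← hN]
  have e5 : (r * W r ^ (1 / N)) ^ ((n : ℝ) - 2) = r ^ (N - 1) * W r ^ ((N - 1) / N) := by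
    rw [Real.mul_rpow hr0.le (Real.rpow_nonneg hWp.le _), ← Real.rpow_mul hWp.le]
    have : (n : ℝ) - 2 = N - 1 := by rw [hN]; ring
    rw [this]
    congr 2
    ring
  have e6 : r * r ^ (N - 2) = r ^ (N - 1) := by
    rw [mul_comm, ← Real.rpow_add_one hr0.ne']
    congr 1
    ring
  rw [e5]
  linear_combination (omega n * W r ^ (1 / N) * Z r) * e6

end Vale.Agent.H106
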