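import Vale.Agent.P366.R2.H106.Clean

/-! Leaves with an averaged trace: the pointwise identity. -/

open MeasureTheory Metric Filter Topology Set
open scoped ContDiff ENNReal Matrix MatrixOrder

noncomputable section
namespace Vale.Agent.H106
open Vale.Agent.P366.Stmt Vale.Agent.P366.T2 Vale.Agent.T4 Vale.Agent.H177
open Vale.Agent.P366 (sphI sphM av norm_smul_sph sphI_congr)

variable {n : ℕ}

/-- `H² - 2 a τ + a²` -/
def Qa (g K : Field n) (a : ℝ) (x : E n) : ℝ := Hm g x ^ 2 - 2 * a * tauf g K x + a ^ 2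

/-- `2 (μ - u J(ν)) + 2 |d log H|² + 2 |β|² - 2 u ⟨β, d log H⟩ + |Å|² - 2 u ⟨Å, K̊⟩ + |K̊|²` with
`u = a / H` -/
def gnA (g K : Field n) (a : ℝ) (x : E n) : ℝ :=
  2 * (mu g K x - a / Hm g x * Jn g K x) +
    2 * dt g x (fun k => pd k (fun y => Real.log (Hm g y)) x)
      (fun k => pd k (fun y => Real.log (Hm g y)) x) +
    2 * dt g x (fun k => kap g K k x) (fun k => kap g K k x) -
    2 * (a / Hm g x) * dt g x (fun k => kap g K k x)
      (fun k => pd k (fun y => Real.log (Hm g y)) x) +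
    (ct g x (AA g x) (AA g x) - Hm g x ^ 2 / ((n : ℝ) - 1)) -
    2 * (a / Hm g x) * (ct g x (fun i j => K x i j) (AA g x) -
      tauf g K x * Hm g x / ((n : ℝ) - 1)) +
    (ct g x (fun i j => K x i j) (fun i j => K x i j) - tauf g K x ^ 2 / ((n : ℝ) - 1))

/-- `2 (τ - a) tr K - n (τ² - a²) / (n - 1)` -/
def trA (g K : Field n) (a : ℝ) (x : E n) : ℝ :=
  2 * (tauf g K x - a) * tr g K x - (n : ℝ) / ((n : ℝ) - 1) * (tauf g K x ^ 2 - a ^ 2)

/-- `⟨dF, d log H - u K(ν, ·)⟩` with `u = a / H` -/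
def dFA (g K : Field n) (a : ℝ) (x : E n) : ℝ :=
  dt g x (fun k => pd k (Fx g) x)
    (fun k => pd k (fun y => Real.log (Hm g y)) x - a / Hm g x * kap g K k x)

lemma ct_sub (g : Field n) (x : E n) (A B : Fin n → Fin n → ℝ)
    (hs : ct g x A B = ct g x B A) (u : ℝ) :
    ct g x (fun i j => A i j - u * B i j) (fun i j => A i j - u * B i j) =
      ct g x A A - 2 * u * ct g x B A + u ^ 2 * ct g x B B := by
  have e : ct g x (fun i j => A i j - u * B i j) (fun i j => A i j - u * B i j) =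
      ct g x A A - u * ct g x A B - u * ct g x B A + u ^ 2 * ct g x B B := by
    unfold ct
    simp only [Finset.mul_sum, ← Finset.sum_add_distrib, ← Finset.sum_sub_distrib]
    exact Finset.sum_congr rfl fun i _ => Finset.sum_congr rfl fun j _ =>
      Finset.sum_congr rfl fun k _ => Finset.sum_congr rfl fun l _ => by ring
  rw [e, hs]
  ring

namespace Met

variable {g : Field n} {R : ℝ} (h : Met g R)
include h

lemma ct_symm {x : E n} (A B : Fin n → Fin n → ℝ) : ct g x A B = ct g x B A := by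
  unfold ct
  calc ∑ i, ∑ j, ∑ k, ∑ l, Pu g i k x * Pu g j l x * A i j * B k l
      = ∑ i, ∑ k, ∑ j, ∑ l, Pu g i k x * Pu g j l x * A i j * B k l :=
        Finset.sum_congr rfl fun i _ => Finset.sum_comm
    _ = ∑ k, ∑ i, ∑ j, ∑ l, Pu g i k x * Pu g j l x * A i j * B k l := Finset.sum_comm
    _ = ∑ k, ∑ i, ∑ l, ∑ j, Pu g i k x * Pu g j l x * A i j * B k l :=
        Finset.sum_congr rfl fun k _ => Finset.sum_congr rfl fun i _ => Finset.sum_comm
    _ = ∑ k, ∑ l, ∑ i, ∑ j, Pu g i k x * Pu g j l x * A i j * B k l :=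
        Finset.sum_congr rfl fun k _ => Finset.sum_comm
    _ = _ := by
        refine Finset.sum_congr rfl fun k _ => Finset.sum_congr rfl fun l _ =>
          Finset.sum_congr rfl fun i _ => Finset.sum_congr rfl fun j _ => ?_
        rw [h.Pu_symm i k, h.Pu_symm j l]
        ring

/-- the tensor terms -/
lemma tensor_ge (hn : 2 ≤ n) {x : E n} (hx : R ≤ len x) (C : Fin n → Fin n → ℝ) {t : ℝ}
    (ht : t = ∑ i, ∑ j, Pu g i j x * C i j) {u : ℝ} (hu : u ^ 2 ≤ 1) :
    (Hm g x ^ 2 - 2 * u * (t * Hm g x) + t ^ 2) / ((n : ℝ) - 1) ≤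
      ct g x (AA g x) (AA g x) - 2 * u * ct g x C (AA g x) + ct g x C C := by
  have h2 : (2 : ℝ) ≤ n := by exact_mod_cast hn
  have h3 : 0 < (n : ℝ) - 1 := by linarith
  have e0 : ∑ i, ∑ j, Pu g i j x * (AA g x i j - u * C i j) = Hm g x - u * t := by
    rw [h.Hm_eq hx, ht, Finset.mul_sum, ← Finset.sum_sub_distrib]
    refine Finset.sum_congr rfl fun i _ => ?_
    rw [Finset.mul_sum, ← Finset.sum_sub_distrib]
    exact Finset.sum_congr rfl fun j _ => by ring
  have h1 := h.ct_comb hx (fun i j => AA g x i j - u * C i j) (fun i j => g x i j) 1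
    ((Hm g x - u * t) / ((n : ℝ) - 1))
  rw [h.ct_g hx, h.ct_g hx, h.trace_g hx, e0, ct_sub g x (AA g x) C (h.ct_symm _ _) u] at h1
  have h4 := h.ct_comb hx C (fun i j => g x i j) 1 (t / ((n : ℝ) - 1))
  rw [h.ct_g hx, h.ct_g hx, h.trace_g hx, ← ht] at h4
  have e1 : (1 : ℝ) ^ 2 * ct g x C C - 2 * 1 * (t / ((n : ℝ) - 1)) * t +
      (t / ((n : ℝ) - 1)) ^ 2 * ((n : ℝ) - 1) = ct g x C C - t ^ 2 / ((n : ℝ) - 1) := by
    field_simp
    ring
  rw [e1] at h4
  have h5 := mul_nonneg (sub_nonneg.2 hu) h4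
  have e2 : (1 : ℝ) ^ 2 * (ct g x (AA g x) (AA g x) - 2 * u * ct g x C (AA g x) +
      u ^ 2 * ct g x C C) - 2 * 1 * ((Hm g x - u * t) / ((n : ℝ) - 1)) * (Hm g x - u * t) +
      ((Hm g x - u * t) / ((n : ℝ) - 1)) ^ 2 * ((n : ℝ) - 1) =
      (ct g x (AA g x) (AA g x) - 2 * u * ct g x C (AA g x) +
      u ^ 2 * ct g x C C) - (Hm g x - u * t) ^ 2 / ((n : ℝ) - 1) := by
    field_simp
    ring
  rw [e2] at h1
  have e3 : (Hm g x ^ 2 - 2 * u * (t * Hm g x) + t ^ 2) / ((n : ℝ) - 1) =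
      (Hm g x - u * t) ^ 2 / ((n : ℝ) - 1) + (1 - u ^ 2) * (t ^ 2 / ((n : ℝ) - 1)) := by
    field_simp
    ring
  rw [e3]
  linarith

section

variable {K : Field n} (hK : ∀ i j, Smooth (fun x => K x i j)) (hKs : ∀ x i j, K x i j = K x j i)

/-- the gain is nonnegative -/
lemma gnA_nonneg (hn : 2 ≤ n) {x : E n} (hx : R ≤ len x) {a : ℝ} (ha : |a| < Hm g x)
    (hD : covNorm g (mom g K) x ≤ mu g K x) : 0 ≤ gnA g K a x := by
  have hH : 0 < Hm g x := (abs_nonneg a).trans_lt ha
  obtain ⟨u, hu⟩ : ∃ u, u = a / Hm g x := ⟨_, rfl⟩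
  have hu1 : |u| < 1 := by
    rw [hu, abs_div, abs_of_pos hH, div_lt_one hH]
    exact ha
  have hu2 : u ^ 2 ≤ 1 := by
    rw [← sq_abs]
    have := abs_nonneg u
    nlinarith
  have h1 := h.Jn_le (K := K) hx
  have h2 : u * Jn g K x ≤ mu g K x := by
    have h3 : u * Jn g K x ≤ |u| * |Jn g K x| := by
      rw [← abs_mul]; exact le_abs_self _
    have h4 : |u| * |Jn g K x| ≤ 1 * |Jn g K x| :=
      mul_le_mul_of_nonneg_right hu1.le (abs_nonneg _)
    linarith
  have h3 := h.tensor_ge hn hx (fun i j => K x i j) (t := tauf g K x) rfl hu2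
  set l : Fin n → ℝ := fun k => pd k (fun y => Real.log (Hm g y)) x with hl
  have h4 := h.dt_nonneg hx (fun k => 1 * l k + (-u) * kap g K k x +
    0 * kap g K k x + 0 * kap g K k x)
  rw [dt_lin] at h4
  have h5 := h.dt_nonneg hx l
  have h6 := h.dt_nonneg hx (fun k => kap g K k x)
  have h7 := h.dt_symm (x := x) l (fun k => kap g K k x)
  rw [h7] at h4
  have h8 := mul_nonneg (by linarith : (0 : ℝ) ≤ 2 - u ^ 2) h6
  have e3 : (Hm g x ^ 2 - 2 * u * (tauf g K x * Hm g x) + tauf g K x ^ 2) / ((n : ℝ) - 1) =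
      Hm g x ^ 2 / ((n : ℝ) - 1) - 2 * u * (tauf g K x * Hm g x / ((n : ℝ) - 1)) +
        tauf g K x ^ 2 / ((n : ℝ) - 1) := by ring
  rw [e3] at h3
  unfold gnA
  rw [← hu, ← hl]
  nlinarith

/-- tangential derivatives of the logarithm of the mean curvature -/
lemma pd_logH {x : E n} (hx : R ≤ len x) (hH : Hm g x ≠ 0) (k : Fin n) :
    pd k (fun y => Real.log (Hm g y)) x = 1 / Hm g x * pd k (Hm g) x := by
  have h1 : HasDerivAt _ _ (0 : ℝ) := HPf (h.cHm hx) k
  have h2 := h1.log (by simp only [zero_smul, add_zero]; exact hH)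
  simp only [zero_smul, add_zero] at h2
  have h4 : HP k (fun y => Real.log (Hm g y)) _ x := h2
  rw [h4.pd]
  ring

/-- the term with the gradient of the rate -/
lemma dFA_eq {x : E n} (hx : R ≤ len x) (hH : Hm g x ≠ 0) (a : ℝ) :
    √(ww g x) * dFA g K a x =
      1 / Hm g x * dt g x (fun k => pd k (Hm g) x) (fun k => pd k (Hm g) x) +
      dt g x (fun k => pd k (lam g) x) (fun k => pd k (Hm g) x) -
      a / Hm g x * dt g x (fun k => kap g K k x) (fun k => pd k (Hm g) x) -
      a * dt g x (fun k => kap g K k x) (fun k => pd k (lam g) x) := by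
  have hs := h.sq_pos hx
  have e1 : (fun k => pd k (Fx g) x) = fun k => (1 / √(ww g x)) * pd k (Hm g) x +
      (Hm g x / √(ww g x)) * pd k (lam g) x + 0 * kap g K k x + 0 * kap g K k x := by
    funext k
    have := h.pd_Fx hx (h.cHm hx) k
    unfold Fx
    rw [this]; ring
  have e2 : (fun k => pd k (fun y => Real.log (Hm g y)) x - a / Hm g x * kap g K k x) =
      fun k => (1 / Hm g x) * pd k (Hm g) x + 0 * pd k (lam g) x +
        (-(a / Hm g x)) * kap g K k x + 0 * kap g K k x := by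
    funext k
    rw [h.pd_logH hx hH]
    ring
  unfold dFA
  rw [e1, e2, dt_lin, h.dt_symm (fun k => pd k (Hm g) x) (fun k => kap g K k x),
    h.dt_symm (fun k => pd k (lam g) x) (fun k => kap g K k x),
    h.dt_symm (fun k => pd k (Hm g) x) (fun k => pd k (lam g) x)]
  field_simp
  ring

include hK in
lemma cQa (a : ℝ) {x : E n} (hx : R ≤ len x) : ContDiffAt ℝ ∞ (Qa g K a) x :=
  (((h.cHm hx).pow 2).sub (contDiffAt_const.mul (h.ctauf hK hx))).add contDiffAt_const

include hK in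
lemma pd_Qa (a : ℝ) {x : E n} (hx : R ≤ len x) (i : Fin n) : pd i (Qa g K a) x =
    2 * Hm g x * pd i (Hm g) x - 2 * a * pd i (tauf g K) x := by
  have h1 : HP i (fun y => Hm g y * Hm g y - 2 * a * tauf g K y + a ^ 2) _ x :=
    (((HPf (h.cHm hx) i).mul (HPf (h.cHm hx) i)).sub
      ((HPf (h.ctauf hK hx) i).const_mul (2 * a))).add_const (a ^ 2)
  have e : Qa g K a = fun y => Hm g y * Hm g y - 2 * a * tauf g K y + a ^ 2 := by
    funext y; unfold Qa; ring
  rw [e, h1.pd]
  ring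

include hK hKs in
/-- **The pointwise identity.** -/
theorem pt_id (hn : 2 ≤ n) {x : E n} (hx : R < len x) {a : ℝ} (hH : Hm g x ≠ 0) :
    (∑ i, pd i (fun y => sg g y * (Qa g K a y * nu g i y)) x) =
    ad g x * (Fx g x * (RS g x - Qa g K a x / ((n : ℝ) - 1) - gnA g K a x + trA g K a x) +
      2 * dFA g K a x) -
      2 * (∑ i, pd i (fun y => sg g y * (Hm g y * ZZ g i y)) x) -
      2 * a * (∑ i, pd i (fun y => sg g y * (1 * bb g K i y)) x) := by
  have h2 : (2 : ℝ) ≤ n := by exact_mod_cast hn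
  have h3 : (n : ℝ) - 1 ≠ 0 := by linarith
  have hx' := hx.le
  have hs0 := h.sq_pos hx'
  rw [h.div_sg hx' (fun i => (h.cQa hK a hx').mul (h.cnu hx' i)),
    h.div_sg hx' (fun i => (h.cHm hx').mul (h.cZZ hx' i)),
    h.div_sg hx' (fun i => (contDiffAt_const (c := (1 : ℝ))).mul (h.cbb hK hx' i)),
    dv_mul (h.cQa hK a hx') (fun i => h.cnu hx' i),
    dv_mul (h.cHm hx') (fun i => h.cZZ hx' i)]
  have e0 : dv g (fun i y => 1 * bb g K i y) x = dv g (bb g K) x :=
    dv_congr fun i => Eventually.of_forall fun y => one_mul _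
  rw [e0]
  have d1 : ∑ i, ZZ g i x * pd i (Hm g) x =
      dt g x (fun k => pd k (lam g) x) (fun k => pd k (Hm g) x) := by
    rw [h.dt_symm]; exact sum_dt
  have d3 : ∑ i, bb g K i x * pd i (lam g) x =
      dt g x (fun k => kap g K k x) (fun k => pd k (lam g) x) := by
    rw [h.dt_symm]; exact sum_dt
  have h4 := h.nu_Hm hx
  have h5 := h.Jn_eq hK hKs hx
  have h6 := h.mu_split hKs (x := x)
  have h7 := h.tr_split hKs (x := x)
  rw [d3] at h5
  have e1 : ∑ i, nu g i x * pd i (Qa g K a) x = 2 * Hm g x * (∑ i, nu g i x * pd i (Hm g) x) -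
      2 * a * ∑ i, nu g i x * pd i (tauf g K) x := by
    simp only [Finset.mul_sum, ← Finset.sum_sub_distrib]
    exact Finset.sum_congr rfl fun i _ => by rw [h.pd_Qa hK a hx' i]; ring
  rw [e1, h4, d1]
  have hF' : ad g x * Fx g x = sg g x * Hm g x := by
    unfold ad Fx
    field_simp
  have hF2 : ad g x * dFA g K a x = sg g x * (√(ww g x) * dFA g K a x) := by
    unfold ad
    ring
  have e2 : ad g x * (Fx g x * (RS g x - Qa g K a x / ((n : ℝ) - 1) - gnA g K a x +
      trA g K a x) + 2 * dFA g K a x) = sg g x * (Hm g x * (RS g x -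
        Qa g K a x / ((n : ℝ) - 1) - gnA g K a x + trA g K a x) +
          2 * (√(ww g x) * dFA g K a x)) := by
    linear_combination (RS g x - Qa g K a x / ((n : ℝ) - 1) - gnA g K a x + trA g K a x) * hF' +
      2 * hF2
  rw [e2, h.dFA_eq hx' hH]
  have e3 : dv g (nu g) x = Hm g x := rfl
  rw [e3]
  have e4 : ∑ i, nu g i x * pd i (tauf g K) x = dv g (bb g K) x - Jn g K x +
      kn g K x * Hm g x - ct g x (fun i j => K x i j) (AA g x) +
        dt g x (fun k => kap g K k x) (fun k => pd k (lam g) x) := by linarith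
  rw [e4]
  have e5 : ∑ i, ∑ j, ric g i j x * nu g i x * nu g j x = (scal g x + Hm g x ^ 2 -
    ct g x (AA g x) (AA g x) - RS g x) / 2 := by
    unfold RS; ring
  rw [e5, h6]
  have l1 : (fun k => pd k (fun y => Real.log (Hm g y)) x) = fun k =>
      (1 / Hm g x) * pd k (Hm g) x + 0 * kap g K k x + 0 * kap g K k x + 0 * kap g K k x := by
    funext k
    rw [h.pd_logH hx' hH]
    ring
  have l2 : (fun k => kap g K k x) = fun k =>
      0 * pd k (Hm g) x + 1 * kap g K k x + 0 * kap g K k x + 0 * kap g K k x := by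
    funext k
    ring
  have l3 : dt g x (fun k => pd k (fun y => Real.log (Hm g y)) x)
      (fun k => pd k (fun y => Real.log (Hm g y)) x) = (1 / Hm g x) ^ 2 *
        dt g x (fun k => pd k (Hm g) x) (fun k => pd k (Hm g) x) := by
    rw [l1, dt_lin]
    ring
  have l4 : dt g x (fun k => kap g K k x)
      (fun k => pd k (fun y => Real.log (Hm g y)) x) = (1 / Hm g x) *
        dt g x (fun k => kap g K k x) (fun k => pd k (Hm g) x) := by
    rw [l1]
    unfold dt
    rw [Finset.mul_sum]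
    refine Finset.sum_congr rfl fun i _ => ?_
    rw [Finset.mul_sum]
    exact Finset.sum_congr rfl fun j _ => by ring
  have e6 : Hm g x * gnA g K a x = 2 * (Hm g x * mu g K x - a * Jn g K x) +
    2 * (1 / Hm g x) * dt g x (fun k => pd k (Hm g) x) (fun k => pd k (Hm g) x) +
    2 * Hm g x * dt g x (fun k => kap g K k x) (fun k => kap g K k x) -
    2 * (a / Hm g x) * dt g x (fun k => kap g K k x) (fun k => pd k (Hm g) x) +
    Hm g x * (ct g x (AA g x) (AA g x) - Hm g x ^ 2 / ((n : ℝ) - 1)) -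
    2 * a * (ct g x (fun i j => K x i j) (AA g x) -
      tauf g K x * Hm g x / ((n : ℝ) - 1)) +
    Hm g x * (ct g x (fun i j => K x i j) (fun i j => K x i j) -
      tauf g K x ^ 2 / ((n : ℝ) - 1)) := by
    unfold gnA
    rw [l3, l4]
    field_simp
  have e7 : kn g K x = tr g K x - tauf g K x := by linarith
  have e8 : sg g x * (Hm g x * (RS g x -
        Qa g K a x / ((n : ℝ) - 1) - gnA g K a x + trA g K a x) +
      2 * (1 / Hm g x * dt g x (fun k => pd k (Hm g) x) (fun k => pd k (Hm g) x) +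
      dt g x (fun k => pd k (lam g) x) (fun k => pd k (Hm g) x) -
      a / Hm g x * dt g x (fun k => kap g K k x) (fun k => pd k (Hm g) x) -
      a * dt g x (fun k => kap g K k x) (fun k => pd k (lam g) x))) =
      sg g x * (Hm g x * (RS g x -
        Qa g K a x / ((n : ℝ) - 1) + trA g K a x) - Hm g x * gnA g K a x +
      2 * (1 / Hm g x * dt g x (fun k => pd k (Hm g) x) (fun k => pd k (Hm g) x) +
      dt g x (fun k => pd k (lam g) x) (fun k => pd k (Hm g) x) -
      a / Hm g x * dt g x (fun k => kap g K k x) (fun k => pd k (Hm g) x) -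
      a * dt g x (fun k => kap g K k x) (fun k => pd k (lam g) x))) := by ring
  rw [e8, e6, e7]
  unfold Qa trA
  field_simp
  ring

end

end Met

end Vale.Agent.H106
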