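import Vale.Agent.P366.R2.H106.M5a
import Vale.Agent.P366.R2.H106.Fin

/-! Leaves with an averaged trace: the monotone quantity. -/

open MeasureTheory Metric Filter Topology Set
open scoped ContDiff ENNReal Matrix MatrixOrder

noncomputable section
namespace Vale.Agent.H106
open Vale.Agent.P366.Stmt Vale.Agent.P366.T2 Vale.Agent.T4 Vale.Agent.H177
open Vale.Agent.P366 (sphI sphM av norm_smul_sph sphI_congr)

variable {n : ℕ}

/-- integral of `τ` -/
def TI (g K : Field n) (r : ℝ) : ℝ := leafI g (tauf g K) r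

/-- integral of `H²` -/
def HI (g : Field n) (r : ℝ) : ℝ := leafI g (fun x => Hm g x ^ 2) r

/-- mean of `τ` -/
def am (g K : Field n) (r : ℝ) : ℝ := TI g K r / arA g r

/-- the monotone quantity -/
def M5 (g K : Field n) (r : ℝ) : ℝ :=
  ((n : ℝ) - 1) ^ 2 * omega n * rhoA g r ^ ((n : ℝ) - 2) -
    rhoA g r * (HI g r - TI g K r ^ 2 / arA g r)

/-- the bound for the derivative -/
def Der5 (g K : Field n) (r : ℝ) : Prop :=
  r ^ (n - 1) * sphI (fun x => ∑ i, pd i (fun y => sg g y * (Qa g K (am g K r) y * nu g i y)) x)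
      r ≤
    ((n : ℝ) - 1) * ((n : ℝ) - 2) / rhoA g r ^ 2 * leafI g (Fx g) r -
      leafI g (Fx g) r / arA g r / ((n : ℝ) - 1) * leafI g (Qa g K (am g K r)) r

namespace Met

variable {g : Field n} {R : ℝ} (h : Met g R)
include h

section

variable {K : Field n} (hK : ∀ i j, Smooth (fun x => K x i j)) (hKs : ∀ x i j, K x i j = K x j i)

include hK in
lemma leafI_Qa (a : ℝ) {r : ℝ} (hr : R ≤ r) :
    leafI g (Qa g K a) r = HI g r - 2 * a * TI g K r + a ^ 2 * arA g r := by
  have hx : ∀ x : E n, len x = r → R ≤ len x := fun x hx => by rw [hx]; exact hr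
  have c1 : ∀ x, len x = r → ContinuousAt (fun x => Hm g x ^ 2) x := fun x hxr =>
    ((h.cHm (hx x hxr)).continuousAt).pow 2
  have c2 : ∀ x, len x = r → ContinuousAt (tauf g K) x := fun x hxr =>
    (h.ctauf hK (hx x hxr)).continuousAt
  have c3 : ∀ x : E n, len x = r → ContinuousAt (fun _ : E n => (1 : ℝ)) x := fun _ _ =>
    continuousAt_const
  have e1 := h.leafI_lin (b := fun x => (-2 * a) * tauf g K x + a ^ 2 * 1) hr c1 (fun x hxr =>
    (continuousAt_const.mul (c2 x hxr)).add (continuousAt_const.mul (c3 x hxr))) 1 1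
  rw [h.leafI_lin hr c2 c3, h.leafI_congr hr (f' := Qa g K a) fun x _ => by unfold Qa; ring] at e1
  rw [e1]
  unfold HI TI arA
  ring

/-- the mean value -/
lemma TI_eq {r : ℝ} [Nontrivial (E n)] (hr : R ≤ r) : TI g K r = am g K r * arA g r := by
  have := (h.arA_pos hr).ne'
  unfold am
  field_simp

include hK in
lemma leafI_Qam {r : ℝ} [Nontrivial (E n)] (hr : R ≤ r) :
    leafI g (Qa g K (am g K r)) r = HI g r - TI g K r ^ 2 / arA g r := by
  have := (h.arA_pos hr).ne'
  rw [h.leafI_Qa hK _ hr, h.TI_eq hr]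
  field_simp
  ring

include hK in
lemma leafI_dev {r : ℝ} [Nontrivial (E n)] (hr : R ≤ r) :
    leafI g (fun x => tauf g K x - am g K r) r = 0 := by
  have hx : ∀ x : E n, len x = r → R ≤ len x := fun x hx => by rw [hx]; exact hr
  have c2 : ∀ x, len x = r → ContinuousAt (tauf g K) x := fun x hxr =>
    (h.ctauf hK (hx x hxr)).continuousAt
  have c3 : ∀ x : E n, len x = r → ContinuousAt (fun _ : E n => (1 : ℝ)) x := fun _ _ =>
    continuousAt_const
  have e1 := h.leafI_lin hr c2 c3 1 (-am g K r)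
  rw [h.leafI_congr hr (f' := fun x => tauf g K x - am g K r) fun x _ => by ring] at e1
  rw [e1]
  have e2 := h.TI_eq (K := K) hr
  unfold TI at e2
  rw [e2]
  change 1 * (am g K r * arA g r) + -am g K r * arA g r = 0
  ring

include hK in
/-- comparison with the other quantity -/
lemma M5_le [Nontrivial (E n)] {r : ℝ} (hr : R ≤ r) : M5 g K r ≤ MM g K r := by
  have hρ := h.rhoA_pos hr
  have hA := h.arA_pos hr
  have hx : ∀ x : E n, len x = r → R ≤ len x := fun x hx => by rw [hx]; exact hr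
  have c1 : ∀ x, len x = r → ContinuousAt (Qf g K) x := fun x hxr =>
    (h.cQf hK (hx x hxr)).continuousAt
  have c2 : ∀ x, len x = r → ContinuousAt (Qa g K (am g K r)) x := fun x hxr =>
    (h.cQa hK _ (hx x hxr)).continuousAt
  have h1 : leafI g (Qf g K) r ≤ leafI g (Qa g K (am g K r)) r :=
    h.leafI_mono hr c1 c2 fun x _ => by
      unfold Qf Qa
      nlinarith [sq_nonneg (tauf g K x - am g K r)]
  rw [h.leafI_Qam hK hr] at h1
  unfold M5 MM yyQ
  have := mul_le_mul_of_nonneg_left h1 hρ.le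
  linarith

include hK in
lemma M5_contOn [Nontrivial (E n)] : ContinuousOn (M5 g K) (Ici R) := by
  unfold M5
  refine (continuousOn_const.mul (h.rhoA_contOn.rpow_const fun r hr =>
    Or.inl (h.rhoA_pos hr).ne')).sub (h.rhoA_contOn.mul ?_)
  refine (h.leafI_contOn fun x hx => ((h.cHm hx).continuousAt).pow 2).sub ?_
  refine ContinuousOn.div ((h.leafI_contOn fun x hx => (h.ctauf hK hx).continuousAt).pow 2)
    h.arA_contOn fun r hr => (h.arA_pos hr).ne'

include hK in
/-- derivative of the monotone quantity -/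
lemma M5_deriv [Nontrivial (E n)] (hn : 3 ≤ n) {r : ℝ} (hRr : R < r) (h3 : Der5 g K r) :
    ∃ d, 0 ≤ d ∧ HasDerivAt (M5 g K) d r := by
  have h2 : (3 : ℝ) ≤ n := by exact_mod_cast hn
  have hm : 0 < (n : ℝ) - 1 := by linarith
  have hρ := h.rhoA_deriv (by omega) hRr
  have hρ0 := h.rhoA_pos hRr.le
  have hA := h.arA_pos hRr.le
  have hA' := h.arA_deriv hRr
  have hH := h.leafI_deriv (f := fun x => Hm g x ^ 2) (fun x hx => (h.cHm hx).pow 2) hRr
  have hT := h.leafI_deriv (f := tauf g K) (fun x hx => h.ctauf hK hx) hRr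
  have hY := h.leafI_deriv (f := Qa g K (am g K r)) (fun x hx => h.cQa hK _ hx) hRr
  have h4 := ((hρ.rpow_const (p := (n : ℝ) - 2) (Or.inl hρ0.ne')).const_mul
    (((n : ℝ) - 1) ^ 2 * omega n)).sub (hρ.mul (hH.sub ((hT.pow 2).div hA' hA.ne')))
  have h4' : HasDerivAt (M5 g K) _ r := h4
  refine ⟨_, ?_, h4'⟩
  set A1 := leafI g (Fx g) r with hA1
  set H1 := r ^ (n - 1) * sphI (fun x => ∑ i, pd i (fun y => sg g y * ((fun x => Hm g x ^ 2) y *
    nu g i y)) x) r with hH1
  set T1 := r ^ (n - 1) * sphI (fun x => ∑ i, pd i (fun y => sg g y * (tauf g K y *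
    nu g i y)) x) r with hT1
  set Y' := r ^ (n - 1) * sphI (fun x => ∑ i, pd i (fun y => sg g y *
    (Qa g K (am g K r) y * nu g i y)) x) r with hY'
  -- the relation between the derivatives
  have h5 : Y' = H1 - 2 * am g K r * T1 + (am g K r) ^ 2 * A1 := by
    have h6 : HasDerivAt (fun s => HI g s - 2 * am g K r * TI g K s + (am g K r) ^ 2 * arA g s)
        (H1 - 2 * am g K r * T1 + (am g K r) ^ 2 * A1) r :=
      (HasDerivAt.sub hH (hT.const_mul (2 * am g K r))).add (hA'.const_mul _)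
    refine hY.unique (h6.congr_of_eventuallyEq ?_)
    filter_upwards [lt_mem_nhds hRr] with s hs
    exact h.leafI_Qa hK _ hs.le
  unfold Der5 at h3
  rw [h.leafI_Qam hK hRr.le, ← hY', ← hA1] at h3
  have h6 := h.rho_pow (by omega) hRr.le
  have h7 : rhoA g r ^ ((n : ℝ) - 1) = rhoA g r ^ ((n : ℝ) - 2) * rhoA g r := by
    rw [← Real.rpow_add_one hρ0.ne']; congr 1; ring
  rw [h7] at h6
  rw [Real.rpow_sub_one hρ0.ne']
  have h8 : omega n * rhoA g r ^ ((n : ℝ) - 2) = arA g r / rhoA g r := by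
    rw [eq_div_iff hρ0.ne']; linarith
  have hTI : leafI g (tauf g K) r = am g K r * arA g r := h.TI_eq hRr.le
  have hTI' : TI g K r = am g K r * arA g r := h.TI_eq hRr.le
  have e : ((n : ℝ) - 1) ^ 2 * omega n *
      (rhoA g r * A1 / (((n : ℝ) - 1) * arA g r) * ((n : ℝ) - 2) *
        (rhoA g r ^ ((n : ℝ) - 2) / rhoA g r)) -
      (rhoA g r * A1 / (((n : ℝ) - 1) * arA g r) * (HI g r - TI g K r ^ 2 / arA g r) +
        rhoA g r * (H1 - ((2 : ℕ) * leafI g (tauf g K) r ^ (2 - 1) * T1 * arA g r -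
          leafI g (tauf g K) r ^ 2 * A1) / arA g r ^ 2)) =
      rhoA g r * (((n : ℝ) - 1) * ((n : ℝ) - 2) / rhoA g r ^ 2 * A1 -
        A1 / arA g r / ((n : ℝ) - 1) * (HI g r - TI g K r ^ 2 / arA g r) - Y') := by
    have e1 : ((n : ℝ) - 1) ^ 2 * omega n *
      (rhoA g r * A1 / (((n : ℝ) - 1) * arA g r) * ((n : ℝ) - 2) *
        (rhoA g r ^ ((n : ℝ) - 2) / rhoA g r)) = ((n : ℝ) - 1) * ((n : ℝ) - 2) * A1 / arA g r *
          (omega n * rhoA g r ^ ((n : ℝ) - 2)) := by
      field_simp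
    rw [e1, h8, h5, hTI, hTI']
    push_cast
    field_simp
    ring
  refine le_trans (mul_nonneg hρ0.le (by linarith)) (le_of_eq e.symm)

include hK in
/-- **Monotonicity on an interval.** -/
theorem mono5_to [Nontrivial (E n)] (hn : 3 ≤ n) {r0 r1 : ℝ} (hr0 : R ≤ r0)
    (hgt : ∀ r, r0 < r → r < r1 → Der5 g K r) :
    MonotoneOn (M5 g K) (Icc r0 r1) := by
  refine monotoneOn_of_deriv_nonneg (convex_Icc r0 r1)
    ((h.M5_contOn hK).mono fun r hr => hr0.trans hr.1) ?_ ?_
  · rw [interior_Icc]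
    intro r hr
    obtain ⟨d, -, hd⟩ := h.M5_deriv hK hn (hr0.trans_lt hr.1) (hgt r hr.1 hr.2)
    exact hd.differentiableAt.differentiableWithinAt
  · rw [interior_Icc]
    intro r hr
    obtain ⟨d, hd0, hd⟩ := h.M5_deriv hK hn (hr0.trans_lt hr.1) (hgt r hr.1 hr.2)
    rw [hd.deriv]
    exact hd0

/-- the initial value -/
lemma M5_ge [Nontrivial (E n)] {r : ℝ} (hr : R ≤ r)
    (hz : ∀ x, len x = r → |Hm g x| ≤ |am g K r|) :
    ((n : ℝ) - 1) ^ 2 * omega n * rhoA g r ^ ((n : ℝ) - 2) ≤ M5 g K r := by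
  have hρ := h.rhoA_pos hr
  have hA := h.arA_pos hr
  have hx : ∀ x : E n, len x = r → R ≤ len x := fun x hx => by rw [hx]; exact hr
  have h1 : HI g r ≤ am g K r ^ 2 * arA g r := by
    rw [← leafI_const]
    refine h.leafI_mono hr (fun x hxr => ((h.cHm (hx x hxr)).continuousAt).pow 2)
      (fun _ _ => continuousAt_const) fun x hxr => ?_
    exact sq_le_sq.2 (hz x hxr)
  have h2 : TI g K r ^ 2 / arA g r = am g K r ^ 2 * arA g r := by
    rw [h.TI_eq hr]
    field_simp
  unfold M5
  rw [h2]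
  nlinarith

include hK in
lemma cgnA (a : ℝ) {x : E n} (hx : R ≤ len x) (hH : Hm g x ≠ 0) :
    ContDiffAt ℝ ∞ (gnA g K a) x := by
  have h1 : ContDiffAt ℝ ∞ (fun x => a / Hm g x) x := contDiffAt_const.div (h.cHm hx) hH
  have hl : ContDiffAt ℝ ∞ (fun y => Real.log (Hm g y)) x := (h.cHm hx).log hH
  unfold gnA
  exact ((((((contDiffAt_const.mul ((h.cmu hK hx).sub (h1.mul (h.cJn hK hx)))).add
    (contDiffAt_const.mul (h.cdt hx (fun k => contDiffAt_pd hl k)
      (fun k => contDiffAt_pd hl k)))).add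
    (contDiffAt_const.mul (h.cdt hx (fun k => h.ckap hK hx k)
      (fun k => h.ckap hK hx k)))).sub
    ((contDiffAt_const.mul h1).mul (h.cdt hx (fun k => h.ckap hK hx k)
      (fun k => contDiffAt_pd hl k)))).add
    ((h.cct hx (fun i j => h.cAA hx i j) (fun i j => h.cAA hx i j)).sub
      (((h.cHm hx).pow 2).div_const _))).sub
    ((contDiffAt_const.mul h1).mul ((h.cct hx (fun i j => (hK i j).contDiffAt)
      (fun i j => h.cAA hx i j)).sub (((h.ctauf hK hx).mul (h.cHm hx)).div_const _)))).add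
    ((h.cct hx (fun i j => (hK i j).contDiffAt) (fun i j => (hK i j).contDiffAt)).sub
      (((h.ctauf hK hx).pow 2).div_const _))

include hK in
lemma ctrA (a : ℝ) {x : E n} (hx : R ≤ len x) : ContDiffAt ℝ ∞ (trA g K a) x := by
  unfold trA
  exact ((contDiffAt_const.mul ((h.ctauf hK hx).sub contDiffAt_const)).mul (h.ctr hK hx)).sub
    (contDiffAt_const.mul (((h.ctauf hK hx).pow 2).sub contDiffAt_const))

include hK in
lemma cdFA (a : ℝ) {x : E n} (hx : R ≤ len x) (hH : Hm g x ≠ 0) :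
    ContDiffAt ℝ ∞ (dFA g K a) x := by
  have h1 : ContDiffAt ℝ ∞ (fun x => a / Hm g x) x := contDiffAt_const.div (h.cHm hx) hH
  have hl : ContDiffAt ℝ ∞ (fun y => Real.log (Hm g y)) x := (h.cHm hx).log hH
  exact h.cdt (b := fun k y => pd k (fun y => Real.log (Hm g y)) y - a / Hm g y * kap g K k y) hx
    (fun k => contDiffAt_pd (h.cFx hx) k)
    (fun k => (contDiffAt_pd hl k).sub (h1.mul (h.ckap hK hx k)))

include hK hKs in
/-- **The integrated inequality.** -/
theorem der5_of_ineq [Nontrivial (E n)] (hn : 2 ≤ n) {r : ℝ} (hr : R < r)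
    (hH : ∀ x, len x = r → |am g K r| < Hm g x)
    (hI : leafI g (fun x => Fx g x * (RS g x - ((n : ℝ) - 1) * ((n : ℝ) - 2) / rhoA g r ^ 2) -
      (Fx g x - leafI g (Fx g) r / arA g r) * Qa g K (am g K r) x / ((n : ℝ) - 1) +
      Fx g x * trA g K (am g K r) x + 2 * dFA g K (am g K r) x) r ≤
      leafI g (fun x => Fx g x * gnA g K (am g K r) x) r) : Der5 g K r := by
  unfold Der5
  set a := am g K r with ha
  set cc := ((n : ℝ) - 1) * ((n : ℝ) - 2) / rhoA g r ^ 2 with hcc
  set Fb := leafI g (Fx g) r / arA g r with hFb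
  have hr0 : 0 < r := h.hR.trans hr
  have hxr : ∀ x : E n, len x = r → R < len x := fun x hx => by rw [hx]; exact hr
  have hHp : ∀ x, len x = r → 0 < Hm g x := fun x hx => (abs_nonneg a).trans_lt (hH x hx)
  -- continuity
  have cD : ∀ (V : Fin n → E n → ℝ), (∀ i x, R ≤ len x → ContDiffAt ℝ ∞ (V i) x) →
      ∀ x, len x = r → ContinuousAt (fun x => ∑ i, pd i (fun y => sg g y * V i y) x) x := by
    intro V hV x hx
    have hx' := (hxr x hx).le
    have : ContDiffAt ℝ ∞ (fun x => ∑ i, pd i (fun y => sg g y * V i y) x) x :=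
      ContDiffAt.sum fun i _ => contDiffAt_pd ((h.csg hx').mul (hV i x hx')) i
    exact this.continuousAt
  have c2 := cD (fun i y => Hm g y * ZZ g i y) fun i x hx => (h.cHm hx).mul (h.cZZ hx i)
  have c3 := cD (fun i y => 1 * bb g K i y) fun i x hx => contDiffAt_const.mul (h.cbb hK hx i)
  have cF : ∀ x, len x = r → ContinuousAt (Fx g) x := fun x hx =>
    (h.cFx (hxr x hx).le).continuousAt
  have cRS : ∀ x, len x = r → ContinuousAt (RS g) x := fun x hx =>
    (h.cRS (hxr x hx).le).continuousAt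
  have cQ : ∀ x, len x = r → ContinuousAt (Qa g K a) x := fun x hx =>
    (h.cQa hK a (hxr x hx).le).continuousAt
  have cg : ∀ x, len x = r → ContinuousAt (gnA g K a) x := fun x hx =>
    (h.cgnA hK a (hxr x hx).le (hHp x hx).ne').continuousAt
  have ct : ∀ x, len x = r → ContinuousAt (trA g K a) x := fun x hx =>
    (h.ctrA hK a (hxr x hx).le).continuousAt
  have cd : ∀ x, len x = r → ContinuousAt (dFA g K a) x := fun x hx =>
    (h.cdFA hK a (hxr x hx).le (hHp x hx).ne').continuousAt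
  -- tangential terms
  have t2 : sphI (fun x => ∑ i, pd i (fun y => sg g y * (Hm g y * ZZ g i y)) x) r = 0 :=
    h.sphI_tan (fun x hx => h.cHm hx) (fun l x hx => contDiffAt_pd (h.clam hx) l) hr
  have t3 : sphI (fun x => ∑ i, pd i (fun y => sg g y * (1 * bb g K i y)) x) r = 0 :=
    h.sphI_tan (fun x hx => contDiffAt_const) (fun l x hx => h.ckap hK hx l) hr
  -- the integrand
  set W : E n → ℝ := fun x => Fx g x * (RS g x - Qa g K a x / ((n : ℝ) - 1) - gnA g K a x +
      trA g K a x) + 2 * dFA g K a x with hW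
  have cW : ∀ x, len x = r → ContinuousAt W x := fun x hx =>
    ((cF x hx).mul ((((cRS x hx).sub ((cQ x hx).div_const _)).sub (cg x hx)).add (ct x hx))).add
      (continuousAt_const.mul (cd x hx))
  have iW := h.int_at hr.le cW
  have i2 := integrable_at hr0.le c2
  have i3 := integrable_at hr0.le c3
  have h1 : sphI (fun x => ∑ i, pd i (fun y => sg g y * (Qa g K a y * nu g i y)) x) r =
      sphI (fun x => ad g x * W x) r := by
    obtain ⟨-, e2⟩ := int4 iW i2 i3 i3 2 (2 * a) 0
    have e3 : sphI (fun x => ∑ i, pd i (fun y => sg g y * (Qa g K a y * nu g i y)) x) r =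
        sphI (fun x => ad g x * W x - 2 * (∑ i, pd i (fun y => sg g y * (Hm g y * ZZ g i y)) x) -
          2 * a * (∑ i, pd i (fun y => sg g y * (1 * bb g K i y)) x) -
          0 * (∑ i, pd i (fun y => sg g y * (1 * bb g K i y)) x)) r := by
      refine sphI_congr hr0.le fun x hx => ?_
      have hx' : len x = r := hx
      rw [h.pt_id hK hKs hn (hxr x hx') (a := a) (hHp x hx').ne', hW]
      ring
    rw [e3]
    refine Eq.trans e2 ?_
    change sphI (fun x => ad g x * W x) r -
      2 * sphI (fun x => ∑ i, pd i (fun y => sg g y * (Hm g y * ZZ g i y)) x) r -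
      2 * a * sphI (fun x => ∑ i, pd i (fun y => sg g y * (1 * bb g K i y)) x) r -
      0 * sphI (fun x => ∑ i, pd i (fun y => sg g y * (1 * bb g K i y)) x) r = _
    rw [t2, t3]
    ring
  rw [h1]
  change leafI g W r ≤ _
  -- the combination
  set U : E n → ℝ := fun x => Fx g x * (RS g x - cc) -
      (Fx g x - Fb) * Qa g K a x / ((n : ℝ) - 1) +
      Fx g x * trA g K a x + 2 * dFA g K a x with hU
  have cU : ∀ x, len x = r → ContinuousAt U x := fun x hx =>
    ((((cF x hx).mul ((cRS x hx).sub continuousAt_const)).sub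
      ((((cF x hx).sub continuousAt_const).mul (cQ x hx)).div_const _)).add
      ((cF x hx).mul (ct x hx))).add (continuousAt_const.mul (cd x hx))
  have cFg : ∀ x, len x = r → ContinuousAt (fun x => Fx g x * gnA g K a x) x := fun x hx =>
    (cF x hx).mul (cg x hx)
  have e1 := h.leafI_lin hr.le (a := fun x => 1 * U x + (-1) * (Fx g x * gnA g K a x))
    (b := fun x => cc * Fx g x + (-(Fb / ((n : ℝ) - 1))) * Qa g K a x)
    (fun x hx => (continuousAt_const.mul (cU x hx)).add (continuousAt_const.mul (cFg x hx)))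
    (fun x hx => (continuousAt_const.mul (cF x hx)).add (continuousAt_const.mul (cQ x hx))) 1 1
  rw [h.leafI_lin hr.le cU cFg, h.leafI_lin hr.le cF cQ,
    h.leafI_congr hr.le (f' := W) fun x _ => by
      simp only [hW, hU]
      ring] at e1
  rw [e1]
  refine le_of_sub_nonneg (le_trans (sub_nonneg.2 hI) (le_of_eq ?_))
  ring

include hK hKs in
/-- **Uniformly expanding leaves with constant trace.** -/
theorem der5_of_trace [Nontrivial (E n)] (hn : 3 ≤ n) {r : ℝ} (hr : R < r)
    (hH : ∀ x, len x = r → |am g K r| < Hm g x) {c : ℝ} (hc : ∀ x, len x = r → Fx g x = c)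
    (hD : ∀ x, len x = r → covNorm g (mom g K) x ≤ mu g K x)
    {t : ℝ} (ht : ∀ x, len x = r → tr g K x = t)
    (hcurv : leafI g (RS g) r ≤ ((n : ℝ) - 1) * ((n : ℝ) - 2) / rhoA g r ^ 2 * arA g r) :
    Der5 g K r := by
  have h2 : (3 : ℝ) ≤ n := by exact_mod_cast hn
  have hm : 0 < (n : ℝ) - 1 := by linarith
  have hA := h.arA_pos hr.le
  have hxr : ∀ x : E n, len x = r → R ≤ len x := fun x hx => by rw [hx]; exact hr.le
  have hc0 : 0 < c := by
    obtain ⟨y, hy⟩ := exists_len (n := n) (by omega) (r := r) (h.hR.le.trans hr.le)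
    rw [← hc y hy]
    exact div_pos ((abs_nonneg _).trans_lt (hH y hy)) (h.sq_pos (hxr y hy))
  refine h.der5_of_ineq hK hKs (by omega) hr hH ?_
  rw [h.leafI_congr hr.le hc, leafI_const]
  set a := am g K r with ha
  set cc := ((n : ℝ) - 1) * ((n : ℝ) - 2) / rhoA g r ^ 2 with hcc
  have e3 : c * arA g r / arA g r = c := by field_simp
  rw [e3]
  have cRS : ∀ x, len x = r → ContinuousAt (RS g) x := fun x hx =>
    (h.cRS (hxr x hx)).continuousAt
  have c1 : ∀ x : E n, len x = r → ContinuousAt (fun _ : E n => (1 : ℝ)) x := fun _ _ =>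
    continuousAt_const
  have cdev : ∀ x, len x = r → ContinuousAt (fun x => tauf g K x - a) x := fun x hx =>
    (h.ctauf hK (hxr x hx)).continuousAt.sub continuousAt_const
  have cF : ∀ x, len x = r → ContinuousAt (Fx g) x := fun x hx =>
    (h.cFx (hxr x hx)).continuousAt
  have hHp : ∀ x, len x = r → 0 < Hm g x := fun x hx => (abs_nonneg a).trans_lt (hH x hx)
  have h6 : 0 ≤ leafI g (fun x => Fx g x * gnA g K a x) r :=
    h.leafI_nonneg hr.le (fun x hx => (cF x hx).mul
      (h.cgnA hK a (hxr x hx) (hHp x hx).ne').continuousAt) fun x hx => by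
        rw [hc x hx]
        exact mul_nonneg hc0.le (h.gnA_nonneg (by omega) (hxr x hx) (hH x hx) (hD x hx))
  refine le_trans ?_ h6
  have h4 := h.leafI_mono hr.le (a := fun x => Fx g x * (RS g x - cc) -
      (Fx g x - c) * Qa g K a x / ((n : ℝ) - 1) + Fx g x * trA g K a x + 2 * dFA g K a x)
    (b := fun x => 1 * (c * RS g x + (-(c * cc)) * 1) + (c * (2 * t -
      2 * ((n : ℝ) / ((n : ℝ) - 1)) * a)) * (tauf g K x - a))
    (fun x hx => ((((cF x hx).mul ((cRS x hx).sub continuousAt_const)).sub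
      ((((cF x hx).sub continuousAt_const).mul
        (h.cQa hK a (hxr x hx)).continuousAt).div_const _)).add
      ((cF x hx).mul (h.ctrA hK a (hxr x hx)).continuousAt)).add (continuousAt_const.mul
        (h.cdFA hK a (hxr x hx) (hHp x hx).ne').continuousAt))
    (fun x hx => (continuousAt_const.mul ((continuousAt_const.mul (cRS x hx)).add
      (continuousAt_const.mul (c1 x hx)))).add (continuousAt_const.mul (cdev x hx)))
    fun x hx => ?_
  · refine h4.trans ?_
    rw [h.leafI_lin (a := fun x => c * RS g x + (-(c * cc)) * 1) hr.le (fun x hx =>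
      (continuousAt_const.mul (cRS x hx)).add (continuousAt_const.mul (c1 x hx))) cdev,
      h.leafI_lin hr.le cRS c1, h.leafI_dev hK hr.le]
    have h5 := mul_le_mul_of_nonneg_left hcurv hc0.le
    change 1 * (c * leafI g (RS g) r + -(c * cc) * arA g r) + _ * 0 ≤ 0
    linarith
  · have h1 : dFA g K a x = 0 := by
      unfold dFA
      rw [h.dt_symm]
      exact h.dt_const (hxr x hx) (h.cFx (hxr x hx)) (fun y hy => by
        rw [hc y (by rw [hy, hx]), hc x hx]) _
    rw [h1, hc x hx]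
    unfold trA
    rw [ht x hx]
    have h5 : 0 ≤ c * ((n : ℝ) / ((n : ℝ) - 1) * (tauf g K x - a) ^ 2) := by positivity
    refine le_of_sub_nonneg (h5.trans (le_of_eq ?_))
    ring

end

end Met

end Vale.Agent.H106
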