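import Vale.Agent.P366.R2.H106.M5b
import Vale.Agent.P366.R2.H106.DefsM
import Vale.Agent.P366.R2.H106.Ends

/-! Leaves with an averaged trace: the Penrose inequality. -/

open MeasureTheory Metric Filter Topology Set
open scoped ContDiff ENNReal Matrix MatrixOrder

noncomputable section
namespace Vale.Agent.H106
open Vale.Agent.P366.Stmt Vale.Agent.P366.T2 Vale.Agent.T4 Vale.Agent.H177
open Vale.Agent.P366 (sphI sphM av norm_smul_sph sphI_congr)
open Vale.Agent.C92 (outside_nonneg theta_compare)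
open Vale.Agent.P366.T1.A919 (O O_iff O_of_bigO)
open Vale.Agent.P366.T1 (Spacetime uv)

variable {n : ℕ}

/-- the dichotomy for the leaves -/
def DichR (g K : Field n) (R r : ℝ) : Prop :=
  (∀ x, len x = r → Hm g x ≤ |am g K r|) ∨
    ((∀ x, len x = r → |am g K r| < Hm g x) ∧ (R < r → Der5 g K r))

/-- The last radius up to `R1` with a weakly trapped mean. -/
theorem last_to (hn : 0 < n) {R R1 : ℝ} (hR : 0 < R) (hRR : R ≤ R1) {f : E n → ℝ}
    {P : ℝ → Prop} (hf : ∀ x, R ≤ len x → ContinuousAt f x)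
    (hd : ∀ r, R ≤ r → r < R1 →
      (∀ x, len x = r → 0 ≤ f x) ∨ ((∀ x, len x = r → f x < 0) ∧ P r))
    (h0 : ∀ x, len x = R → 0 ≤ f x) :
    ∃ r0, R ≤ r0 ∧ r0 ≤ R1 ∧ (∀ x, len x = r0 → 0 ≤ f x) ∧
      (r0 < R1 → ∀ x, len x = r0 → f x ≤ 0) ∧
      ∀ r, r0 < r → r < R1 → (∀ x, len x = r → f x < 0) ∧ P r := by
  have hray : ∀ θ : sphere (0 : E n) 1, ContinuousOn (fun r : ℝ => f (r • (θ : E n))) (Ici R) := by
    intro θ r hr
    have hr0 : 0 ≤ r := hR.le.trans hr
    exact (ContinuousAt.comp (f := fun r : ℝ => r • (θ : E n)) (hf _ (by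
      rw [len_smul_sph hr0]; exact hr))
        (continuous_id.smul continuous_const).continuousAt).continuousWithinAt
  set S : Set ℝ := {r | R ≤ r ∧ r ≤ R1 ∧ ∀ x, len x = r → 0 ≤ f x} with hS
  have hSc : IsClosed S := by
    have e : S = ⋂ θ : sphere (0 : E n) 1, ({r | R ≤ r ∧ 0 ≤ f (r • (θ : E n))} ∩
        {r | R ≤ r}) ∩ Iic R1 := by
      ext r
      simp only [hS, mem_ofPred_eq, mem_iInter, mem_inter_iff, mem_Iic]
      constructor
      · rintro ⟨h1, h3, h2⟩ θ
        have hr0 : 0 ≤ r := hR.le.trans h1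
        exact ⟨⟨⟨h1, h2 _ (len_smul_sph hr0 θ)⟩, h1⟩, h3⟩
      · intro h1
        obtain ⟨y, hy⟩ := exists_len (n := n) hn (r := 1) zero_le_one
        have h2 := h1 ⟨y, by rw [mem_sphere_zero_iff_norm]; exact hy⟩
        refine ⟨h2.1.2, h2.2, fun x hx => ?_⟩
        have hr0 : 0 < r := hR.trans_le h2.1.2
        obtain ⟨θ, hθ⟩ := exists_theta (x := x) (by rw [hx]; exact hr0)
        have h3 := (h1 θ).1.1.2
        rw [hx] at hθ
        rw [← hθ] at h3
        exact h3
    rw [e]
    refine isClosed_iInter fun θ => IsClosed.inter ?_ isClosed_Iic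
    have h2 := (hray θ).preimage_isClosed_of_isClosed isClosed_Ici (isClosed_Ici (a := (0 : ℝ)))
    have e2 : {r : ℝ | R ≤ r ∧ 0 ≤ f (r • (θ : E n))} ∩ {r : ℝ | R ≤ r} =
        Ici R ∩ (fun r : ℝ => f (r • (θ : E n))) ⁻¹' Ici 0 := by
      ext r
      simp only [mem_ofPred_eq, mem_inter_iff, mem_Ici, mem_preimage]
      tauto
    rw [e2]
    exact h2
  have hSne : S.Nonempty := ⟨R, le_rfl, hRR, h0⟩
  have hSb : BddAbove S := ⟨R1, fun r hr => hr.2.1⟩
  have hr0S : sSup S ∈ S := hSc.csSup_mem hSne hSb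
  have hgt : ∀ r, sSup S < r → r < R1 → (∀ x, len x = r → f x < 0) ∧ P r := by
    intro r hr hr1
    rcases hd r (hr0S.1.trans hr.le) hr1 with h1 | h1
    · exact absurd (le_csSup hSb ⟨hr0S.1.trans hr.le, hr1.le, h1⟩) (not_le.2 hr)
    · exact h1
  refine ⟨sSup S, hr0S.1, hr0S.2.1, hr0S.2.2, fun hlt x hx => ?_, hgt⟩
  have hr0 : 0 < sSup S := hR.trans_le hr0S.1
  obtain ⟨θ, hθ⟩ := exists_theta (x := x) (by rw [hx]; exact hr0)
  rw [hx] at hθ
  have hsub : Ioi (sSup S) ⊆ Ici R := fun r hr => hr0S.1.trans (le_of_lt hr)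
  have h1 : Tendsto (fun r : ℝ => f (r • (θ : E n))) (𝓝[>] (sSup S))
      (𝓝 (f (sSup S • (θ : E n)))) := (hray θ (sSup S) hr0S.1).mono hsub
  rw [hθ]
  refine le_of_tendsto h1 ?_
  filter_upwards [self_mem_nhdsWithin, Ioo_mem_nhdsGT hlt] with r hr hr1
  exact ((hgt r hr hr1.2).1 _ (len_smul_sph (hr0.trans hr).le θ)).le

namespace Met

variable {g : Field n} {R : ℝ} (h : Met g R)
include h

variable {K : Field n} (hK : ∀ i j, Smooth (fun x => K x i j))

include hK in
lemma am_contOn [Nontrivial (E n)] : ContinuousOn (am g K) (Ici R) := by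
  unfold am TI
  exact ContinuousOn.div (h.leafI_contOn fun x hx => (h.ctauf hK hx).continuousAt)
    h.arA_contOn fun r hr => (h.arA_pos hr).ne'

lemma leafI_pos [Nontrivial (E n)] {a : E n → ℝ} {r : ℝ} (hr : R ≤ r)
    (ha : ∀ x, len x = r → ContinuousAt a x) (h0 : ∀ x, len x = r → 0 < a x) :
    0 < leafI g a r := by
  have hr0 : 0 < r := h.hR.trans_le hr
  unfold leafI
  refine mul_pos (by positivity) ?_
  have hi := h.int_at hr ha
  have hpos : ∀ θ : sphere (0 : E n) 1, 0 < ad g (r • (θ : E n)) * a (r • (θ : E n)) := fun θ => by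
    have hθ : len (r • (θ : E n)) = r := norm_smul_sph hr0.le θ
    exact mul_pos (h.ad_pos (by rw [hθ]; exact hr)) (h0 _ hθ)
  have h1 : (sphM n) (Function.support fun θ : sphere (0 : E n) 1 =>
      ad g (r • (θ : E n)) * a (r • (θ : E n))) ≠ 0 := by
    have e : (Function.support fun θ : sphere (0 : E n) 1 =>
        ad g (r • (θ : E n)) * a (r • (θ : E n))) = univ := by
      ext θ
      simp only [Function.mem_support, mem_univ, iff_true]
      exact (hpos θ).ne'
    rw [e]
    intro h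
    exact Measure.toSphere_ne_zero (volume : Measure (E n)) (Measure.measure_univ_eq_zero.mp h)
  exact (integral_pos_iff_support_of_nonneg (fun θ => (hpos θ).le) hi).2 (pos_iff_ne_zero.2 h1)

/-- the function which detects the leaves -/
def _root_.Vale.Agent.H106.ff (g K : Field n) (R : ℝ) (x : E n) : ℝ :=
  |am g K (max (len x) R)| - Hm g x

omit h in
lemma ff_eq {x : E n} {r : ℝ} (hr : R ≤ r) (hx : len x = r) :
    ff g K R x = |am g K r| - Hm g x := by
  unfold ff
  rw [hx, max_eq_left hr]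

include hK in
lemma ff_cont [Nontrivial (E n)] {x : E n} (hx : R ≤ len x) : ContinuousAt (ff g K R) x := by
  have h1 : Continuous fun r : ℝ => am g K (max r R) :=
    (h.am_contOn hK).comp_continuous (continuous_id.max continuous_const)
      fun r => mem_Ici.2 (le_max_right _ _)
  have h2 : Continuous fun x : E n => am g K (max (len x) R) := h1.comp continuous_norm
  exact (h2.continuousAt.abs).sub (h.cHm hx).continuousAt

include hK in
/-- **The quantity at a finite radius.** -/
theorem core_to [Nontrivial (E n)] (hn : 3 ≤ n) {R1 : ℝ} (hRR : R ≤ R1)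
    (hd : ∀ r, R ≤ r → r < R1 → DichR g K R r) (h0 : ∀ x, len x = R → Hm g x ≤ |am g K R|)
    (hend : ∀ x, len x = R1 → 0 ≤ Hm g x) :
    ∃ r0, R ≤ r0 ∧ ((n : ℝ) - 1) ^ 2 * omega n * rhoA g r0 ^ ((n : ℝ) - 2) ≤ M5 g K R1 := by
  obtain ⟨r0, hr0, hr1, hz, hz', hgt⟩ := last_to (by omega) h.hR hRR (f := ff g K R)
    (P := fun r => R < r → Der5 g K r) (fun x hx => h.ff_cont hK hx)
    (fun r hr hr' => by
      rcases hd r hr hr' with h1 | h1
      · exact Or.inl fun x hx => by rw [ff_eq hr hx]; exact sub_nonneg.2 (h1 x hx)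
      · exact Or.inr ⟨fun x hx => by rw [ff_eq hr hx]; exact sub_neg.2 (h1.1 x hx), h1.2⟩)
    (fun x hx => by rw [ff_eq le_rfl hx]; exact sub_nonneg.2 (h0 x hx))
  refine ⟨r0, hr0, ?_⟩
  have h1 : ((n : ℝ) - 1) ^ 2 * omega n * rhoA g r0 ^ ((n : ℝ) - 2) ≤ M5 g K r0 := by
    refine h.M5_ge hr0 fun x hx => ?_
    have h2 := hz x hx
    rw [ff_eq hr0 hx] at h2
    have h3 : 0 ≤ Hm g x := by
      rcases hr1.lt_or_eq with h4 | h4
      · have h5 := hz' h4 x hx
        rw [ff_eq hr0 hx] at h5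
        have := abs_nonneg (am g K r0)
        linarith
      · exact hend x (by rw [hx, h4])
    rw [abs_of_nonneg h3]
    linarith
  refine h1.trans ?_
  exact h.mono5_to hK hn hr0 (r1 := R1) (fun r hr hr' => (hgt r hr hr').2 (hr0.trans_lt hr))
    ⟨le_rfl, hr1⟩ ⟨hr1, le_rfl⟩ hr1

include hK in
/-- **The quantity at infinity.** -/
theorem core_inf [Nontrivial (E n)] (hn : 3 ≤ n)
    (hd : ∀ r, R ≤ r → DichR g K R r) (h0 : ∀ x, len x = R → Hm g x ≤ |am g K R|)
    (hinf : ∀ᶠ r in atTop, ∀ x : E n, len x = r → |tauf g K x| < Hm g x) :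
    ∃ r0, R ≤ r0 ∧ ∀ r, r0 ≤ r →
      ((n : ℝ) - 1) ^ 2 * omega n * rhoA g r0 ^ ((n : ℝ) - 2) ≤ M5 g K r := by
  -- far out the leaves are untrapped
  have hfar : ∀ᶠ r in atTop, ∀ x : E n, len x = r → |am g K r| < Hm g x := by
    filter_upwards [hinf, eventually_ge_atTop R] with r hr hRr
    rcases hd r hRr with h1 | h1
    · exfalso
      have hA := h.arA_pos hRr
      have hx : ∀ x : E n, len x = r → R ≤ len x := fun x hx => by rw [hx]; exact hRr
      -- `|τ|` is smaller than its mean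
      have h2 : ∀ x, len x = r → |tauf g K x| < |am g K r| := fun x hx =>
        (hr x hx).trans_le (h1 x hx)
      have c1 : ∀ x, len x = r → ContinuousAt (tauf g K) x := fun x hxr =>
        (h.ctauf hK (hx x hxr)).continuousAt
      have h3 := h.leafI_dev (K := K) hK hRr
      rcases le_total 0 (am g K r) with h4 | h4
      · have h5 := h.leafI_pos hRr (a := fun x => am g K r - tauf g K x)
          (fun x hxr => continuousAt_const.sub (c1 x hxr)) fun x hxr => by
            have h6 := h2 x hxr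
            rw [abs_of_nonneg h4] at h6
            have := le_abs_self (tauf g K x)
            linarith
        have h7 := h.leafI_lin hRr (a := fun x => tauf g K x - am g K r)
          (b := fun _ => (0 : ℝ)) (fun x hxr => (c1 x hxr).sub continuousAt_const)
            (fun _ _ => continuousAt_const) (-1) 0
        rw [h3, h.leafI_congr hRr (f' := fun x => am g K r - tauf g K x) fun x _ => by ring] at h7
        linarith
      · have h5 := h.leafI_pos hRr (a := fun x => tauf g K x - am g K r)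
          (fun x hxr => (c1 x hxr).sub continuousAt_const) fun x hxr => by
            have h6 := h2 x hxr
            rw [abs_of_nonpos h4] at h6
            have := neg_abs_le (tauf g K x)
            linarith
        linarith
    · exact h1.1
  obtain ⟨r0, hr0, hz, hgt⟩ := exists_last (by omega) h.hR (f := ff g K R)
    (P := fun r => R < r → Der5 g K r) (fun x hx => h.ff_cont hK hx)
    (fun r hr => by
      rcases hd r hr with h1 | h1
      · exact Or.inl fun x hx => by rw [ff_eq hr hx]; exact sub_nonneg.2 (h1 x hx)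
      · exact Or.inr ⟨fun x hx => by rw [ff_eq hr hx]; exact sub_neg.2 (h1.1 x hx), h1.2⟩)
    (by
      obtain ⟨y, hy⟩ := exists_len (n := n) (by omega) (r := R) h.hR.le
      exact ⟨y, hy, by rw [ff_eq le_rfl hy]; exact sub_nonneg.2 (h0 y hy)⟩)
    (by
      filter_upwards [hfar, eventually_ge_atTop R] with r hr hRr x hx
      rw [ff_eq hRr hx]
      exact sub_neg.2 (hr x hx))
  refine ⟨r0, hr0, fun r hr => ?_⟩
  have h1 : ((n : ℝ) - 1) ^ 2 * omega n * rhoA g r0 ^ ((n : ℝ) - 2) ≤ M5 g K r0 := by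
    refine h.M5_ge hr0 fun x hx => ?_
    have h2 := hz x hx
    rw [ff_eq hr0 hx] at h2
    have h3 : Hm g x = |am g K r0| := by linarith
    rw [h3, abs_abs]
  refine h1.trans ?_
  exact h.mono5_to hK hn hr0 (r1 := r) (fun s hs _ => (hgt s hs).2 (hr0.trans_lt hs))
    ⟨le_rfl, hr⟩ ⟨hr, le_rfl⟩ hr

end Met

end Vale.Agent.H106
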