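import Vale.Agent.P366.R2.H106.M5c

/-! Leaves with an averaged trace: the final theorems. -/

open MeasureTheory Metric Filter Topology Set
open scoped ContDiff ENNReal Matrix MatrixOrder

noncomputable section
namespace Vale.Agent.H106
open Vale.Agent.P366.Stmt Vale.Agent.P366.T1 Vale.Agent.P366.T1.B526 Vale.Agent.P366.T2
open Vale.Agent.T4 Vale.Agent.H177
open Vale.Agent.P366 (sphI sphM av norm_smul_sph sphI_congr sphI_const)
open Vale.Agent.C92 (outside_nonneg theta_compare)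
open Vale.Agent.P366.T1.A919 (O O_iff O_of_bigO)

variable {n : ℕ}

namespace Met

variable {g : Field n} {R : ℝ} (h : Met g R)
include h

lemma meanTr_eq (K : Field n) {r : ℝ} (hr : R ≤ r) : leafMeanTr g K r = am g K r := by
  unfold leafMeanTr am TI
  rw [h.area_eq hr, h.int_eq hr (f' := tauf g K) fun x hx =>
    trS_eq g K (h.ne_zero (by rw [hx]; exact hr))]

lemma gain_eq (K : Field n) (t : ℝ) {x : E n} (hx : R < len x) :
    avgGain g K t x = Fx g x * gnA g K t x := by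
  have hx0 := h.ne_zero hx.le
  have e1 : (fun k => pd k (fun y => Real.log (sphereMean g y)) x) =
      fun k => pd k (fun y => Real.log (Hm g y)) x := by
    funext k
    exact pd_congr' ((near hx).mono fun y hy => by rw [h.mean_eq hy]) k
  have e2 : (fun k => sphereRow g K k x) = fun k => kap g K k x :=
    funext fun k => row_eq g K hx0 k
  have e3 : leafShape g x = AA g x := by
    funext i j
    exact shape_eq g hx0 i j
  unfold avgGain gnA
  rw [h.rate_eq hx.le, h.mean_eq hx.le, Jn_eq' g K hx0, dot_eq g hx0, dot_eq g hx0,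
    dot_eq g hx0, contr_eq g hx0, contr_eq g hx0, contr_eq g hx0, trS_eq g K hx0, e1, e2, e3]

lemma adef_eq (K : Field n) (t c F₀ : ℝ) {x : E n} (hx : R < len x) :
    avgDefect g K t c F₀ x = Fx g x * (RS g x - c) -
      (Fx g x - F₀) * Qa g K t x / ((n : ℝ) - 1) +
      Fx g x * trA g K t x + 2 * dFA g K t x := by
  have hx0 := h.ne_zero hx.le
  have e1 : (fun k => pd k (fun y => Real.log (sphereMean g y)) x -
      t / Hm g x * sphereRow g K k x) =
      fun k => pd k (fun y => Real.log (Hm g y)) x - t / Hm g x * kap g K k x := by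
    funext k
    rw [row_eq g K hx0,
      pd_congr' ((near hx).mono fun y hy => by rw [h.mean_eq hy]) k]
  have e2 : (fun k => pd k (leafRate g) x) = fun k => pd k (Fx g) x := by
    funext k
    exact pd_congr' ((near hx).mono fun y hy => h.rate_eq hy) k
  unfold avgDefect trA dFA Qa
  rw [h.rate_eq hx.le, h.mean_eq hx.le, h.scal_eq hx.le, dot_eq g hx0, trS_eq g K hx0, e1, e2]

section

variable {K : Field n} (hK : ∀ i j, Smooth (fun x => K x i j)) (hKs : ∀ x i j, K x i j = K x j i)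

include hK hKs in
/-- the conditions on the leaves imply the bound for the derivative -/
theorem der5_of_good (hn : 3 ≤ n) {q : ℝ} (hq : 0 < q) (D : Dec g q) {r : ℝ} (hr : R < r)
    (hH : ∀ x, len x = r → |am g K r| < Hm g x)
    (hD : ∀ x, len x = r → covNorm g (mom g K) x ≤ mu g K x) (hG : AvgGood g K r) :
    Der5 g K r := by
  have : Nonempty (Fin n) := ⟨⟨0, by omega⟩⟩
  have : Nontrivial (E n) := inferInstance
  have hxr : ∀ x : E n, len x = r → R ≤ len x := fun x hx => by rw [hx]; exact hr.le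
  have hxr' : ∀ x : E n, len x = r → R < len x := fun x hx => by rw [hx]; exact hr
  rcases hG with ⟨hc, ⟨t, ht⟩, hm⟩ | hG
  · obtain ⟨c, hc⟩ := h.const_iff (f' := Fx g) (fun x hx => h.rate_eq (hxr x hx)) hc
    exact h.der5_of_trace hK hKs hn hr hH hc hD ht (h.mean_of hq D hr hm)
  · refine h.der5_of_ineq hK hKs (by omega) hr hH ?_
    unfold AvgIneq at hG
    rw [h.radius_eq hr.le, h.area_eq hr.le, h.meanTr_eq K hr.le,
      h.int_eq hr.le (f' := Fx g) fun x hx => h.rate_eq (hxr x hx),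
      h.int_eq hr.le fun x hx => h.adef_eq K _ _ _ (hxr' x hx),
      h.int_eq hr.le fun x hx => h.gain_eq K _ (hxr' x hx)] at hG
    exact hG

include hK hKs in
lemma dich_of (hn : 3 ≤ n) {q : ℝ} (hq : 0 < q) (D : Dec g q) {r : ℝ} (hr : R ≤ r)
    (hD : ∀ x, len x = r → covNorm g (mom g K) x ≤ mu g K x) (hG : AvgLeaf g K r) :
    DichR g K R r := by
  have hxr : ∀ x : E n, len x = r → R ≤ len x := fun x hx => by rw [hx]; exact hr
  rcases hG with h1 | ⟨h1, h2⟩
  · refine Or.inl fun x hx => ?_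
    have := h1 x hx
    rwa [h.mean_eq (hxr x hx), h.meanTr_eq K hr] at this
  · have hH : ∀ x, len x = r → |am g K r| < Hm g x := fun x hx => by
      have := h1 x hx
      rwa [h.mean_eq (hxr x hx), h.meanTr_eq K hr] at this
    exact Or.inr ⟨hH, fun hr' => h.der5_of_good hK hKs hn hq D hr' hH hD h2⟩

end

end Met

/-- the touching argument at a given point -/
lemma touch_at (hn : 2 ≤ n) {X : Exterior n} {R : ℝ} (hT : X.Trapped)
    (hR : IsGreatest {r | ∃ x, X.F x = 0 ∧ len x = r} R) {x0 : E n} (hF0 : X.F x0 = 0)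
    (hx0 : len x0 = R) : Hm X.g x0 + tauf X.g X.K x0 ≤ 0 := by
  have h := met_of hn hR
  have hout := outside_nonneg hn X hR
  have h1 := theta_compare (g := X.g) (K := X.K) X.dom.1 h.hR hx0 (X.pos x0 hF0.ge)
    (X.dom.2.1 x0 hF0) (fun x hx => by rw [hF0]; exact hout x hx)
  have h2 := h1.trans (hT x0 hF0)
  have h3 : thetaPlus X.g X.K len x0 = sphereMean X.g x0 + trS X.g X.K len x0 := rfl
  rwa [h3, h.mean_eq hx0.ge, trS_eq X.g X.K (h.ne_zero hx0.ge)] at h2

/-- the initial leaf -/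
lemma start_at (hn : 2 ≤ n) {X : Exterior n} {R : ℝ} (hT : X.Trapped)
    (hR : IsGreatest {r | ∃ x, X.F x = 0 ∧ len x = r} R)
    (hs : ∃ x, X.F x = 0 ∧ len x = R ∧ -trS X.g X.K len x ≤ |leafMeanTr X.g X.K R|)
    (hd : DichR X.g X.K R R) : ∀ x, len x = R → Hm X.g x ≤ |am X.g X.K R| := by
  have h := met_of hn hR
  rcases hd with h1 | h1
  · exact h1
  · exfalso
    obtain ⟨x0, hF0, hx0, hle⟩ := hs
    have h2 := touch_at hn hT hR hF0 hx0
    rw [h.meanTr_eq X.K le_rfl, trS_eq X.g X.K (h.ne_zero hx0.ge)] at hle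
    have h3 := h1.1 x0 hx0
    linarith

/-- from the monotone quantity to the inequality -/
lemma concl5 (hn : 3 ≤ n) {X : Exterior n} {R r0 : ℝ}
    (hR : IsGreatest {r | ∃ x, X.F x = 0 ∧ len x = r} R) (hr0 : R ≤ r0) {m : ℝ}
    (hm : ((n : ℝ) - 1) ^ 2 * omega n * rhoA X.g r0 ^ ((n : ℝ) - 2) ≤
      2 * ((n : ℝ) - 1) ^ 2 * omega n * m) :
    X.Amin ≠ ⊤ ∧ 0 < m ∧
      (X.Amin.toReal / omega n) ^ (((n : ℝ) - 2) / (n - 1)) / 2 ≤ m := by
  have : Nonempty (Fin n) := ⟨⟨0, by omega⟩⟩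
  have : Nontrivial (E n) := inferInstance
  have hn3 : (3 : ℝ) ≤ n := by exact_mod_cast hn
  have hω : 0 < omega n := Met.omega_pos
  have h := met_of (by omega) hR
  have hle : rhoA X.g r0 ^ ((n : ℝ) - 2) ≤ 2 * m := by
    have h2 : 0 < ((n : ℝ) - 1) ^ 2 * omega n := by
      have : 0 < (n : ℝ) - 1 := by linarith
      positivity
    refine le_of_mul_le_mul_left ?_ h2
    linarith
  have hρ := h.rhoA_pos hr0
  have hAm : X.Amin ≤ ENNReal.ofReal (omega n * rhoA X.g r0 ^ ((n : ℝ) - 1)) := by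
    rw [h.rho_pow (by omega) hr0]
    exact amin_le (by omega) hR hr0
  obtain ⟨h1, h2, h3⟩ := Vale.Agent.P366.T2.conclude hn (P := fun _ : Fin n => 0) rfl hρ hAm hle
  simp only [ne_eq, OfNat.ofNat_ne_zero, not_false_eq_true, zero_pow, Finset.sum_const_zero,
    Real.sqrt_zero, sub_zero] at h2 h3
  rw [Real.sqrt_sq h2.le] at h3
  exact ⟨h1, h2, h3⟩

/-- **The Penrose inequality for leaves with an averaged trace.** -/
theorem avg_final (hn : 3 ≤ n) {X : Exterior n} (hAF : X.IsAF) (hDEC : X.DEC) (hT : X.Trapped)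
    {m : ℝ} (hm : X.IsEnergy m) {R : ℝ} (hR : IsGreatest {r | ∃ x, X.F x = 0 ∧ len x = r} R)
    (hs : ∃ x, X.F x = 0 ∧ len x = R ∧ -trS X.g X.K len x ≤ |leafMeanTr X.g X.K R|)
    (hc : ∀ r, R ≤ r → AvgLeaf X.g X.K r) :
    X.Amin ≠ ⊤ ∧ 0 < m ∧
      (X.Amin.toReal / omega n) ^ (((n : ℝ) - 2) / (n - 1)) / 2 ≤ m := by
  have : Nonempty (Fin n) := ⟨⟨0, by omega⟩⟩
  have : Nontrivial (E n) := inferInstance
  have hn3 : (3 : ℝ) ≤ n := by exact_mod_cast hn
  have h := met_of (by omega) hR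
  have hout := outside_nonneg (by omega) X hR
  have hK := fun i j => (X.smooth i j).2
  have hKs := fun x i j => (X.symm x i j).2
  obtain ⟨q, hq, hAFq⟩ := hAF
  have hq0 : 0 < q := by linarith
  have i0 : Fin n := ⟨0, by omega⟩
  have D : Dec X.g q := ⟨fun i j => O_of_bigO (hAFq i j i0 i0).1,
    fun i j k => O_of_bigO (hAFq i j k i0).2.1⟩
  have hKO : ∀ i j, O (q + 1) (fun x => X.K x i j) := fun i j =>
    O_of_bigO (hAFq i j i0 i0).2.2.2.1
  have hdich : ∀ r, R ≤ r → DichR X.g X.K R r := fun r hr =>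
    h.dich_of hK hKs hn hq0 D hr (fun x hx => hDEC x (hout x (by rw [hx]; exact hr))) (hc r hr)
  obtain ⟨r0, hr0, hle⟩ := h.core_inf hK hn hdich
    (start_at (by omega) hT hR hs (hdich R le_rfl)) (h.far_lt (by omega) hq0 D hKO)
  have hlim := MM_lim hn h hq0 hq D hK hKO hm
  refine concl5 hn hR hr0 ?_
  refine ge_of_tendsto hlim ?_
  filter_upwards [eventually_ge_atTop r0] with r hr
  exact (hle r hr).trans (h.M5_le hK (hr0.trans hr))

/-- the mass of the orbit bounds the quantity -/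
theorem ends_mass (hn : 3 ≤ n) {X : Exterior n} (hAF : X.IsAF)
    {m : ℝ} (hm : X.IsEnergy m) {P : Fin n → ℝ} (hP : X.IsMomentum P) {R R' : ℝ}
    (hR : IsGreatest {r | ∃ x, X.F x = 0 ∧ len x = r} R) (hRR : R < R')
    {M : Spacetime} {c : ℝ} (hE : M.DEC n)
    (hM : M.IsAFIn n c) {f : E n → ℝ} {L : E n ≃L[ℝ] E n} (hS : IsOuterSlice M f L X R')
    (hf : ∃ b < c, ∃ ρ, ∀ x, ρ < len x → |f x| ≤ b * len x) :
    ∃ (M0 : ℝ) (w : Fin n → ℝ), m = √(1 + ∑ i, w i ^ 2) * M0 ∧ (∀ i, P i = M0 * w i) ∧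
      MM X.g X.K R' ≤ 2 * ((n : ℝ) - 1) ^ 2 * omega n * M0 := by
  have : Nonempty (Fin n) := ⟨⟨0, by omega⟩⟩
  have : Nontrivial (E n) := inferInstance
  have h := met_of (by omega) hR
  have hR0 := h.hR
  have hR'0 : 0 < R' := hR0.trans hRR
  have hout := outside_nonneg (by omega) X hR
  obtain ⟨ρ0, hρ0⟩ := eventually_atTop.1 hS.far
  obtain ⟨κ, hκ0, hκ⟩ : ∃ κ : ℝ, 0 < κ ∧ ∀ y : E n, len y ≤ κ * len (L y) := by
    refine ⟨‖(L.symm : E n →L[ℝ] E n)‖ + 1, by positivity, fun y => ?_⟩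
    have h1 := (L.symm : E n →L[ℝ] E n).le_opNorm (L y)
    have h2 : (L.symm : E n →L[ℝ] E n) (L y) = y := L.symm_apply_apply y
    rw [h2] at h1
    have h3 : 0 ≤ ‖L y‖ := norm_nonneg _
    show ‖y‖ ≤ (‖(L.symm : E n →L[ℝ] E n)‖ + 1) * ‖L y‖
    nlinarith
  set ρ := max (max ρ0 R) (κ * R') with hρd
  have hρ1 : ρ0 ≤ ρ := (le_max_left _ _).trans (le_max_left _ _)
  have hρ2 : R ≤ ρ := (le_max_right _ _).trans (le_max_left _ _)
  have hρ3 : κ * R' ≤ ρ := le_max_right _ _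
  have hρpos : 0 < ρ := hR0.trans_le hρ2
  set D2 := outer (by omega) X hρpos (fun x hx => hout x (hρ2.trans hx)) with hD2
  have hS2 : IsSliceIn M f L D2 := by
    refine ⟨hS.smooth, hS.radial, fun y _ hy => ?_, fun y _ hy i j => ?_, fun y _ hy i j => ?_⟩
    · have h1 : ρ ≤ len y := (ball_iff hρpos y).1 hy
      refine (hS.orbits (L y) ?_).1
      have h2 := hκ y
      have h3 : κ * R' ≤ κ * len (L y) := hρ3.trans (h1.trans h2)
      exact le_of_mul_le_mul_left h3 hκ0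
    · exact (hρ0 (len y) (hρ1.trans ((ball_iff hρpos y).1 hy)) y rfl i j).1
    · exact (hρ0 (len y) (hρ1.trans ((ball_iff hρpos y).1 hy)) y rfl i j).2
  obtain ⟨M0, w, hm1, hP1, -, hlim, -⟩ := basympt hn hE hM hS2 hf (D := D2) hAF hm hP
  obtain ⟨e, he⟩ := exists_len (n := n) (by omega) (r := 1) zero_le_one
  have hy : len (R' • e) = R' := by
    show ‖R' • e‖ = R'
    rw [norm_smul, Real.norm_of_nonneg hR'0.le]
    show R' * len e = R'
    rw [he, mul_one]
  have hene : e ≠ 0 := by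
    rintro rfl
    have : len (0 : E n) = 0 := norm_zero
    rw [this] at he
    exact zero_ne_one he
  have hmass : M.mass n (uv f (R' • e)) ≤ M0 := by
    refine ge_of_tendsto (hlim e hene) ?_
    filter_upwards [eventually_ge_atTop R'] with s hs
    exact mass_mono hn hE hS.smooth hS.radial he hR'0 hS.orbits (mem_Ici.2 le_rfl)
      (mem_Ici.2 hs) hs
  have hω : 0 < omega n := Met.omega_pos
  refine ⟨M0, w, hm1, hP1, (orb_mass hn hR hRR hS hy).trans
    (mul_le_mul_of_nonneg_left hmass ?_)⟩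
  positivity

/-- **The Penrose inequality for leaves with an averaged trace and a boosted end.** -/
theorem avg_ends (hn : 3 ≤ n) {X : Exterior n} (hAF : X.IsAF) (hDEC : X.DEC) (hT : X.Trapped)
    {m : ℝ} (hm : X.IsEnergy m) {P : Fin n → ℝ} (hP : X.IsMomentum P) {R R' : ℝ}
    (hR : IsGreatest {r | ∃ x, X.F x = 0 ∧ len x = r} R) (hRR : R < R')
    (hs : ∃ x, X.F x = 0 ∧ len x = R ∧ -trS X.g X.K len x ≤ |leafMeanTr X.g X.K R|)
    (hc : ∀ r, R ≤ r → r < R' → AvgLeaf X.g X.K r)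
    (hu : ∀ x, len x = R' → |trS X.g X.K len x| < sphereMean X.g x)
    {M : Spacetime} {c : ℝ} (hE : M.DEC n)
    (hM : M.IsAFIn n c) {f : E n → ℝ} {L : E n ≃L[ℝ] E n} (hS : IsOuterSlice M f L X R')
    (hf : ∃ b < c, ∃ ρ, ∀ x, ρ < len x → |f x| ≤ b * len x) :
    X.Amin ≠ ⊤ ∧ √(∑ i, P i ^ 2) < m ∧
    (X.Amin.toReal / omega n) ^ (((n : ℝ) - 2) / (n - 1)) / 2 ≤ √(m ^ 2 - ∑ i, P i ^ 2) := by
  have : Nonempty (Fin n) := ⟨⟨0, by omega⟩⟩
  have : Nontrivial (E n) := inferInstance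
  have hn3 : (3 : ℝ) ≤ n := by exact_mod_cast hn
  have h := met_of (by omega) hR
  have hout := outside_nonneg (by omega) X hR
  have hK := fun i j => (X.smooth i j).2
  have hKs := fun x i j => (X.symm x i j).2
  obtain ⟨M0, w, hm1, hP1, hMM⟩ := ends_mass hn hAF hm hP hR hRR hE hM hS hf
  obtain ⟨q, hq, hAFq⟩ := hAF
  have hq0 : 0 < q := by linarith
  have i0 : Fin n := ⟨0, by omega⟩
  have D : Dec X.g q := ⟨fun i j => O_of_bigO (hAFq i j i0 i0).1,
    fun i j k => O_of_bigO (hAFq i j k i0).2.1⟩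
  have hdich : ∀ r, R ≤ r → r < R' → DichR X.g X.K R r := fun r hr hr' =>
    h.dich_of hK hKs hn hq0 D hr (fun x hx => hDEC x (hout x (by rw [hx]; exact hr)))
      (hc r hr hr')
  obtain ⟨r0, hr0, hle⟩ := h.core_to hK hn hRR.le hdich
    (start_at (by omega) hT hR hs (hdich R le_rfl hRR)) (fun x hx => by
      have h1 := hu x hx
      rw [h.mean_eq (by rw [hx]; exact hRR.le)] at h1
      exact (abs_nonneg _).trans h1.le)
  obtain ⟨h1, h2, h3⟩ := concl5 hn hR hr0 (m := M0)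
    (hle.trans ((h.M5_le hK hRR.le).trans hMM))
  have hs : ∑ i, P i ^ 2 = M0 ^ 2 * ∑ i, w i ^ 2 := by
    rw [Finset.mul_sum]
    exact Finset.sum_congr rfl fun i _ => by rw [hP1 i]; ring
  have hw : 0 ≤ ∑ i, w i ^ 2 := Finset.sum_nonneg fun i _ => sq_nonneg _
  have hmm : m ^ 2 - ∑ i, P i ^ 2 = M0 ^ 2 := by
    rw [hs, hm1, mul_pow, Real.sq_sqrt (by linarith)]
    ring
  refine ⟨h1, ?_, ?_⟩
  · rw [hs, hm1, Real.sqrt_mul (sq_nonneg _), Real.sqrt_sq h2.le, mul_comm]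
    exact mul_lt_mul_of_pos_right (Real.sqrt_lt_sqrt hw (by linarith)) h2
  · rw [hmm, Real.sqrt_sq h2.le]
    exact h3

end Vale.Agent.H106
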