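import Vale.Agent.P366.R2.H106.Avg
import Vale.Agent.P366.T5.X2355

/-! Monotonicity along the centred spheres. -/

open MeasureTheory Metric Filter Topology Set
open scoped ContDiff ENNReal Matrix MatrixOrder

noncomputable section
namespace Vale.Agent.H106
open Vale.Agent.P366.Stmt Vale.Agent.P366.T2 Vale.Agent.T4
open Vale.Agent.P366 (sphI sphM norm_smul_sph sphI_congr omega_pos')

variable {n : ℕ}

/-- area radius -/
def rhoA (g : Field n) (r : ℝ) : ℝ := (arA g r / omega n) ^ (1 / ((n : ℝ) - 1))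

/-- the monotone quantity -/
def MM (g K : Field n) (r : ℝ) : ℝ :=
  ((n : ℝ) - 1) ^ 2 * omega n * rhoA g r ^ ((n : ℝ) - 2) - rhoA g r * yyQ g K r

/-- the integral inequality on the sphere of radius `r` -/
def GoodR (g K : Field n) (r : ℝ) : Prop :=
  leafI g (fun x => gL g K x - ((n : ℝ) - 1) * ((n : ℝ) - 2) / rhoA g r ^ 2 * Fx g x -
    (Fx g x - leafI g (Fx g) r / arA g r) * Qf g K x / ((n : ℝ) - 1)) r ≤ 2 * leafI g (gR g K) r

/-- the bound for the derivative of the integral of `H² - τ²` -/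
def DerR (g K : Field n) (r : ℝ) : Prop :=
  r ^ (n - 1) * sphI (fun x => ∑ i, pd i (fun y => sg g y * (Qf g K y * nu g i y)) x) r ≤
    ((n : ℝ) - 1) * ((n : ℝ) - 2) / rhoA g r ^ 2 * leafI g (Fx g) r -
      leafI g (Fx g) r / arA g r / ((n : ℝ) - 1) * yyQ g K r

/-- **The last radius without untrapped points.** -/
theorem exists_last (hn : 0 < n) {R : ℝ} (hR : 0 < R) {f : E n → ℝ} {P : ℝ → Prop}
    (hf : ∀ x, R ≤ len x → ContinuousAt f x)
    (hd : ∀ r, R ≤ r → (∀ x, len x = r → 0 ≤ f x) ∨ ((∀ x, len x = r → f x < 0) ∧ P r))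
    (h0 : ∃ x, len x = R ∧ 0 ≤ f x)
    (hinf : ∀ᶠ r in atTop, ∀ x, len x = r → f x < 0) :
    ∃ r0, R ≤ r0 ∧ (∀ x, len x = r0 → f x = 0) ∧
      ∀ r, r0 < r → (∀ x, len x = r → f x < 0) ∧ P r := by
  obtain ⟨R1, hR1⟩ := eventually_atTop.1 hinf
  have hray : ∀ θ : sphere (0 : E n) 1, ContinuousOn (fun r : ℝ => f (r • (θ : E n))) (Ici R) := by
    intro θ r hr
    have hr0 : 0 ≤ r := hR.le.trans hr
    exact (ContinuousAt.comp (f := fun r : ℝ => r • (θ : E n)) (hf _ (by
      rw [len_smul_sph hr0]; exact hr))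
        (continuous_id.smul continuous_const).continuousAt).continuousWithinAt
  set S : Set ℝ := {r | R ≤ r ∧ ∀ x, len x = r → 0 ≤ f x} with hS
  have hSc : IsClosed S := by
    have e : S = ⋂ θ : sphere (0 : E n) 1, {r | R ≤ r ∧ 0 ≤ f (r • (θ : E n))} ∩
        {r | R ≤ r} := by
      ext r
      simp only [hS, mem_ofPred_eq, mem_iInter, mem_inter_iff]
      constructor
      · rintro ⟨h1, h2⟩ θ
        have hr0 : 0 ≤ r := hR.le.trans h1
        exact ⟨⟨h1, h2 _ (len_smul_sph hr0 θ)⟩, h1⟩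
      · intro h1
        obtain ⟨y, hy⟩ := exists_len (n := n) hn (r := 1) zero_le_one
        have h2 := h1 ⟨y, by rw [mem_sphere_zero_iff_norm]; exact hy⟩
        refine ⟨h2.2, fun x hx => ?_⟩
        have hr0 : 0 < r := hR.trans_le h2.2
        obtain ⟨θ, hθ⟩ := exists_theta (x := x) (by rw [hx]; exact hr0)
        have h3 := (h1 θ).1.2
        rw [hx] at hθ
        rw [← hθ] at h3
        exact h3
    rw [e]
    refine isClosed_iInter fun θ => ?_
    have h2 := (hray θ).preimage_isClosed_of_isClosed isClosed_Ici (isClosed_Ici (a := (0 : ℝ)))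
    have e2 : {r : ℝ | R ≤ r ∧ 0 ≤ f (r • (θ : E n))} ∩ {r : ℝ | R ≤ r} =
        Ici R ∩ (fun r : ℝ => f (r • (θ : E n))) ⁻¹' Ici 0 := by
      ext r
      simp only [mem_ofPred_eq, mem_inter_iff, mem_Ici, mem_preimage]
      tauto
    rw [e2]
    exact h2
  have hSne : S.Nonempty := by
    refine ⟨R, le_rfl, ?_⟩
    rcases hd R le_rfl with h1 | h1
    · exact h1
    · obtain ⟨x, hx, h2⟩ := h0
      have h3 := h1.1 x hx
      linarith
  have hSb : BddAbove S := ⟨max R R1, fun r hr => by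
    by_contra hlt
    push Not at hlt
    have h1 := hR1 r ((le_max_right _ _).trans hlt.le)
    obtain ⟨x, hx⟩ := exists_len (n := n) hn (r := r) (hR.le.trans hr.1)
    exact absurd (hr.2 x hx) (not_le.2 (h1 x hx))⟩
  have hr0S : sSup S ∈ S := hSc.csSup_mem hSne hSb
  have hgt : ∀ r, sSup S < r → (∀ x, len x = r → f x < 0) ∧ P r := by
    intro r hr
    rcases hd r (hr0S.1.trans hr.le) with h1 | h1
    · exact absurd (le_csSup hSb ⟨hr0S.1.trans hr.le, h1⟩) (not_le.2 hr)
    · exact h1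
  refine ⟨sSup S, hr0S.1, fun x hx => le_antisymm ?_ (hr0S.2 x hx), hgt⟩
  have hr0 : 0 < sSup S := hR.trans_le hr0S.1
  obtain ⟨θ, hθ⟩ := exists_theta (x := x) (by rw [hx]; exact hr0)
  rw [hx] at hθ
  have hsub : Ioi (sSup S) ⊆ Ici R := fun r hr => hr0S.1.trans (le_of_lt hr)
  have h1 : Tendsto (fun r : ℝ => f (r • (θ : E n))) (𝓝[>] (sSup S))
      (𝓝 (f (sSup S • (θ : E n)))) := (hray θ (sSup S) hr0S.1).mono hsub
  rw [hθ]
  refine le_of_tendsto h1 ?_
  filter_upwards [self_mem_nhdsWithin] with r hr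
  exact ((hgt r hr).1 _ (len_smul_sph (hr0.trans hr).le θ)).le

namespace Met

variable {g : Field n} {R : ℝ} (h : Met g R)
include h

lemma arA_pos [Nontrivial (E n)] {r : ℝ} (hr : R ≤ r) : 0 < arA g r := by
  have hr0 : 0 < r := h.hR.trans_le hr
  unfold arA leafI
  refine mul_pos (by positivity) ?_
  have hi := integrable_at hr0.le (f := fun x => ad g x * 1) fun x hx =>
    (h.cad (by rw [hx]; exact hr)).continuousAt.mul continuousAt_const
  have hpos : ∀ θ : sphere (0 : E n) 1, 0 < ad g (r • (θ : E n)) * 1 := fun θ => by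
    rw [mul_one]
    exact h.ad_pos (by show R ≤ ‖r • (θ : E n)‖; rw [norm_smul_sph hr0.le]; exact hr)
  have h1 : (sphM n) (Function.support fun θ : sphere (0 : E n) 1 => ad g (r • (θ : E n)) * 1) ≠ 0 := by
    have e : (Function.support fun θ : sphere (0 : E n) 1 => ad g (r • (θ : E n)) * 1) = univ := by
      ext θ
      simp only [Function.mem_support, mem_univ, iff_true]
      exact (hpos θ).ne'
    rw [e]
    intro h
    exact Measure.toSphere_ne_zero (volume : Measure (E n)) (Measure.measure_univ_eq_zero.mp h)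
  exact (integral_pos_iff_support_of_nonneg (fun θ => (hpos θ).le) hi).2 (pos_iff_ne_zero.2 h1)

omit h in
lemma omega_pos [Nontrivial (E n)] : 0 < omega n := by
  rw [Vale.Agent.P366.omega_eq]; exact omega_pos'

lemma rhoA_pos [Nontrivial (E n)] {r : ℝ} (hr : R ≤ r) : 0 < rhoA g r :=
  Real.rpow_pos_of_pos (div_pos (h.arA_pos hr) omega_pos) _

lemma arA_deriv [Nontrivial (E n)] {r : ℝ} (hr : R < r) :
    HasDerivAt (arA g) (leafI g (Fx g) r) r := by
  have h1 := h.leafI_deriv (f := fun _ => (1 : ℝ)) (fun x _ => contDiffAt_const) hr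
  refine h1.congr_deriv ?_
  unfold leafI
  congr 1
  refine sphI_congr (h.hR.le.trans hr.le) fun x hx => ?_
  have hx' : R ≤ len x := by show R ≤ ‖x‖; rw [hx]; exact hr.le
  have e : ∑ i, pd i (fun y => sg g y * (1 * nu g i y)) x = sg g x * dv g (nu g) x := by
    rw [← h.div_sg hx' (fun i => h.cnu hx' i)]
    simp only [one_mul]
  rw [e]
  have hs := h.sq_pos hx'
  unfold ad Fx
  change sg g x * Hm g x = _
  field_simp

lemma rhoA_deriv [Nontrivial (E n)] (hn : 2 ≤ n) {r : ℝ} (hr : R < r) :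
    HasDerivAt (rhoA g) (rhoA g r * leafI g (Fx g) r / (((n : ℝ) - 1) * arA g r)) r := by
  have hA := h.arA_pos hr.le
  have hω : 0 < omega n := omega_pos
  have h2 : (2 : ℝ) ≤ n := by exact_mod_cast hn
  have hm : (n : ℝ) - 1 ≠ 0 := by linarith
  have hq : 0 < arA g r / omega n := div_pos hA hω
  have h1 := ((h.arA_deriv hr).div_const (omega n)).rpow_const (p := 1 / ((n : ℝ) - 1))
    (Or.inl hq.ne')
  refine h1.congr_deriv ?_
  rw [Real.rpow_sub_one hq.ne']
  unfold rhoA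
  field_simp

lemma rho_pow [Nontrivial (E n)] (hn : 2 ≤ n) {r : ℝ} (hr : R ≤ r) :
    omega n * rhoA g r ^ ((n : ℝ) - 1) = arA g r := by
  have hA := h.arA_pos hr
  have hω : 0 < omega n := omega_pos
  have h2 : (2 : ℝ) ≤ n := by exact_mod_cast hn
  have hm : (n : ℝ) - 1 ≠ 0 := by linarith
  have hq : 0 < arA g r / omega n := div_pos hA hω
  unfold rhoA
  rw [← Real.rpow_mul hq.le, one_div, inv_mul_cancel₀ hm, Real.rpow_one]
  field_simp

lemma arA_contOn : ContinuousOn (arA g) (Ici R) :=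
  h.leafI_contOn fun _ _ => continuousAt_const

lemma rhoA_contOn [Nontrivial (E n)] : ContinuousOn (rhoA g) (Ici R) := by
  unfold rhoA
  refine ContinuousOn.rpow_const (h.arA_contOn.div_const _) fun r hr => ?_
  exact Or.inl (div_pos (h.arA_pos hr) omega_pos).ne'

section

variable {K : Field n} (hK : ∀ i j, Smooth (fun x => K x i j)) (hKs : ∀ x i j, K x i j = K x j i)

include hK in
lemma MM_contOn [Nontrivial (E n)] : ContinuousOn (MM g K) (Ici R) := by
  unfold MM
  refine (continuousOn_const.mul (h.rhoA_contOn.rpow_const fun r hr =>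
    Or.inl (h.rhoA_pos hr).ne')).sub (h.rhoA_contOn.mul ?_)
  exact h.leafI_contOn fun x hx => (h.cQf hK hx).continuousAt

include hK hKs in
lemma der_of_good [Nontrivial (E n)] (hn : 2 ≤ n) {r : ℝ} (hr : R < r)
    (hlt : ∀ x, len x = r → |tauf g K x| < Hm g x) (hG : GoodR g K r) : DerR g K r :=
  h.avg_ineq hK hKs hn hr hlt hG

include hK in
/-- **Monotonicity.** -/
theorem mono [Nontrivial (E n)] (hn : 3 ≤ n) {r0 : ℝ} (hr0 : R ≤ r0)
    (hgt : ∀ r, r0 < r → DerR g K r) :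
    MonotoneOn (MM g K) (Ici r0) := by
  have h2 : (3 : ℝ) ≤ n := by exact_mod_cast hn
  have hm : 0 < (n : ℝ) - 1 := by linarith
  have hd : ∀ r, r0 < r → ∃ d, 0 ≤ d ∧ HasDerivAt (MM g K) d r := by
    intro r hr
    have hRr : R < r := hr0.trans_lt hr
    have h3 := hgt r hr
    have hρ := h.rhoA_deriv (by omega) hRr
    have hρ0 := h.rhoA_pos hRr.le
    have hA := h.arA_pos hRr.le
    have hY := h.leafI_deriv (f := Qf g K) (fun x hx => h.cQf hK hx) hRr
    have h4 := ((hρ.rpow_const (p := (n : ℝ) - 2) (Or.inl hρ0.ne')).const_mul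
      (((n : ℝ) - 1) ^ 2 * omega n)).sub (hρ.mul hY)
    refine ⟨_, ?_, h4⟩
    set A' := leafI g (Fx g) r with hA'
    set Y := leafI g (Qf g K) r with hYd
    set Y' := r ^ (n - 1) * sphI (fun x => ∑ i, pd i (fun y => sg g y * (Qf g K y * nu g i y)) x) r
      with hY'
    have h5 : Y' ≤ ((n : ℝ) - 1) * ((n : ℝ) - 2) / rhoA g r ^ 2 * A' -
        A' / arA g r / ((n : ℝ) - 1) * Y := h3
    have h6 := h.rho_pow (by omega) hRr.le
    have h7 : rhoA g r ^ ((n : ℝ) - 1) = rhoA g r ^ ((n : ℝ) - 2) * rhoA g r := by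
      rw [← Real.rpow_add_one hρ0.ne']; congr 1; ring
    rw [h7] at h6
    rw [Real.rpow_sub_one hρ0.ne']
    have h8 : omega n * rhoA g r ^ ((n : ℝ) - 2) = arA g r / rhoA g r := by
      rw [eq_div_iff hρ0.ne']; linarith
    have e : ((n : ℝ) - 1) ^ 2 * omega n *
        (rhoA g r * A' / (((n : ℝ) - 1) * arA g r) * ((n : ℝ) - 2) *
          (rhoA g r ^ ((n : ℝ) - 2) / rhoA g r)) -
        (rhoA g r * A' / (((n : ℝ) - 1) * arA g r) * Y + rhoA g r * Y') =
        rhoA g r * (((n : ℝ) - 1) * ((n : ℝ) - 2) / rhoA g r ^ 2 * A' -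
          A' / arA g r / ((n : ℝ) - 1) * Y - Y') := by
      have e1 : ((n : ℝ) - 1) ^ 2 * omega n *
        (rhoA g r * A' / (((n : ℝ) - 1) * arA g r) * ((n : ℝ) - 2) *
          (rhoA g r ^ ((n : ℝ) - 2) / rhoA g r)) = ((n : ℝ) - 1) * ((n : ℝ) - 2) * A' / arA g r *
            (omega n * rhoA g r ^ ((n : ℝ) - 2)) := by
        field_simp
      rw [e1, h8]
      field_simp
      ring
    rw [e]
    exact mul_nonneg hρ0.le (by linarith)
  refine monotoneOn_of_deriv_nonneg (convex_Ici r0)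
    ((h.MM_contOn hK).mono fun r hr => hr0.trans hr) ?_ ?_
  · rw [interior_Ici]
    intro r hr
    obtain ⟨d, -, hd⟩ := hd r hr
    exact hd.differentiableAt.differentiableWithinAt
  · rw [interior_Ici]
    intro r hr
    obtain ⟨d, hd0, hd⟩ := hd r hr
    rw [hd.deriv]
    exact hd0

lemma yyQ_zero {r : ℝ} (hr : 0 ≤ r) (hz : ∀ x, len x = r → |tauf g K x| = Hm g x) :
    yyQ g K r = 0 := by
  unfold yyQ leafI
  have e : sphI (fun x => ad g x * Qf g K x) r = sphI (fun _ : E n => 0) r := by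
    refine sphI_congr hr fun x hx => ?_
    have : Qf g K x = 0 := by
      unfold Qf
      rw [← hz x hx, sq_abs]; ring
    rw [this, mul_zero]
  rw [e, Vale.Agent.P366.sphI_const]
  ring

include hK in
theorem mono_le [Nontrivial (E n)] (hn : 3 ≤ n) {r0 : ℝ} (hr0 : R ≤ r0)
    (hz : ∀ x, len x = r0 → |tauf g K x| = Hm g x)
    (hgt : ∀ r, r0 < r → DerR g K r) {r : ℝ}
    (hr : r0 ≤ r) : ((n : ℝ) - 1) ^ 2 * omega n * rhoA g r0 ^ ((n : ℝ) - 2) ≤ MM g K r := by
  have h1 := h.mono hK hn hr0 hgt (mem_Ici.2 le_rfl) (mem_Ici.2 hr) hr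
  refine le_trans (le_of_eq ?_) h1
  unfold MM
  rw [h.yyQ_zero (h.hR.le.trans hr0) hz]
  ring

end

end Met

end Vale.Agent.H106
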