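import Vale.Agent.P366.R2.H106.Rev
import Vale.Agent.P366.R2.H106.Fin
import Vale.Agent.P366.R2.H106.Defs
import Vale.Agent.P366.T1.Alg

/-! The Hawking mass of an orbit sphere in a slice of a spherically symmetric spacetime. -/

open MeasureTheory Metric Filter Topology Set Matrix
open scoped ContDiff

noncomputable section
namespace Vale.Agent.H106
open Vale.Agent.P366.Stmt Vale.Agent.P366.T1 Vale.Agent.P366.T1.B526 Vale.Agent.P366.T2
open Vale.Agent.T4 Vale.Agent.H177
open Vale.Agent.P366 (sphI sphM av norm_smul_sph sphI_congr)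

variable {n : ℕ}

section Orbit

variable {M : Spacetime} {f : E n → ℝ} (hf : Smooth f)
  (hrad : ∀ x, x ≠ 0 → |∑ i, x i / len x * pd i f x| < 1)

lemma ray_deriv (hf : Smooth f) {e : E n} (he : len e = 1) {s : ℝ} (hs : 0 < s) :
    HasDerivAt (fun t : ℝ => f (t • e))
      (∑ i, (s • e) i / len (s • e) * pd i f (s • e)) s := by
  have hf' : ContDiff ℝ ∞ f := hf
  have h1 : HasFDerivAt f (fderiv ℝ f (s • e)) (s • e) :=
    (hf'.differentiable (by simp) _).hasFDerivAt
  have h2 : HasDerivAt (fun t : ℝ => t • e) e s := by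
    simpa using (hasDerivAt_id s).smul_const e
  have h3 := h1.comp_hasDerivAt s h2
  have hl : len (s • e) = s := by
    show ‖s • e‖ = s
    rw [norm_smul, Real.norm_of_nonneg hs.le]
    show s * len e = s
    rw [he, mul_one]
  have e1 : fderiv ℝ f (s • e) e = ∑ i, (s • e) i / len (s • e) * pd i f (s • e) := by
    have h4 := fY_sum (f := f) (x := s • e) (hf'.differentiable (by simp) _) (fun i => e i)
    unfold fY at h4
    have h5 : (WithLp.toLp 2 fun i => e i) = e := rfl
    rw [h5] at h4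
    rw [← h4]
    refine Finset.sum_congr rfl fun i _ => ?_
    rw [hl]
    simp only [PiLp.smul_apply, smul_eq_mul]
    field_simp
  rw [← e1]
  exact h3

include hf hrad

lemma ray_mono {e : E n} (he : len e = 1) :
    StrictMonoOn (fun s : ℝ => s - f (s • e)) (Ioi 0) := by
  have hd : ∀ s : ℝ, 0 < s → HasDerivAt (fun s : ℝ => s - f (s • e))
      (1 - ∑ i, (s • e) i / len (s • e) * pd i f (s • e)) s := fun s hs =>
    (hasDerivAt_id s).sub (ray_deriv hf he hs)
  refine strictMonoOn_of_deriv_pos (convex_Ioi 0)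
    (fun s hs => (hd s hs).continuousAt.continuousWithinAt) fun s hs => ?_
  rw [interior_Ioi] at hs
  have hs0 : 0 < s := hs
  rw [(hd s hs0).deriv]
  have hne : s • e ≠ 0 := by
    refine smul_ne_zero hs0.ne' ?_
    rintro rfl
    have : len (0 : E n) = 0 := norm_zero
    rw [this] at he
    exact zero_ne_one he
  have := (abs_lt.1 (hrad _ hne)).2
  linarith

lemma loc_of_const {x : E n} (hx : 0 < len x) (hc : ∀ᶠ r in 𝓝 (len x), ConstOn (n := n) r f) :
    ∀ᶠ y in 𝓝 x, VV f x < VV f y → len x ≤ len y := by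
  have hl : Tendsto (fun y : E n => len y) (𝓝 x) (𝓝 (len x)) := continuous_norm.continuousAt
  have hpos : ∀ᶠ y in 𝓝 x, 0 < len y := hl.eventually (lt_mem_nhds hx)
  filter_upwards [hl.eventually hc, hpos] with y hy hy0 hlt
  by_contra hcon
  push Not at hcon
  set e : E n := (len x)⁻¹ • x with he
  have he1 : len e = 1 := by
    show ‖(len x)⁻¹ • x‖ = 1
    rw [norm_smul, Real.norm_of_nonneg (inv_nonneg.2 hx.le)]
    show (len x)⁻¹ * len x = 1
    exact inv_mul_cancel₀ hx.ne'
  have hle : ∀ s : ℝ, 0 < s → len (s • e) = s := by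
    intro s hs
    show ‖s • e‖ = s
    rw [norm_smul, Real.norm_of_nonneg hs.le]
    show s * len e = s
    rw [he1, mul_one]
  have hxe : len x • e = x := by
    rw [he, smul_smul, mul_inv_cancel₀ hx.ne', one_smul]
  obtain ⟨c, hc⟩ := hy
  have h1 : f y = f (len y • e) := by
    rw [hc y rfl, hc (len y • e) (hle _ hy0)]
  have h2 := ray_mono hf hrad he1 (mem_Ioi.2 hy0) (mem_Ioi.2 hx) hcon
  simp only [hxe] at h2
  unfold VV at hlt
  rw [h1] at hlt
  linarith

omit hrad in
/-- the gradient of a radial function -/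
lemma grad_of_const {x : E n} (hx : 0 < len x)
    (hc : ∀ᶠ r in 𝓝 (len x), ConstOn (n := n) r f) (i : Fin n) :
    pd i f x = (∑ j, x j / len x * pd j f x) * nx i x := by
  have hne : x ≠ 0 := by
    rintro rfl
    have : len (0 : E n) = 0 := norm_zero
    rw [this] at hx
    exact lt_irrefl _ hx
  set e : E n := (len x)⁻¹ • x with he
  have he1 : len e = 1 := by
    show ‖(len x)⁻¹ • x‖ = 1
    rw [norm_smul, Real.norm_of_nonneg (inv_nonneg.2 hx.le)]
    show (len x)⁻¹ * len x = 1
    exact inv_mul_cancel₀ hx.ne'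
  have hle : ∀ s : ℝ, 0 < s → len (s • e) = s := by
    intro s hs
    show ‖s • e‖ = s
    rw [norm_smul, Real.norm_of_nonneg hs.le]
    show s * len e = s
    rw [he1, mul_one]
  have hxe : len x • e = x := by
    rw [he, smul_smul, mul_inv_cancel₀ hx.ne', one_smul]
  have hl : Tendsto (fun y : E n => len y) (𝓝 x) (𝓝 (len x)) := continuous_norm.continuousAt
  have hpos : ∀ᶠ y in 𝓝 x, 0 < len y := hl.eventually (lt_mem_nhds hx)
  have hev : f =ᶠ[𝓝 x] fun y => (fun t : ℝ => f (t • e)) (len y) := by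
    filter_upwards [hl.eventually hc, hpos] with y hy hy0
    obtain ⟨c, hc⟩ := hy
    show f y = f (len y • e)
    rw [hc y rfl, hc (len y • e) (hle _ hy0)]
  have hd := ray_deriv hf he1 hx
  rw [hxe] at hd
  rw [pd_congr' hev i]
  have h := HP.radial (f := fun t : ℝ => f (t • e)) hne hd i
  rw [h.pd]
  unfold nx
  field_simp

omit hf hrad in
lemma dd_len_ne {x : E n} (hx : x ≠ 0) : dd (len : E n → ℝ) x ≠ 0 := by
  intro h
  have h1 : ∑ i, nn x i * nn x i = 0 := by
    refine Finset.sum_eq_zero fun i _ => ?_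
    have h2 := congrFun h i
    have h3 : pd i len x = nx i x := pd_len hx i
    simp only [dd, Pi.zero_apply] at h2
    rw [h3] at h2
    show nx i x * nx i x = 0
    rw [h2, mul_zero]
  rw [nn_sq hx] at h1
  exact one_ne_zero h1

omit hrad in
lemma dd_VV_ne {x : E n} (hx : x ≠ 0) (hr : ∑ i, x i / len x * pd i f x < 1) :
    dd (VV f) x ≠ 0 := by
  have hf' : ContDiff ℝ ∞ f := hf
  intro h
  have h1 := VV_dot hf' hx (nn x)
  rw [h, zero_dotProduct, nY_nn hx, ← fY_sum (hf1 hf' x)] at h1
  have h2 : ∑ i, pd i f x * nn x i = ∑ i, x i / len x * pd i f x :=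
    Finset.sum_congr rfl fun i _ => by unfold nn; ring
  rw [h2] at h1
  linarith

/-- the outgoing null expansion of the orbit -/
lemma orb_theta {x : E n} (hx : 0 < len x) (hQ : uv f x ∈ M.Q)
    (hpd : (mat (sliceG M f) x).PosDef) (hc : ∀ᶠ r in 𝓝 (len x), ConstOn (n := n) r f) :
    ((n : ℝ) - 1) * (2 * Vale.Agent.P366.T1.dv M.r (uv f x) / (M.r (uv f x) * (M.F (uv f x) *
      covNorm (sliceG M f) (fun j => pd j (VV f)) x))) ≤
      thetaPlus (sliceG M f) (sliceK M f) len x := by
  have hf' : ContDiff ℝ ∞ f := hf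
  have hne : x ≠ 0 := by
    rintro rfl
    have : len (0 : E n) = 0 := norm_zero
    rw [this] at hx
    exact lt_irrefl _ hx
  have hr := (abs_lt.1 (hrad x hne)).2
  have hr' : fY f (WithLp.toLp 2 (nn x)) x < 1 := by
    rw [← fY_sum (hf1 hf' x)]
    have h1 : ∑ i, pd i f x * nn x i = ∑ i, x i / len x * pd i f x :=
      Finset.sum_congr rfl fun i _ => by unfold nn; ring
    rw [h1]
    exact hr
  exact theta_touch_aux hpd (contDiffAt_norm ℝ hne) (VV_contDiffAt hf' hne) (dd_len_ne hne)
    (dd_VV_ne hf hne hr) (loc_of_const hf hrad hx hc) _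
    (fun X hX => (key hf' hne hQ hpd hr' X hX).le)

omit hf hrad in
/-- the metric on the radial direction -/
lemma slice_nx {x : E n} (hx : x ≠ 0) {s : ℝ} (hs : ∀ i, pd i f x = s * nx i x) (i : Fin n) :
    ∑ j, sliceG M f x i j * nx j x = M.F (uv f x) * (1 - s ^ 2) * nx i x := by
  have h1 : ∑ j, nx j x * nx j x = 1 := nn_sq hx
  have h2 : ∀ j, sliceG M f x i j * nx j x =
      (M.F (uv f x) * (1 - s ^ 2) - (M.r (uv f x) / len x) ^ 2) * nx i x * (nx j x * nx j x) +
        (M.r (uv f x) / len x) ^ 2 * ((if i = j then 1 else 0) * nx j x) := by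
    intro j
    unfold sliceG
    rw [hs, hs]
    unfold nx
    ring
  simp only [h2, Finset.sum_add_distrib, ← Finset.mul_sum, h1]
  simp only [ite_mul, one_mul, zero_mul, Finset.sum_ite_eq, Finset.mem_univ, if_true]
  ring

end Orbit

section Alg

variable {g : Field n} {x : E n} (hp : (mat g x).PosDef) {c : ℝ}

lemma up_g' (hp : (mat g x).PosDef) (i j : Fin n) :
    ∑ k, up g i k x * g x k j = if i = j then 1 else 0 := by
  have hdet : IsUnit (mat g x).det := hp.isUnit.map detMonoidHom
  have h1 := congrFun (congrFun (nonsing_inv_mul (mat g x) hdet) i) j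
  rw [Matrix.mul_apply, Matrix.one_apply] at h1
  exact h1

lemma Nu_of (hp : (mat g x).PosDef) (hc : c ≠ 0) (h : ∀ i, ∑ j, g x i j * nx j x = c * nx i x)
    (i : Fin n) : Nu g i x = nx i x / c := by
  have h1 : ∑ k, up g i k x * ∑ j, g x k j * nx j x = nx i x := by
    calc ∑ k, up g i k x * ∑ j, g x k j * nx j x
        = ∑ j, (∑ k, up g i k x * g x k j) * nx j x := by
          simp only [Finset.mul_sum, Finset.sum_mul]
          rw [Finset.sum_comm]
          exact Finset.sum_congr rfl fun j _ => Finset.sum_congr rfl fun k _ => by ring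
      _ = nx i x := by
          simp only [up_g' hp]
          simp
  simp only [h] at h1
  rw [eq_div_iff hc, ← h1]
  unfold Nu
  rw [Finset.sum_mul]
  exact Finset.sum_congr rfl fun k _ => by ring

lemma ww_of (hp : (mat g x).PosDef) (hx : x ≠ 0) (hc : c ≠ 0)
    (h : ∀ i, ∑ j, g x i j * nx j x = c * nx i x) : ww g x = 1 / c := by
  have h1 : ∑ j, nx j x * nx j x = 1 := nn_sq hx
  unfold ww
  simp only [Nu_of hp hc h]
  have : ∀ i, nx i x / c * nx i x = (nx i x * nx i x) * (1 / c) := fun i => by ring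
  simp only [this]
  rw [← Finset.sum_mul, h1, one_mul]

lemma cov_of (hp : (mat g x).PosDef) (hx : x ≠ 0) (hc : 0 < c)
    (h : ∀ i, ∑ j, g x i j * nx j x = c * nx i x) {V : E n → ℝ} {a : ℝ} (ha : 0 ≤ a)
    (hV : ∀ i, pd i V x = a * nx i x) : covNorm g (fun j => pd j V) x = a * √(1 / c) := by
  unfold covNorm
  have e : ∑ i, ∑ j, up g i j x * pd i V x * pd j V x = a ^ 2 * ww g x := by
    unfold ww Nu
    rw [Finset.mul_sum]
    refine Finset.sum_congr rfl fun i _ => ?_
    rw [Finset.sum_mul, Finset.mul_sum]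
    refine Finset.sum_congr rfl fun j _ => ?_
    rw [hV, hV]
    ring
  rw [e, ww_of hp hx hc.ne' h, Real.sqrt_mul (sq_nonneg a), Real.sqrt_sq ha]

end Alg

end Vale.Agent.H106
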