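import Vale.Agent.P366.R2.H106.Orb

/-! The Hawking mass of an orbit sphere in a slice of a spherically symmetric spacetime. -/

open MeasureTheory Metric Filter Topology Set Matrix
open scoped ContDiff

noncomputable section
namespace Vale.Agent.H106
open Vale.Agent.P366.Stmt Vale.Agent.P366.T1 Vale.Agent.P366.T1.B526 Vale.Agent.P366.T2
open Vale.Agent.T4 Vale.Agent.H177
open Vale.Agent.P366 (sphI sphM av norm_smul_sph sphI_congr)

variable {n : ℕ}

lemma pd_VV {f : E n → ℝ} (hf : Smooth f) {x : E n} (hx : x ≠ 0) {s : ℝ}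
    (hs : ∀ i, pd i f x = s * nx i x) (i : Fin n) : pd i (VV f) x = (1 - s) * nx i x := by
  have hf' : ContDiff ℝ ∞ f := hf
  have h1 := (HP.radial (f := fun t => t) hx (hasDerivAt_id (len x)) i).sub
    (HP.of_diff (k := i) (hf1 hf' x))
  have h2 : pd i (fun y => len y - f y) x = 1 / len x * x i - pd i f x := h1.pd
  show pd i (fun y => len y - f y) x = _
  rw [h2, hs]
  unfold nx
  ring

lemma rev_dvr (M : Spacetime) (f : E n → ℝ) (x : E n) :
    Vale.Agent.P366.T1.dv (rev M).r (uv (fun y => -f y) x) = -du M.r (uv f x) := by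
  show Vale.Agent.P366.T1.dv (fun q => M.r (sw q)) _ = _
  rw [dv_sw, sw_uv]

lemma theta_split (g K : Field n) (x : E n) :
    thetaPlus g K len x = sphereMean g x + trS g K len x := rfl

lemma theta_split' (g K : Field n) (x : E n) :
    thetaPlus g (fun y i j => -K y i j) len x = sphereMean g x - trS g K len x := by
  have h1 : trS g (fun y i j => -K y i j) len x = -trS g K len x := by
    unfold trS tr
    simp only [mul_neg, neg_mul, Finset.sum_neg_distrib]
    ring
  show sphereMean g x + trS g (fun y i j => -K y i j) len x = _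
  rw [h1]
  ring

namespace Met

variable {g : Field n} {R : ℝ} (h : Met g R)
include h

/-- the squared length of the mean curvature vector of an orbit -/
theorem orb_Q {K : Field n} {M : Spacetime} {f : E n → ℝ} (hf : Smooth f)
    (hrad : ∀ x, x ≠ 0 → |∑ i, x i / len x * pd i f x| < 1) (hn : 2 ≤ n) {x : E n}
    (hx : R ≤ len x) (hQ : uv f x ∈ M.Q)
    (hu : du M.r (uv f x) < 0) (hv : 0 < Vale.Agent.P366.T1.dv M.r (uv f x))
    (hc : ∀ᶠ r in 𝓝 (len x), ConstOn (n := n) r f)
    (hg : ∀ i j, (fun y => g y i j) =ᶠ[𝓝 x] fun y => sliceG M f y i j)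
    (hK : ∀ i j, K x i j = sliceK M f x i j) :
    ((n : ℝ) - 1) ^ 2 * (4 * (-du M.r (uv f x)) * Vale.Agent.P366.T1.dv M.r (uv f x) /
      (M.r (uv f x) ^ 2 * M.F (uv f x))) ≤ Qf g K x := by
  have hx0 := h.ne_zero hx
  have hlx := h.len_pos hx
  have hgx : g x = sliceG M f x := by
    funext i j
    exact (hg i j).self_of_nhds
  have hKx : K x = sliceK M f x := by
    funext i j
    exact hK i j
  have hmat : mat (sliceG M f) x = mat g x := by
    ext i j
    show sliceG M f x i j = g x i j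
    rw [hgx]
  have hpd : (mat (sliceG M f) x).PosDef := by rw [hmat]; exact h.pos x hx
  have hpdg := h.pos x hx
  have hdg : ∀ i j k, pd k (fun y => g y i j) x = pd k (fun y => sliceG M f y i j) x :=
    fun i j k => pd_congr' (hg i j) k
  -- the slope
  set s := ∑ j, x j / len x * pd j f x with hs
  have hs1 := abs_lt.1 (hrad x hx0)
  rw [← hs] at hs1
  have hgrad : ∀ i, pd i f x = s * nx i x := fun i => grad_of_const hf hlx hc i
  have hF := (M.pos _ hQ).1
  have hr := (M.pos _ hQ).2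
  have hs2 : 0 < 1 - s ^ 2 := by nlinarith
  set c := M.F (uv f x) * (1 - s ^ 2) with hcd
  have hc0 : 0 < c := mul_pos hF hs2
  have hgn : ∀ i, ∑ j, g x i j * nx j x = c * nx i x := fun i => by
    rw [hgx]
    exact slice_nx hx0 hgrad i
  have hgn' : ∀ i, ∑ j, sliceG M f x i j * nx j x = c * nx i x := fun i => slice_nx hx0 hgrad i
  -- outgoing
  have h1 := orb_theta hf hrad hlx hQ hpd hc
  have h1c := cov_of hpd hx0 hc0 hgn' (V := VV f) (a := 1 - s) (by linarith [hs1.2])
    (pd_VV hf hx0 hgrad)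
  rw [h1c, ← thetaPlus_congr hgx hKx hdg, theta_split, h.mean_eq hx, trS_eq g K hx0] at h1
  -- ingoing
  have hf2 : Smooth (fun y => -f y) := by
    have hf' : ContDiff ℝ ∞ f := hf
    exact hf'.neg
  have hrad2 : ∀ y : E n, y ≠ 0 → |∑ i, y i / len y * pd i (fun z => -f z) y| < 1 := by
    intro y hy
    have e : ∑ i, y i / len y * pd i (fun z => -f z) y = -∑ i, y i / len y * pd i f y := by
      rw [← Finset.sum_neg_distrib]
      exact Finset.sum_congr rfl fun i _ => by rw [pd_neg']; ring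
    rw [e, abs_neg]
    exact hrad y hy
  have hQ2 : uv (fun y => -f y) x ∈ (rev M).Q := by
    show sw (uv (fun y => -f y) x) ∈ M.Q
    rw [sw_uv]
    exact hQ
  have hc2 : ∀ᶠ r in 𝓝 (len x), ConstOn (n := n) r fun y => -f y := by
    filter_upwards [hc] with r hr
    obtain ⟨c, hc⟩ := hr
    exact ⟨-c, fun y hy => congrArg Neg.neg (hc y hy)⟩
  have h2 := orb_theta (M := rev M) hf2 hrad2 hlx hQ2 (by rw [rev_G]; exact hpd) hc2
  have hgrad2 : ∀ i, pd i (fun y => -f y) x = -s * nx i x := fun i => by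
    rw [pd_neg', hgrad]; ring
  have h2c := cov_of (g := sliceG (rev M) fun y => -f y) (by rw [rev_G]; exact hpd) hx0 hc0
    (by rw [rev_G]; exact hgn') (V := VV fun y => -f y) (a := 1 - -s) (by linarith [hs1.1])
    (pd_VV hf2 hx0 hgrad2)
  rw [h2c, rev_F, rev_r, rev_dvr, rev_G] at h2
  have hKK : (fun (y : E n) i j => -K y i j) x = sliceK (rev M) (fun y => -f y) x := by
    funext i j
    rw [rev_K, ← hK i j]
  rw [← thetaPlus_congr (K := fun y i j => -K y i j) hgx hKK hdg, theta_split', h.mean_eq hx,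
    trS_eq g K hx0] at h2
  -- the product
  set w := √(1 / c) with hw
  have hw0 : 0 < w := Real.sqrt_pos.2 (by positivity)
  have hw2 : w * w = 1 / c := Real.mul_self_sqrt (by positivity)
  have hn1 : (0 : ℝ) < (n : ℝ) - 1 := by
    have : (2 : ℝ) ≤ n := by exact_mod_cast hn
    linarith
  set F := M.F (uv f x) with hFd
  set r := M.r (uv f x) with hrd
  set ru := du M.r (uv f x) with hrud
  set rv := Vale.Agent.P366.T1.dv M.r (uv f x) with hrvd
  have hm1 : 0 < 1 - s := by linarith [hs1.2]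
  have hp1 : 0 < 1 - -s := by linarith [hs1.1]
  have hA : 0 < ((n : ℝ) - 1) * (2 * rv / (r * (F * ((1 - s) * w)))) := by positivity
  have hB : 0 < ((n : ℝ) - 1) * (2 * (-ru) / (r * (F * ((1 - -s) * w)))) := by
    have : 0 < -ru := by linarith
    positivity
  have h3 : ((n : ℝ) - 1) * (2 * rv / (r * (F * ((1 - s) * w)))) *
      (((n : ℝ) - 1) * (2 * (-ru) / (r * (F * ((1 - -s) * w))))) ≤
      (Hm g x + tauf g K x) * (Hm g x - tauf g K x) :=
    mul_le_mul h1 h2 hB.le (hA.le.trans h1)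
  have e1 : ((n : ℝ) - 1) * (2 * rv / (r * (F * ((1 - s) * w)))) *
      (((n : ℝ) - 1) * (2 * (-ru) / (r * (F * ((1 - -s) * w))))) =
      ((n : ℝ) - 1) ^ 2 * (4 * (-ru) * rv / (r ^ 2 * F)) := by
    have e2 : w * w * (F * (1 - s ^ 2)) = 1 := by
      rw [hw2, ← hcd]
      field_simp
    have e3 : (1 - s) * (1 - -s) = 1 - s ^ 2 := by ring
    have h4 : F ≠ 0 := hF.ne'
    have h5 : r ≠ 0 := hr.ne'
    have h6 : w ≠ 0 := hw0.ne'
    have h7 : (1 - s) ≠ 0 := hm1.ne'
    have h8 : (1 - -s) ≠ 0 := hp1.ne'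
    calc ((n : ℝ) - 1) * (2 * rv / (r * (F * ((1 - s) * w)))) *
        (((n : ℝ) - 1) * (2 * (-ru) / (r * (F * ((1 - -s) * w)))))
        = ((n : ℝ) - 1) ^ 2 * (4 * (-ru) * rv) / (r ^ 2 * F *
            (w * w * (F * ((1 - s) * (1 - -s))))) := by
          field_simp
          ring
      _ = ((n : ℝ) - 1) ^ 2 * (4 * (-ru) * rv / (r ^ 2 * F)) := by
          rw [e3, e2, mul_one, mul_div_assoc]
  rw [e1] at h3
  refine h3.trans (le_of_eq ?_)
  unfold Qf
  ring

/-- the area density of an orbit -/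
theorem orb_ad {M : Spacetime} {f : E n → ℝ} (hf : Smooth f)
    (hrad : ∀ x, x ≠ 0 → |∑ i, x i / len x * pd i f x| < 1) (hn : 1 ≤ n) {x : E n}
    (hx : R ≤ len x) (hQ : uv f x ∈ M.Q)
    (hc : ∀ᶠ r in 𝓝 (len x), ConstOn (n := n) r f)
    (hg : ∀ i j, g x i j = sliceG M f x i j) :
    ad g x = (M.r (uv f x) / len x) ^ (n - 1) := by
  have hx0 := h.ne_zero hx
  have hlx := h.len_pos hx
  set s := ∑ j, x j / len x * pd j f x with hs
  have hs1 := abs_lt.1 (hrad x hx0)
  rw [← hs] at hs1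
  have hgrad : ∀ i, pd i f x = s * nx i x := fun i => grad_of_const hf hlx hc i
  have hF := (M.pos _ hQ).1
  have hr := (M.pos _ hQ).2
  have hs2 : 0 < 1 - s ^ 2 := by nlinarith
  set F := M.F (uv f x) with hFd
  set r := M.r (uv f x) with hrd
  have hgn : ∀ i, ∑ j, g x i j * nx j x = F * (1 - s ^ 2) * nx i x := fun i => by
    simp only [hg]
    exact slice_nx hx0 hgrad i
  have hww := ww_of (h.pos x hx) hx0 (mul_pos hF hs2).ne' hgn
  have hN : ∑ i, nx i x ^ 2 = 1 := by
    have h1 : ∑ j, nx j x * nx j x = 1 := nn_sq hx0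
    rw [← h1]
    exact Finset.sum_congr rfl fun i _ => by ring
  have hw : (r / len x) ^ 2 ≠ 0 := by positivity
  have hdet := det_slice (fun i => nx i x) (fun i => pd i f x) (F := F) (w := (r / len x) ^ 2)
    (a := s) (b := s ^ 2) hw hN (by
      simp only [hgrad]
      have : ∀ i, nx i x * (s * nx i x) = s * nx i x ^ 2 := fun i => by ring
      simp only [this]
      rw [← Finset.mul_sum, hN, mul_one]) (by
      simp only [hgrad]
      have : ∀ i, (s * nx i x) ^ 2 = s ^ 2 * nx i x ^ 2 := fun i => by ring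
      simp only [this]
      rw [← Finset.mul_sum, hN, mul_one]) (A := mat g x) (fun i j => by
      show g x i j = _
      rw [hg]
      unfold sliceG
      simp only [← hFd, ← hrd]
      unfold nx
      ring)
  have hd2 : (mat g x).det = ((r / len x) ^ (n - 1)) ^ 2 * (F * (1 - s ^ 2)) := by
    have e1 : F * (1 - s ^ 2 - F * (s ^ 2 - s ^ 2) / (r / len x) ^ 2) = F * (1 - s ^ 2) := by
      rw [sub_self, mul_zero, zero_div, sub_zero]
    rw [e1] at hdet
    have e2 : ((r / len x) ^ 2) ^ n = (r / len x) ^ 2 * ((r / len x) ^ (n - 1)) ^ 2 := by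
      obtain ⟨k, rfl⟩ : ∃ k, n = k + 1 := ⟨n - 1, by omega⟩
      rw [Nat.add_sub_cancel]
      ring
    rw [e2] at hdet
    exact mul_left_cancel₀ hw (by rw [hdet]; ring)
  unfold ad sg
  rw [hww, hd2, ← Real.sqrt_mul (by positivity)]
  have hFs : F * (1 - s ^ 2) ≠ 0 := (mul_pos hF hs2).ne'
  have e3 : ((r / len x) ^ (n - 1)) ^ 2 * (F * (1 - s ^ 2)) * (1 / (F * (1 - s ^ 2))) =
      ((r / len x) ^ (n - 1)) ^ 2 := by
    field_simp
  rw [e3, Real.sqrt_sq (by positivity)]

end Met

end Vale.Agent.H106
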