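import Vale.Agent.P366.T1.Theta
import Vale.Agent.P366.T1.Core

/-! The reversal of time in a spherically symmetric spacetime. -/

open MeasureTheory Metric Filter Topology Set Matrix
open scoped ContDiff

noncomputable section
namespace Vale.Agent.H106
open Vale.Agent.P366.Stmt Vale.Agent.P366.T1

variable {n : ℕ}

/-- `(u, v) ↦ (-v, -u)` -/
def sw (p : ℝ × ℝ) : ℝ × ℝ := (-p.2, -p.1)

lemma sw_cont : ContDiff ℝ ∞ sw := (contDiff_snd.neg).prodMk (contDiff_fst.neg)

lemma sw_sw (p : ℝ × ℝ) : sw (sw p) = p := by simp [sw]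

/-- The time reversed spacetime. -/
def rev (M : Spacetime) : Spacetime where
  Q := sw ⁻¹' M.Q
  F := fun p => M.F (sw p)
  r := fun p => M.r (sw p)
  isOpen := M.isOpen.preimage sw_cont.continuous
  smooth := ⟨M.smooth.1.comp sw_cont.contDiffOn fun _ h => h,
    M.smooth.2.comp sw_cont.contDiffOn fun _ h => h⟩
  pos := fun _ hp => M.pos _ hp
  segV := fun u v v' w h1 h2 h3 h4 =>
    M.segU (-v') (-v) (-u) (-w) h2 h1 (neg_le_neg h4) (neg_le_neg h3)
  segU := fun u u' v w h1 h2 h3 h4 =>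
    M.segV (-v) (-u') (-u) (-w) h2 h1 (neg_le_neg h4) (neg_le_neg h3)

lemma lineDeriv_sw (G : ℝ × ℝ → ℝ) (p w : ℝ × ℝ) :
    lineDeriv ℝ (fun q => G (sw q)) p w = lineDeriv ℝ G (sw p) (sw w) := by
  have e : ∀ t : ℝ, sw (p + t • w) = sw p + t • sw w := fun t => by
    refine Prod.ext ?_ ?_
    · simp only [sw, Prod.snd_add, Prod.smul_snd, Prod.fst_add, Prod.smul_fst, smul_eq_mul]
      ring
    · simp only [sw, Prod.snd_add, Prod.smul_snd, Prod.fst_add, Prod.smul_fst, smul_eq_mul]
      ring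
  unfold lineDeriv
  simp only [e]

lemma du_sw (G : ℝ × ℝ → ℝ) (p : ℝ × ℝ) : du (fun q => G (sw q)) p = -dv G (sw p) := by
  unfold du dv
  rw [lineDeriv_sw]
  have : sw (1, 0) = -((0 : ℝ), (1 : ℝ)) := by simp [sw]
  rw [this, lineDeriv_neg]

lemma dv_sw (G : ℝ × ℝ → ℝ) (p : ℝ × ℝ) : dv (fun q => G (sw q)) p = -du G (sw p) := by
  unfold du dv
  rw [lineDeriv_sw]
  have : sw (0, 1) = -((1 : ℝ), (0 : ℝ)) := by simp [sw]
  rw [this, lineDeriv_neg]

lemma sw_uv (f : E n → ℝ) (x : E n) : sw (uv (fun y => -f y) x) = uv f x := by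
  simp only [sw, uv, Prod.mk.injEq]
  constructor <;> ring

variable (M : Spacetime) (f : E n → ℝ)

lemma pd_neg' (i : Fin n) (x : E n) : pd i (fun y => -f y) x = -pd i f x := by
  unfold pd lineDeriv
  exact deriv.fun_neg

lemma rev_F (x : E n) : (rev M).F (uv (fun y => -f y) x) = M.F (uv f x) := by
  show M.F (sw _) = _
  rw [sw_uv]

lemma rev_r (x : E n) : (rev M).r (uv (fun y => -f y) x) = M.r (uv f x) := by
  show M.r (sw _) = _
  rw [sw_uv]

lemma rev_G : sliceG (rev M) (fun y => -f y) = sliceG M f := by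
  funext x i j
  unfold sliceG
  rw [rev_F, rev_r, pd_neg', pd_neg']
  ring

lemma rev_Gt (x : E n) (i j : Fin n) :
    sliceGt (rev M) (fun y => -f y) x i j = -sliceGt M f x i j := by
  unfold sliceGt
  rw [rev_r]
  have e1 : du (rev M).F (uv (fun y => -f y) x) = -dv M.F (uv f x) := by
    show du (fun q => M.F (sw q)) _ = _
    rw [du_sw, sw_uv]
  have e2 : dv (rev M).F (uv (fun y => -f y) x) = -du M.F (uv f x) := by
    show dv (fun q => M.F (sw q)) _ = _
    rw [dv_sw, sw_uv]
  have e3 : du (rev M).r (uv (fun y => -f y) x) = -dv M.r (uv f x) := by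
    show du (fun q => M.r (sw q)) _ = _
    rw [du_sw, sw_uv]
  have e4 : dv (rev M).r (uv (fun y => -f y) x) = -du M.r (uv f x) := by
    show dv (fun q => M.r (sw q)) _ = _
    rw [dv_sw, sw_uv]
  rw [e1, e2, e3, e4, pd_neg', pd_neg']
  ring

lemma rev_shift (i : Fin n) (x : E n) : shift (rev M) (fun y => -f y) i x = -shift M f i x := by
  unfold shift
  rw [rev_F, pd_neg']
  ring

lemma rev_lapse (x : E n) : lapse (rev M) (fun y => -f y) x = lapse M f x := by
  unfold lapse
  rw [rev_F, rev_G]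
  simp only [rev_shift]
  congr 2
  refine Finset.sum_congr rfl fun i _ => Finset.sum_congr rfl fun j _ => ?_
  ring

lemma rev_dShift (x : E n) (i j : Fin n) :
    dShift (rev M) (fun y => -f y) x i j = -dShift M f x i j := by
  unfold dShift
  rw [rev_G]
  have : shift (rev M) (fun y => -f y) j = fun y => -shift M f j y := by
    funext y; exact rev_shift M f j y
  rw [this, pd_neg']
  simp only [rev_shift, mul_neg, Finset.sum_neg_distrib]
  ring

lemma rev_K (x : E n) (i j : Fin n) :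
    sliceK (rev M) (fun y => -f y) x i j = -sliceK M f x i j := by
  unfold sliceK
  rw [rev_Gt, rev_dShift, rev_dShift, rev_lapse]
  ring

end Vale.Agent.H106
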