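import Vale.Agent.P366.R2.H106.Clean

/-! Stable leaves with parallel mean curvature vector. -/

open MeasureTheory Metric Filter Topology Set
open scoped ContDiff ENNReal Matrix MatrixOrder

noncomputable section
namespace Vale.Agent.H106
open Vale.Agent.P366.Stmt Vale.Agent.P366.T2 Vale.Agent.T4 Vale.Agent.H177
open Vale.Agent.P366 (sphI sphM av norm_smul_sph sphI_congr)

variable {n : ℕ}

/-- the tensor terms over `H` -/
def TT (g K : Field n) (x : E n) : ℝ :=
  ct g x (AA g x) (AA g x) - 2 * uf g K x * ct g x (fun i j => K x i j) (AA g x) +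
    ct g x (fun i j => K x i j) (fun i j => K x i j)

/-- the potential of the stability operator -/
def VV (g K : Field n) (x : E n) : ℝ :=
  mu g K x - uf g K x * Jn g K x + (TT g K x + Qf g K x - RS g x) / 2

lemma int3 {α : Type*} {m0 : MeasurableSpace α} {μ : Measure α} {a b c : α → ℝ}
    (ha : Integrable a μ) (hb : Integrable b μ) (hc : Integrable c μ) (x y z : ℝ) :
    ∫ t, (x * a t + y * b t + z * c t) ∂μ =
        x * ∫ t, a t ∂μ + y * ∫ t, b t ∂μ + z * ∫ t, c t ∂μ := by
  have h1 : Integrable (fun t => x * a t + y * b t) μ := (ha.const_mul x).add (hb.const_mul y)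
  rw [integral_add h1 (hc.const_mul z), integral_add (ha.const_mul x) (hb.const_mul y),
    integral_const_mul, integral_const_mul, integral_const_mul]

lemma dt_lin3 (g : Field n) (x : E n) (a p q r : Fin n → ℝ) (b c d : ℝ) :
    dt g x a (fun k => b * p k + c * q k + d * r k) =
      b * dt g x a p + c * dt g x a q + d * dt g x a r := by
  unfold dt
  simp only [Finset.mul_sum, ← Finset.sum_add_distrib]
  exact Finset.sum_congr rfl fun k _ => Finset.sum_congr rfl fun l _ => by ring

namespace Met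

variable {g : Field n} {R : ℝ} (h : Met g R)
include h

section

variable {K : Field n} (hK : ∀ i j, Smooth (fun x => K x i j)) (hKs : ∀ x i j, K x i j = K x j i)

include hK in
lemma cTT {x : E n} (hx : R ≤ len x) (hlt : |tauf g K x| < Hm g x) :
    ContDiffAt ℝ ∞ (TT g K) x := by
  have hKc : ∀ i j, ContDiffAt ℝ ∞ (fun y => K y i j) x := fun i j => (hK i j).contDiffAt
  unfold TT
  exact ((h.cct hx (fun i j => h.cAA hx i j) (fun i j => h.cAA hx i j)).sub
    ((contDiffAt_const.mul (h.cuf hK hx hlt)).mul (h.cct hx hKc (fun i j => h.cAA hx i j)))).add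
      (h.cct hx hKc hKc)

include hK in
lemma cVV {x : E n} (hx : R ≤ len x) (hlt : |tauf g K x| < Hm g x) :
    ContDiffAt ℝ ∞ (VV g K) x := by
  unfold VV
  exact ((h.cmu hK hx).sub ((h.cuf hK hx hlt).mul (h.cJn hK hx))).add
    ((((h.cTT hK hx hlt).add (h.cQf hK hx)).sub (h.cRS hx)).div_const 2)

/-- lower bound for the tensor terms -/
lemma TT_ge (hn : 2 ≤ n) {x : E n} (hx : R ≤ len x) (hlt : |tauf g K x| < Hm g x) :
    Qf g K x / ((n : ℝ) - 1) ≤ TT g K x := by
  have h3 := h.tensor_le hn hx (fun i j => K x i j) hlt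
  have hH := H_pos hlt
  have e : Hm g x * TT g K x = Hm g x * ct g x (AA g x) (AA g x) -
      2 * tauf g K x * ct g x (fun i j => K x i j) (AA g x) +
        Hm g x * ct g x (fun i j => K x i j) (fun i j => K x i j) := by
    unfold TT uf
    field_simp
  have e2 : Hm g x * (Qf g K x / ((n : ℝ) - 1)) =
      (Hm g x ^ 2 - tauf g K x ^ 2) * Hm g x / ((n : ℝ) - 1) := by
    unfold Qf; ring
  refine le_of_mul_le_mul_left ?_ hH
  rw [e, e2]
  exact h3

lemma VV_ge (hn : 2 ≤ n) {x : E n} (hx : R ≤ len x) (hlt : |tauf g K x| < Hm g x)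
    (hD : covNorm g (mom g K) x ≤ mu g K x) :
    (Qf g K x / ((n : ℝ) - 1) + Qf g K x - RS g x) / 2 ≤ VV g K x := by
  have hu := u_lt hlt
  have h1 := h.Jn_le (K := K) hx
  have h2 : uf g K x * Jn g K x ≤ mu g K x := by
    have h3 : uf g K x * Jn g K x ≤ |uf g K x| * |Jn g K x| := by
      rw [← abs_mul]; exact le_abs_self _
    have h4 : |uf g K x| * |Jn g K x| ≤ 1 * |Jn g K x| :=
      mul_le_mul_of_nonneg_right hu.le (abs_nonneg _)
    linarith
  have h3 := h.TT_ge hn hx hlt
  unfold VV
  linarith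

/-- tangential derivatives of `H` and `τ` on leaves with parallel mean curvature vector -/
lemma par_dt {x : E n} (hx : R ≤ len x) (hlt : |tauf g K x| < Hm g x)
    (hK : ∀ i j, Smooth (fun x => K x i j))
    (hQ : ∀ a, dt g x a (fun k => pd k (Qf g K) x) = 0)
    (hα : ∀ a, dt g x a (fun k => alp g K k x) = 0) (a : Fin n → ℝ) :
    dt g x a (fun k => pd k (Hm g) x) = tauf g K x * dt g x a (fun k => kap g K k x) ∧
    dt g x a (fun k => pd k (tauf g K) x) = Hm g x * dt g x a (fun k => kap g K k x) := by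
  have hH := H_pos hlt
  have hQp := Q_pos hlt
  have e1 : (fun k => pd k (Qf g K) x) = fun k => (2 * Hm g x) * pd k (Hm g) x +
      (-(2 * tauf g K x)) * pd k (tauf g K) x + 0 * kap g K k x := by
    funext k
    rw [h.pd_Qf hK hx]
    ring
  have e4 : (fun k => alp g K k x) = fun k => 1 * kap g K k x +
      (tauf g K x / Qf g K x) * pd k (Hm g) x +
        (-(Hm g x / Qf g K x)) * pd k (tauf g K) x := by
    funext k
    unfold alp
    rw [h.pd_chi hK hx hlt]
    ring
  have h1 := hQ a
  have h2 := hα a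
  rw [e1, dt_lin3] at h1
  rw [e4, dt_lin3] at h2
  generalize dt g x a (fun k => kap g K k x) = x1 at *
  generalize dt g x a (fun k => pd k (Hm g) x) = x2 at *
  generalize dt g x a (fun k => pd k (tauf g K) x) = x3 at *
  have hQe : Qf g K x = Hm g x ^ 2 - tauf g K x ^ 2 := rfl
  have h1' : Hm g x * x2 = tauf g K x * x3 := by linarith
  have h2' : Qf g K x * x1 + tauf g K x * x2 - Hm g x * x3 = 0 := by
    have : x1 + tauf g K x / Qf g K x * x2 - Hm g x / Qf g K x * x3 = 0 := by linarith
    field_simp at this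
    linarith
  have h3 : x3 = Hm g x * x1 := by
    have : Qf g K x * (x3 - Hm g x * x1) = 0 := by
      linear_combination (-(Hm g x)) * h2' + tauf g K x * h1' + x3 * hQe
    rcases mul_eq_zero.1 this with h | h
    · exact absurd h hQp.ne'
    · linarith
  refine ⟨?_, h3⟩
  have : Hm g x * (x2 - tauf g K x * x1) = 0 := by
    rw [h3] at h1'
    linarith
  rcases mul_eq_zero.1 this with h | h
  · exact absurd h hH.ne'
  · linarith

include hK hKs in
/-- the pointwise identity -/
lemma st_pt {x : E n} (hx : R < len x) (hlt : |tauf g K x| < Hm g x)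
    (hQ : ∀ a, dt g x a (fun k => pd k (Qf g K) x) = 0)
    (hα : ∀ a, dt g x a (fun k => alp g K k x) = 0) {ψ : E n → ℝ} (hψ : ContDiffAt ℝ ∞ ψ x) :
    sg g x * (ψ x * ∑ i, nu g i x * pd i (Qf g K) x) +
      2 * (∑ i, pd i (fun y => sg g y * ((ψ y * Hm g y) * ZZ g i y)) x) +
      2 * (∑ i, pd i (fun y => sg g y * ((ψ y * tauf g K y) * bb g K i y)) x) =
    ad g x * (2 * dt g x (fun k => pd k ψ x) (fun k => pd k (Fx g) x) -
      2 * (ψ x * (Fx g x * VV g K x))) := by
  have hx' := hx.le
  have hs0 := h.sq_pos hx'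
  have hH := H_pos hlt
  rw [h.div_sg hx' (fun i => (hψ.mul (h.cHm hx')).mul (h.cZZ hx' i)),
    h.div_sg hx' (fun i => (hψ.mul (h.ctauf hK hx')).mul (h.cbb hK hx' i)),
    dv_mul (f := fun y => ψ y * Hm g y) (hψ.mul (h.cHm hx')) (fun i => h.cZZ hx' i),
    dv_mul (f := fun y => ψ y * tauf g K y) (hψ.mul (h.ctauf hK hx')) (fun i => h.cbb hK hx' i)]
  have h1 := h.nu_Qf hK hKs hx
  have d1 : ∑ i, ZZ g i x * pd i (fun y => ψ y * Hm g y) x =
      ψ x * dt g x (fun k => pd k (lam g) x) (fun k => pd k (Hm g) x) +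
        Hm g x * dt g x (fun k => pd k (lam g) x) (fun k => pd k ψ x) := by
    have e1 : ∀ i, pd i (fun y => ψ y * Hm g y) x = pd i ψ x * Hm g x + ψ x * pd i (Hm g) x :=
      fun i => ((HPf hψ i).mul (HPf (h.cHm hx') i)).pd
    simp only [e1, mul_add, Finset.sum_add_distrib]
    have e2 : ∑ i, ZZ g i x * (pd i ψ x * Hm g x) =
        Hm g x * ∑ i, (∑ l, Pu g i l x * pd l (lam g) x) * pd i ψ x := by
      rw [Finset.mul_sum]
      exact Finset.sum_congr rfl fun i _ => by unfold ZZ; ring
    have e3 : ∑ i, ZZ g i x * (ψ x * pd i (Hm g) x) =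
        ψ x * ∑ i, (∑ l, Pu g i l x * pd l (lam g) x) * pd i (Hm g) x := by
      rw [Finset.mul_sum]
      exact Finset.sum_congr rfl fun i _ => by unfold ZZ; ring
    rw [e2, e3, sum_dt, sum_dt, h.dt_symm (fun k => pd k (lam g) x),
      h.dt_symm (fun k => pd k (lam g) x)]
    ring
  have d2 : ∑ i, bb g K i x * pd i (fun y => ψ y * tauf g K y) x =
      ψ x * dt g x (fun k => kap g K k x) (fun k => pd k (tauf g K) x) +
        tauf g K x * dt g x (fun k => kap g K k x) (fun k => pd k ψ x) := by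
    have e1 : ∀ i, pd i (fun y => ψ y * tauf g K y) x =
        pd i ψ x * tauf g K x + ψ x * pd i (tauf g K) x :=
      fun i => ((HPf hψ i).mul (HPf (h.ctauf hK hx') i)).pd
    simp only [e1, mul_add, Finset.sum_add_distrib]
    have e2 : ∑ i, bb g K i x * (pd i ψ x * tauf g K x) =
        tauf g K x * ∑ i, (∑ l, Pu g i l x * kap g K l x) * pd i ψ x := by
      rw [Finset.mul_sum]
      exact Finset.sum_congr rfl fun i _ => by unfold bb; ring
    have e3 : ∑ i, bb g K i x * (ψ x * pd i (tauf g K) x) =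
        ψ x * ∑ i, (∑ l, Pu g i l x * kap g K l x) * pd i (tauf g K) x := by
      rw [Finset.mul_sum]
      exact Finset.sum_congr rfl fun i _ => by unfold bb; ring
    rw [e2, e3, sum_dt, sum_dt, h.dt_symm (fun k => kap g K k x),
      h.dt_symm (fun k => kap g K k x)]
    ring
  have d3 : ∑ i, bb g K i x * pd i (lam g) x =
      dt g x (fun k => kap g K k x) (fun k => pd k (lam g) x) := by
    rw [h.dt_symm]; exact sum_dt
  rw [d1, d2]
  rw [d3] at h1
  -- the gradient of `F`
  have d4 : √(ww g x) * dt g x (fun k => pd k ψ x) (fun k => pd k (Fx g) x) =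
      dt g x (fun k => pd k ψ x) (fun k => pd k (Hm g) x) +
        Hm g x * dt g x (fun k => pd k ψ x) (fun k => pd k (lam g) x) := by
    have e1 : (fun k => pd k (Fx g) x) = fun k => (1 / √(ww g x)) * pd k (Hm g) x +
        (Hm g x / √(ww g x)) * pd k (lam g) x + 0 * pd k ψ x := by
      funext k
      have := h.pd_Fx hx' (h.cHm hx') k
      unfold Fx
      rw [this]; ring
    rw [e1, dt_lin3]
    field_simp
    ring
  have p1 := (h.par_dt hx' hlt hK hQ hα (fun k => pd k ψ x)).1
  have p2 := (h.par_dt hx' hlt hK hQ hα (fun k => pd k (lam g) x)).1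
  have p3 := (h.par_dt hx' hlt hK hQ hα (fun k => kap g K k x)).2
  have s1 := h.dt_symm (x := x) (fun k => pd k (lam g) x) (fun k => pd k ψ x)
  have s2 := h.dt_symm (x := x) (fun k => kap g K k x) (fun k => pd k ψ x)
  have s3 := h.dt_symm (x := x) (fun k => pd k (lam g) x) (fun k => kap g K k x)
  have hF : √(ww g x) * Fx g x = Hm g x := by unfold Fx; field_simp
  have hu : Hm g x * uf g K x = tauf g K x := by unfold uf; field_simp
  have hV : 2 * (Hm g x * VV g K x) = 2 * (Hm g x * mu g K x - tauf g K x * Jn g K x) +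
      (Hm g x * ct g x (AA g x) (AA g x) - 2 * tauf g K x * ct g x (fun i j => K x i j) (AA g x) +
        Hm g x * ct g x (fun i j => K x i j) (fun i j => K x i j)) + Hm g x * Qf g K x -
        Hm g x * RS g x := by
    unfold VV TT
    rw [← hu]
    ring
  rw [p1] at d4
  rw [p2, p3, s1, s2, s3]
  rw [s3] at p2
  unfold ad
  linear_combination (sg g x * ψ x) * h1 + (sg g x * ψ x) * hV - (2 * sg g x) * d4 +
    (2 * sg g x * ψ x * VV g K x) * hF

/-- Cauchy–Schwarz, the degenerate case -/
lemma dt_zero {x : E n} (hx : R ≤ len x) {b : Fin n → ℝ} (hb : dt g x b b = 0) (a : Fin n → ℝ) :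
    dt g x a b = 0 := by
  by_contra hne
  set s := dt g x a b with hs
  set A := dt g x a a with hA
  have h1 := h.dt_nonneg hx (fun k => 1 * a k + (-(A + 1) / (2 * s)) * b k)
  have e : dt g x (fun k => 1 * a k + (-(A + 1) / (2 * s)) * b k)
      (fun k => 1 * a k + (-(A + 1) / (2 * s)) * b k) =
      A + 2 * (-(A + 1) / (2 * s)) * s + (-(A + 1) / (2 * s)) ^ 2 * dt g x b b := by
    have h2 := dt_lin g x a b a b 1 (-(A + 1) / (2 * s)) 0 0 1 (-(A + 1) / (2 * s)) 0 0
    have e1 : (fun k => (1 : ℝ) * a k + -(A + 1) / (2 * s) * b k) =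
        fun k => 1 * a k + -(A + 1) / (2 * s) * b k + 0 * a k + 0 * b k := by
      funext k; ring
    rw [e1, h2, h.dt_symm b a]
    ring
  rw [e, hb] at h1
  have e2 : A + 2 * (-(A + 1) / (2 * s)) * s + (-(A + 1) / (2 * s)) ^ 2 * 0 = -1 := by
    field_simp
    ring
  rw [e2] at h1
  linarith

include hK in
/-- the derivative of a function constant on nearby spheres -/
lemma q_deriv (hn : 0 < n) {r : ℝ} (hr : R < r)
    (hq : ∀ᶠ s in 𝓝 r, ∃ c : ℝ, ∀ x, len x = s → Qf g K x = c) :
    ∃ q' : ℝ, ∀ x, len x = r → ∀ i, pd i (Qf g K) x = q' * nx i x := by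
  obtain ⟨θ, hθ⟩ := exists_len (n := n) hn (r := 1) zero_le_one
  have hr0 : 0 < r := h.hR.trans hr
  have hθ' : ∀ s : ℝ, 0 ≤ s → len (s • θ) = s := by
    intro s hs
    show ‖s • θ‖ = s
    have : ‖θ‖ = 1 := hθ
    rw [norm_smul, this, mul_one, Real.norm_of_nonneg hs]
  set qq : ℝ → ℝ := fun s => Qf g K (s • θ) with hqq
  have hd : DifferentiableAt ℝ qq r := by
    have h1 : DifferentiableAt ℝ (Qf g K) (r • θ) :=
      (h.cQf hK (by rw [hθ' r hr0.le]; exact hr.le)).differentiableAt (by simp)
    exact h1.comp r (f := fun s : ℝ => s • θ) (by fun_prop)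
  refine ⟨deriv qq r, fun x hx i => ?_⟩
  have hx0 : x ≠ 0 := h.ne_zero (by rw [hx]; exact hr.le)
  have hev : Qf g K =ᶠ[𝓝 x] fun y => qq (len y) := by
    have hc : ContinuousAt (len : E n → ℝ) x := continuous_norm.continuousAt
    have h2 : ∀ᶠ y in 𝓝 x, ∃ c : ℝ, ∀ z, len z = len y → Qf g K z = c := by
      have := hc.eventually (p := fun s => ∃ c : ℝ, ∀ x, len x = s → Qf g K x = c) (by
        rw [hx]; exact hq)
      exact this
    filter_upwards [h2] with y hy
    obtain ⟨c, hc⟩ := hy
    simp only [hqq]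
    rw [hc y rfl, hc _ (hθ' _ (norm_nonneg y))]
  have h3 := HP.radial hx0 (f := qq) (f' := deriv qq r) (by rw [hx]; exact hd.hasDerivAt) i
  rw [pd_congr' hev, h3.pd]
  unfold nx
  ring

include hK hKs in
/-- the integrated identity -/
lemma st_int [Nontrivial (E n)] {r : ℝ} (hr : R < r)
    (hlt : ∀ x, len x = r → |tauf g K x| < Hm g x) {q' : ℝ}
    (hq : ∀ x, len x = r → ∀ i, pd i (Qf g K) x = q' * nx i x)
    (hα : ∀ x, len x = r → dt g x (fun k => alp g K k x) (fun k => alp g K k x) = 0)
    {ψ : E n → ℝ} (hψ : ∀ x, R ≤ len x → ContDiffAt ℝ ∞ ψ x) :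
    q' * leafI g ψ r = 2 * leafI g (fun x => dt g x (fun k => pd k ψ x)
      (fun k => pd k (Fx g) x)) r - 2 * leafI g (fun x => ψ x * (Fx g x * VV g K x)) r := by
  have hr0 : 0 < r := h.hR.trans hr
  have hP : (0 : ℝ) < r ^ (n - 1) := by positivity
  have hxr : ∀ x : E n, len x = r → R < len x := fun x hx => by rw [hx]; exact hr
  have t2 : sphI (fun x => ∑ i, pd i (fun y => sg g y * ((ψ y * Hm g y) * ZZ g i y)) x) r = 0 :=
    h.sphI_tan (f := fun y => ψ y * Hm g y) (fun x hx => (hψ x hx).mul (h.cHm hx))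
      (fun l x hx => contDiffAt_pd (h.clam hx) l) hr
  have t3 : sphI (fun x => ∑ i, pd i (fun y => sg g y * ((ψ y * tauf g K y) * bb g K i y)) x) r =
      0 := h.sphI_tan (f := fun y => ψ y * tauf g K y)
        (fun x hx => (hψ x hx).mul (h.ctauf hK hx)) (fun l x hx => h.ckap hK hx l) hr
  have cD : ∀ (V : Fin n → E n → ℝ), (∀ i x, R ≤ len x → ContDiffAt ℝ ∞ (V i) x) →
      ∀ x, len x = r → ContinuousAt (fun x => ∑ i, pd i (fun y => sg g y * V i y) x) x := by
    intro V hV x hx
    have hx' := (hxr x hx).le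
    have : ContDiffAt ℝ ∞ (fun x => ∑ i, pd i (fun y => sg g y * V i y) x) x :=
      ContDiffAt.sum fun i _ => contDiffAt_pd ((h.csg hx').mul (hV i x hx')) i
    exact this.continuousAt
  have c2 := cD (fun i y => (ψ y * Hm g y) * ZZ g i y) fun i x hx =>
    ((hψ x hx).mul (h.cHm hx)).mul (h.cZZ hx i)
  have c3 := cD (fun i y => (ψ y * tauf g K y) * bb g K i y) fun i x hx =>
    ((hψ x hx).mul (h.ctauf hK hx)).mul (h.cbb hK hx i)
  have c1 : ∀ x, len x = r → ContinuousAt (fun x => ad g x * ψ x) x := fun x hx =>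
    ((h.cad (hxr x hx).le).mul (hψ x (hxr x hx).le)).continuousAt
  have i1 := integrable_at hr0.le c1
  have i2 := integrable_at hr0.le c2
  have i3 := integrable_at hr0.le c3
  have cA : ∀ x, len x = r → ContinuousAt
      (fun x => dt g x (fun k => pd k ψ x) (fun k => pd k (Fx g) x)) x := fun x hx =>
    (h.cdt (hxr x hx).le (fun k => contDiffAt_pd (hψ x (hxr x hx).le) k)
      (fun k => contDiffAt_pd (h.cFx (hxr x hx).le) k)).continuousAt
  have cB : ∀ x, len x = r → ContinuousAt (fun x => ψ x * (Fx g x * VV g K x)) x := fun x hx =>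
    ((hψ x (hxr x hx).le).mul ((h.cFx (hxr x hx).le).mul
      (h.cVV hK (hxr x hx).le (hlt x hx)))).continuousAt
  have i4 := h.int_at hr.le cA
  have i5 := h.int_at hr.le cB
  have h1 : sphI (fun x => q' * (ad g x * ψ x) +
      2 * (∑ i, pd i (fun y => sg g y * ((ψ y * Hm g y) * ZZ g i y)) x) +
      2 * (∑ i, pd i (fun y => sg g y * ((ψ y * tauf g K y) * bb g K i y)) x)) r =
      sphI (fun x => ad g x * (2 * dt g x (fun k => pd k ψ x) (fun k => pd k (Fx g) x) +
        (-2) * (ψ x * (Fx g x * VV g K x)))) r := by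
    refine sphI_congr hr0.le fun x hx => ?_
    have hx1 : len x = r := hx
    have hx2 := hxr x hx1
    have h2 := h.st_pt hK hKs hx2 (hlt x hx1) (fun a => ?_)
      (fun a => h.dt_zero hx2.le (hα x hx1) a) (hψ x hx2.le)
    · have e : ∑ i, nu g i x * pd i (Qf g K) x = q' * √(ww g x) := by
        rw [← h.nu_nx hx2.le, Finset.mul_sum]
        exact Finset.sum_congr rfl fun i _ => by rw [hq x hx1]; ring
      rw [e] at h2
      unfold ad at h2 ⊢
      linear_combination h2
    · have e : (fun k => pd k (Qf g K) x) = fun k => q' * nx k x := by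
        funext k
        exact hq x hx1 k
      rw [e]
      unfold dt
      refine Finset.sum_eq_zero fun k _ => ?_
      have e2 : ∑ l, Pu g k l x * a k * (q' * nx l x) = a k * q' * ∑ l, Pu g k l x * nx l x := by
        rw [Finset.mul_sum]
        exact Finset.sum_congr rfl fun l _ => by ring
      rw [e2, h.Pu_nx hx2.le, mul_zero]
  have h2 : sphI (fun x => q' * (ad g x * ψ x) +
      2 * (∑ i, pd i (fun y => sg g y * ((ψ y * Hm g y) * ZZ g i y)) x) +
      2 * (∑ i, pd i (fun y => sg g y * ((ψ y * tauf g K y) * bb g K i y)) x)) r =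
      q' * sphI (fun x => ad g x * ψ x) r := by
    have e1 : sphI (fun x => q' * (ad g x * ψ x) +
      2 * (∑ i, pd i (fun y => sg g y * ((ψ y * Hm g y) * ZZ g i y)) x) +
      2 * (∑ i, pd i (fun y => sg g y * ((ψ y * tauf g K y) * bb g K i y)) x)) r =
      q' * sphI (fun x => ad g x * ψ x) r +
      2 * sphI (fun x => ∑ i, pd i (fun y => sg g y * ((ψ y * Hm g y) * ZZ g i y)) x) r +
      2 * sphI (fun x => ∑ i, pd i (fun y => sg g y * ((ψ y * tauf g K y) * bb g K i y)) x) r := by
      exact int3 i1 i2 i3 q' 2 2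
    rw [e1, t2, t3]
    ring
  rw [h2] at h1
  have h3 := h.leafI_lin hr.le cA cB 2 (-2)
  have h4 : q' * leafI g ψ r = leafI g (fun x => 2 * dt g x (fun k => pd k ψ x)
      (fun k => pd k (Fx g) x) + (-2) * (ψ x * (Fx g x * VV g K x))) r := by
    unfold leafI
    rw [← h1]
    ring
  rw [h4, h3]
  ring

include hK hKs in
/-- **Stable leaves with parallel mean curvature vector.** -/
theorem der_of_stable [Nontrivial (E n)] (hn : 2 ≤ n) {r : ℝ} (hr : R < r)
    (hlt : ∀ x, len x = r → |tauf g K x| < Hm g x)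
    (hD : ∀ x, len x = r → covNorm g (mom g K) x ≤ mu g K x)
    (hq : ∀ᶠ s in 𝓝 r, ∃ c : ℝ, ∀ x, len x = s → Qf g K x = c)
    (hα : ∀ x, len x = r → dt g x (fun k => alp g K k x) (fun k => alp g K k x) = 0)
    (hs : ∀ ψ : E n → ℝ, (∀ x, len x = r → ContDiffAt ℝ ∞ ψ x) → leafI g ψ r = 0 →
      leafI g (fun x => VV g K x * ψ x ^ 2) r ≤
        leafI g (fun x => dt g x (fun k => pd k ψ x) (fun k => pd k ψ x)) r)
    (hcurv : leafI g (RS g) r ≤
      ((n : ℝ) - 1) * ((n : ℝ) - 2) / rhoA g r ^ 2 * arA g r) : DerR g K r := by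
  have h2n : (2 : ℝ) ≤ n := by exact_mod_cast hn
  have hN : 0 < (n : ℝ) - 1 := by linarith
  have hr0 : 0 < r := h.hR.trans hr
  have hxr : ∀ x : E n, len x = r → R < len x := fun x hx => by rw [hx]; exact hr
  obtain ⟨q', hq'⟩ := h.q_deriv hK (by omega) hr hq
  obtain ⟨c, hc⟩ := hq.self_of_nhds
  have hA := h.arA_pos hr.le
  set A := arA g r with hAd
  set A' := leafI g (Fx g) r with hA'd
  set Fb := A' / A with hFb
  have cF : ∀ x, len x = r → ContinuousAt (Fx g) x := fun x hx => (h.cFx (hxr x hx).le).continuousAt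
  have cV : ∀ x, len x = r → ContinuousAt (VV g K) x := fun x hx =>
    (h.cVV hK (hxr x hx).le (hlt x hx)).continuousAt
  have cR : ∀ x, len x = r → ContinuousAt (RS g) x := fun x hx => (h.cRS (hxr x hx).le).continuousAt
  have c1 : ∀ x : E n, len x = r → ContinuousAt (fun _ : E n => (1 : ℝ)) x := fun _ _ =>
    continuousAt_const
  have hA'n : 0 ≤ A' := h.leafI_nonneg hr.le cF fun x hx => (h.F_pos (hxr x hx).le (hlt x hx)).le
  have hFn : 0 ≤ Fb := div_nonneg hA'n hA.le
  -- test function 1
  have w1 := h.st_int hK hKs hr hlt hq' hα (ψ := fun _ => 1) (fun x _ => contDiffAt_const)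
  have w1' : q' * A = -2 * leafI g (fun x => Fx g x * VV g K x) r := by
    have e1 : leafI g (fun x => dt g x (fun k => pd k (fun _ : E n => (1 : ℝ)) x)
        (fun k => pd k (Fx g) x)) r = 0 := by
      rw [h.leafI_congr hr.le (f' := fun _ => 0) fun x hx => ?_]
      · exact leafI_zero r
      · have e2 : (fun k => pd k (fun _ : E n => (1 : ℝ)) x) = fun _ => 0 := by
          funext k
          exact (HP.const k 1 x).pd
        rw [e2]
        unfold dt
        simp
    rw [e1] at w1
    have e3 : leafI g (fun x => 1 * (Fx g x * VV g K x)) r =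
        leafI g (fun x => Fx g x * VV g K x) r :=
      h.leafI_congr hr.le fun x _ => one_mul _
    rw [e3] at w1
    have e4 : leafI g (fun _ => 1) r = A := rfl
    rw [e4] at w1
    linarith
  -- test function `F - F̄`
  set ψ : E n → ℝ := fun x => Fx g x - Fb with hψd
  have hψ : ∀ x, R ≤ len x → ContDiffAt ℝ ∞ ψ x := fun x hx => (h.cFx hx).sub contDiffAt_const
  have hψ0 : leafI g ψ r = 0 := by
    have e := h.leafI_lin hr.le cF c1 1 (-Fb)
    have e2 : leafI g ψ r = leafI g (fun x => 1 * Fx g x + -Fb * 1) r :=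
      h.leafI_congr hr.le fun x _ => by simp only [hψd]; ring
    rw [e2, e]
    change 1 * A' + -Fb * A = 0
    rw [hFb]
    field_simp
    ring
  have hpd : ∀ x, len x = r → (fun k => pd k ψ x) = fun k => pd k (Fx g) x := by
    intro x hx
    funext k
    have h5 : HP k ψ (pd k (Fx g) x - 0) x := (HPf (h.cFx (hxr x hx).le) k).sub (HP.const k Fb x)
    rw [h5.pd, sub_zero]
  have w2 := h.st_int hK hKs hr hlt hq' hα (ψ := ψ) hψ
  rw [hψ0, mul_zero] at w2
  have w3 := hs ψ (fun x hx => hψ x (hxr x hx).le) hψ0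
  have e5 : leafI g (fun x => dt g x (fun k => pd k ψ x) (fun k => pd k (Fx g) x)) r =
      leafI g (fun x => dt g x (fun k => pd k ψ x) (fun k => pd k ψ x)) r :=
    h.leafI_congr hr.le fun x hx => by
      show dt g x (fun k => pd k ψ x) (fun k => pd k (Fx g) x) = _
      rw [← hpd x hx]
  rw [e5] at w2
  have cψ : ∀ x, len x = r → ContinuousAt ψ x := fun x hx => (hψ x (hxr x hx).le).continuousAt
  have cFV : ∀ x, len x = r → ContinuousAt (fun x => Fx g x * VV g K x) x := fun x hx =>
    (cF x hx).mul (cV x hx)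
  have cψFV : ∀ x, len x = r → ContinuousAt (fun x => ψ x * (Fx g x * VV g K x)) x := fun x hx =>
    (cψ x hx).mul (cFV x hx)
  have w4 : leafI g (fun x => VV g K x * ψ x ^ 2) r =
      leafI g (fun x => ψ x * (Fx g x * VV g K x)) r - Fb * (leafI g (fun x => Fx g x * VV g K x) r -
        Fb * leafI g (VV g K) r) := by
    have e6 : leafI g (fun x => VV g K x * ψ x ^ 2) r =
        leafI g (fun x => 1 * (ψ x * (Fx g x * VV g K x)) +
          (-Fb) * (1 * (Fx g x * VV g K x) + (-Fb) * VV g K x)) r :=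
      h.leafI_congr hr.le fun x _ => by simp only [hψd]; ring
    rw [e6, h.leafI_lin (a := fun x => ψ x * (Fx g x * VV g K x))
      (b := fun x => 1 * (Fx g x * VV g K x) + (-Fb) * VV g K x) hr.le cψFV
      (fun x hx => (continuousAt_const.mul (cFV x hx)).add (continuousAt_const.mul (cV x hx))),
      h.leafI_lin hr.le cFV cV]
    ring
  have w5 : Fb * (Fb * leafI g (VV g K) r) ≤ Fb * leafI g (fun x => Fx g x * VV g K x) r := by
    linarith
  -- lower bound for the potential
  have w6 : (c / ((n : ℝ) - 1) + c) * A / 2 - leafI g (RS g) r / 2 ≤ leafI g (VV g K) r := by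
    have e7 := h.leafI_mono (a := fun x => ((c / ((n : ℝ) - 1) + c) / 2) * 1 + (-(1 / 2)) * RS g x)
      (b := VV g K) hr.le (fun x hx => (continuousAt_const.mul (c1 x hx)).add
        (continuousAt_const.mul (cR x hx))) cV fun x hx => by
          have h8 := h.VV_ge hn (hxr x hx).le (hlt x hx) (hD x hx)
          rw [hc x hx] at h8
          refine le_trans (le_of_eq ?_) h8
          ring
    rw [h.leafI_lin hr.le c1 cR] at e7
    change (c / ((n : ℝ) - 1) + c) / 2 * A + -(1 / 2) * leafI g (RS g) r ≤ _ at e7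
    linarith
  -- the derivative
  unfold DerR
  have e8 : r ^ (n - 1) * sphI (fun x => ∑ i, pd i (fun y => sg g y * (Qf g K y * nu g i y)) x) r =
      c * A' + q' * A := by
    have e9 : r ^ (n - 1) * sphI (fun x => ∑ i, pd i (fun y => sg g y * (Qf g K y * nu g i y)) x) r =
        leafI g (fun x => c * Fx g x + q' * 1) r := by
      unfold leafI
      congr 1
      refine sphI_congr hr0.le fun x hx => ?_
      have hx1 : len x = r := hx
      have hx2 := (hxr x hx1).le
      rw [h.div_sg hx2 (fun i => (h.cQf hK hx2).mul (h.cnu hx2 i)),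
        dv_mul (h.cQf hK hx2) (fun i => h.cnu hx2 i), hc x hx1]
      have e : ∑ i, nu g i x * pd i (Qf g K) x = q' * √(ww g x) := by
        rw [← h.nu_nx hx2, Finset.mul_sum]
        exact Finset.sum_congr rfl fun i _ => by rw [hq' x hx1]; ring
      rw [e]
      have hs0 := h.sq_pos hx2
      have hF : √(ww g x) * Fx g x = Hm g x := by unfold Fx; field_simp
      unfold ad
      change sg g x * (c * Hm g x + q' * √(ww g x)) = _
      rw [← hF]
      ring
    rw [e9, h.leafI_lin hr.le cF c1]
    rfl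
  have e10 : yyQ g K r = c * A := by
    unfold yyQ
    rw [h.leafI_congr hr.le hc, leafI_const]
  rw [e8, e10]
  have hAA : A' = Fb * A := by rw [hFb]; field_simp
  set kc := ((n : ℝ) - 1) * ((n : ℝ) - 2) / rhoA g r ^ 2 with hkc
  rcases hFn.eq_or_lt with h0 | h0
  · -- the degenerate case
    have hA0 : A' = 0 := by rw [hAA, ← h0, zero_mul]
    exfalso
    have : 0 < leafI g (Fx g) r := by
      unfold leafI
      refine mul_pos (by positivity) ?_
      have hi := integrable_at hr0.le (f := fun x => ad g x * Fx g x) fun x hx =>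
        (h.cad (hxr x hx).le).continuousAt.mul (cF x hx)
      have hpos : ∀ θ : sphere (0 : E n) 1, 0 < ad g (r • (θ : E n)) * Fx g (r • (θ : E n)) :=
        fun θ => by
          have hθ : len (r • (θ : E n)) = r := norm_smul_sph hr0.le θ
          exact mul_pos (h.ad_pos (hxr _ hθ).le) (h.F_pos (hxr _ hθ).le (hlt _ hθ))
      have h1 : (sphM n) (Function.support fun θ : sphere (0 : E n) 1 =>
          ad g (r • (θ : E n)) * Fx g (r • (θ : E n))) ≠ 0 := by
        have e : (Function.support fun θ : sphere (0 : E n) 1 =>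
            ad g (r • (θ : E n)) * Fx g (r • (θ : E n))) = univ := by
          ext θ
          simp only [Function.mem_support, mem_univ, iff_true]
          exact (hpos θ).ne'
        rw [e]
        intro h
        exact Measure.toSphere_ne_zero (volume : Measure (E n)) (Measure.measure_univ_eq_zero.mp h)
      exact (integral_pos_iff_support_of_nonneg (fun θ => (hpos θ).le) hi).2 (pos_iff_ne_zero.2 h1)
    rw [← hA'd, hA0] at this
    exact lt_irrefl _ this
  · have w7 : Fb * leafI g (VV g K) r ≤ leafI g (fun x => Fx g x * VV g K x) r :=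
      le_of_mul_le_mul_left w5 h0
    have w8 := mul_le_mul_of_nonneg_left w6 h0.le
    have w9 := mul_le_mul_of_nonneg_left hcurv h0.le
    have e11 : A' / A / ((n : ℝ) - 1) * (c * A) = c * A' / ((n : ℝ) - 1) := by
      field_simp
    change c * A' + q' * A ≤ kc * A' - A' / A / ((n : ℝ) - 1) * (c * A)
    rw [e11, hAA]
    have e12 : c * (Fb * A) / ((n : ℝ) - 1) = Fb * (c / ((n : ℝ) - 1) * A) := by ring
    rw [e12]
    nlinarith

end

end Met

end Vale.Agent.H106
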